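import Crest.Agent.R17.A.Prim

/-!
Row 17, block A0: counting lemmas (all finite sets `A` are arbitrary).
-/

set_option autoImplicit false

namespace Crest.Agent.R17

open scoped ComplexConjugate

theorem card_ball_le {X : ℝ} (hX : 1 ≤ X) : ((ball X).card : ℝ) ≤ 11 * X := by
  set s := Real.sqrt (4 * X / 3) with hs
  have hs0 : 0 ≤ s := Real.sqrt_nonneg _
  have hs2 : s ^ 2 = 4 * X / 3 := Real.sq_sqrt (by positivity)
  have hs3 : s ≤ 29 / 25 * X := Real.sqrt_le_iff.2 ⟨by positivity, by nlinarith⟩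
  have key : ∀ x : ℤ, (x : ℝ) ^ 2 ≤ 4 * X / 3 → x ∈ Finset.Icc (-(⌊s⌋₊ : ℤ)) ⌊s⌋₊ := fun x hx => by
    have h1 : ((x.natAbs : ℕ) : ℝ) ≤ s := by
      rw [Nat.cast_natAbs, Int.cast_abs]
      exact Real.abs_le_sqrt hx
    have h2 := Nat.le_floor h1
    rw [Finset.mem_Icc]
    omega
  have h1 : (ball X).card ≤
      (Finset.Icc (-(⌊s⌋₊ : ℤ)) ⌊s⌋₊ ×ˢ Finset.Icc (-(⌊s⌋₊ : ℤ)) ⌊s⌋₊).card := by
    refine Finset.card_le_card_of_injOn crd.symm (fun n hn => ?_) crd.symm.injective.injOn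
    obtain ⟨⟨x, y⟩, rfl⟩ := crd.surjective n
    have h := mem_ball.1 hn
    rw [crd_apply, nm_coord] at h
    rw [Equiv.symm_apply_apply, Finset.mem_coe, Finset.mem_product]
    exact ⟨key x (by nlinarith [sq_nonneg ((x : ℝ) - 2 * y)]),
      key y (by nlinarith [sq_nonneg ((y : ℝ) - 2 * x)])⟩
  have h2 : (Finset.Icc (-(⌊s⌋₊ : ℤ)) ⌊s⌋₊).card = 2 * ⌊s⌋₊ + 1 := by
    rw [Int.card_Icc]; omega
  rw [Finset.card_product, h2] at h1
  have h3 : ((ball X).card : ℝ) ≤ (2 * ⌊s⌋₊ + 1) * (2 * ⌊s⌋₊ + 1) := by exact_mod_cast h1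
  have h4 := Nat.floor_le hs0
  have h5 : (0 : ℝ) ≤ ⌊s⌋₊ := Nat.cast_nonneg _
  nlinarith

theorem card_le_of_nm_le {X : ℝ} (hX : 0 ≤ X) {A : Finset O} (h : ∀ n ∈ A, n ≠ 0 ∧ nm n ≤ X) :
    (A.card : ℝ) ≤ 11 * X := by
  rcases A.eq_empty_or_nonempty with rfl | ⟨n, hn⟩
  · simp [hX]
  · refine le_trans ?_ (card_ball_le ((one_le_nm (h n hn).1).trans (h n hn).2))
    exact_mod_cast Finset.card_le_card fun m hm => mem_ball.2 (h m hm).2

/-- multiples of `d` -/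
theorem card_dvd_le {X : ℝ} (hX : 0 ≤ X) {d : O} (hd : d ≠ 0) {A : Finset O}
    (h : ∀ n ∈ A, n ≠ 0 ∧ d ∣ n ∧ nm n ≤ X) : (A.card : ℝ) ≤ 11 * X / nm d := by
  classical
  have hd0 := nm_pos hd
  have h1 : A ⊆ ((ball (X / nm d)).erase 0).image (d * ·) := fun n hn => by
    obtain ⟨h0, ⟨m, rfl⟩, h2⟩ := h n hn
    refine Finset.mem_image_of_mem _ (Finset.mem_erase.2 ⟨right_ne_zero_of_mul h0, ?_⟩)
    rwa [mem_ball, le_div_iff₀ hd0, mul_comm, ← nm_mul]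
  have h2 := card_le_of_nm_le (X := X / nm d) (by positivity) (A := (ball (X / nm d)).erase 0)
    fun n hn => ⟨Finset.ne_of_mem_erase hn, mem_ball.1 (Finset.mem_of_mem_erase hn)⟩
  rw [mul_div_assoc]
  refine le_trans ?_ h2
  exact_mod_cast (Finset.card_le_card h1).trans Finset.card_image_le

theorem cta_log {n : O} (hn : n ≠ 0) :
    (2 : ℝ) ^ Nat.log 2 (nN n) ≤ nm n ∧ nm n ≤ 2 ^ (Nat.log 2 (nN n) + 1) := by
  have h1 := Nat.pow_log_le_self 2 (mt nN_eq_zero.1 hn)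
  have h2 := (Nat.lt_pow_succ_log_self one_lt_two (nN n)).le
  unfold nm
  exact ⟨by exact_mod_cast h1, by exact_mod_cast h2⟩

/-- dyadic decomposition -/
theorem cta_dyadic {A : Finset O} (hA : ∀ n ∈ A, n ≠ 0) (f : O → ℝ) (g : ℕ → ℝ)
    (hg : ∀ i, 0 ≤ g i) (hf : ∀ n ∈ A, f n ≤ g (Nat.log 2 (nN n))) (S : Finset ℕ)
    (hS : ∀ n ∈ A, Nat.log 2 (nN n) ∈ S) : ∑ n ∈ A, f n ≤ ∑ i ∈ S, 22 * (2 ^ i * g i) := by
  rw [← Finset.sum_fiberwise_of_maps_to hS]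
  refine Finset.sum_le_sum fun i _ => ?_
  have h1 := card_le_of_nm_le (X := 2 ^ (i + 1)) (by positivity)
    (A := A.filter fun n => Nat.log 2 (nN n) = i) fun n hn => by
      obtain ⟨h2, rfl⟩ := Finset.mem_filter.1 hn
      exact ⟨hA n h2, (cta_log (hA n h2)).2⟩
  calc _ ≤ (A.filter fun n => Nat.log 2 (nN n) = i).card • g i :=
        Finset.sum_le_card_nsmul _ _ _ fun n hn => by
          obtain ⟨h2, rfl⟩ := Finset.mem_filter.1 hn
          exact hf n h2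
    _ ≤ 11 * 2 ^ (i + 1) * g i := by
        rw [nsmul_eq_mul]; exact mul_le_mul_of_nonneg_right h1 (hg i)
    _ = _ := by ring

theorem cta_range {X : ℝ} {n : O} (h : nm n ≤ X) :
    Nat.log 2 (nN n) ∈ Finset.range (Nat.log 2 ⌊X⌋₊ + 1) :=
  Finset.mem_range.2 (Nat.lt_succ_of_le (Nat.log_mono_right (Nat.le_floor h)))

theorem cta_pow_le {X : ℝ} (hX : 1 ≤ X) : (2 : ℝ) ^ Nat.log 2 ⌊X⌋₊ ≤ X := by
  have h1 := Nat.pow_log_le_self 2 (Nat.floor_pos.2 hX).ne'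
  refine le_trans ?_ (Nat.floor_le (zero_le_one.trans hX))
  exact_mod_cast h1

theorem sum_inv_nm_le {X : ℝ} (hX : 1 ≤ X) {A : Finset O} (h : ∀ n ∈ A, nm n ≤ X) :
    ∑ n ∈ A, (nm n)⁻¹ ≤ 44 * (1 + Real.log X) := by
  classical
  rw [← Finset.sum_erase A (a := 0) (by simp)]
  refine (cta_dyadic (fun n hn => Finset.ne_of_mem_erase hn) _ (fun i => (2 ^ i)⁻¹)
    (fun i => by positivity)
    (fun n hn => inv_anti₀ (by positivity) (cta_log (Finset.ne_of_mem_erase hn)).1) _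
    fun n hn => cta_range (h n (Finset.mem_of_mem_erase hn))).trans ?_
  have e : ∀ i : ℕ, (22 : ℝ) * (2 ^ i * (2 ^ i)⁻¹) = 22 := fun i => by field_simp
  simp only [e, Finset.sum_const, Finset.card_range, nsmul_eq_mul]
  have h1 := Real.log_le_log (by positivity) (cta_pow_le hX)
  rw [Real.log_pow] at h1
  have h2 := Real.log_two_gt_d9
  have h3 : (0 : ℝ) ≤ Nat.log 2 ⌊X⌋₊ := Nat.cast_nonneg _
  push_cast
  nlinarith

theorem cta_tail {σ : ℝ} (hσ : 1 < σ) : ∃ C : ℝ, 0 < C ∧ ∀ (X : ℝ) (A : Finset O), 0 < X →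
    (∀ n ∈ A, X ≤ nm n) → ∑ n ∈ A, nm n ^ (-σ) ≤ C * X ^ (1 - σ) := by
  set r : ℝ := 2 ^ (1 - σ) with hr
  have hr0 : 0 < r := by positivity
  have hr1 : r < 1 := Real.rpow_lt_one_of_one_lt_of_neg one_lt_two (by linarith)
  have hr2 : 0 < 1 - r := by linarith
  have e : ∀ i : ℕ, ((2 : ℝ) ^ i) ^ (1 - σ) = r ^ i := fun i => by
    rw [hr, ← Real.rpow_natCast, ← Real.rpow_natCast, ← Real.rpow_mul zero_le_two,
      ← Real.rpow_mul zero_le_two, mul_comm]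
  refine ⟨22 / (r * (1 - r)), by positivity, fun X A hX h => ?_⟩
  have hA : ∀ n ∈ A, n ≠ 0 := fun n hn h0 => by
    have := h n hn
    rw [h0, nm_zero] at this
    linarith
  rcases A.eq_empty_or_nonempty with rfl | hne
  · rw [Finset.sum_empty]; positivity
  obtain ⟨n₀, hn₀, hmin⟩ := A.exists_min_image (fun n => Nat.log 2 (nN n)) hne
  obtain ⟨n₁, -, hmax⟩ := A.exists_max_image (fun n => Nat.log 2 (nN n)) hne
  refine (cta_dyadic hA _ (fun i => ((2 : ℝ) ^ i) ^ (-σ)) (fun i => by positivity)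
    (fun n hn => Real.rpow_le_rpow_of_nonpos (by positivity) (cta_log (hA n hn)).1 (by linarith))
    (Finset.Ico (Nat.log 2 (nN n₀)) (Nat.log 2 (nN n₁) + 1))
    fun n hn => Finset.mem_Ico.2 ⟨hmin n hn, Nat.lt_succ_of_le (hmax n hn)⟩).trans ?_
  have e2 : ∀ i : ℕ, (2 : ℝ) ^ i * ((2 : ℝ) ^ i) ^ (-σ) = r ^ i := fun i => by
    rw [← e, sub_eq_add_neg, Real.rpow_add (by positivity), Real.rpow_one]
  simp only [e2, ← Finset.mul_sum]
  have h1 := geom_sum_Ico_le_of_lt_one (m := Nat.log 2 (nN n₀)) (n := Nat.log 2 (nN n₁) + 1)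
    hr0.le hr1
  have h2 : r ^ (Nat.log 2 (nN n₀) + 1) ≤ X ^ (1 - σ) := by
    rw [← e]
    exact Real.rpow_le_rpow_of_nonpos hX ((h n₀ hn₀).trans (cta_log (hA n₀ hn₀)).2) (by linarith)
  calc _ ≤ 22 * (r ^ Nat.log 2 (nN n₀) / (1 - r)) := by gcongr
    _ = 22 / (r * (1 - r)) * r ^ (Nat.log 2 (nN n₀) + 1) := by field_simp; ring
    _ ≤ _ := by gcongr

theorem summable_nm_rpow {σ : ℝ} (hσ : 1 < σ) : Summable fun n : O => nm n ^ (-σ) := by
  classical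
  obtain ⟨C, -, hC⟩ := cta_tail hσ
  refine summable_of_sum_le (c := C * 1 ^ (1 - σ))
    (fun n => Real.rpow_nonneg (nm_nonneg n) _) fun A => ?_
  rw [← Finset.sum_erase A (a := 0) (by rw [nm_zero, Real.zero_rpow (by linarith)])]
  exact hC 1 _ one_pos fun n hn => one_le_nm (Finset.ne_of_mem_erase hn)

theorem sum_nm_rpow_le {σ : ℝ} (hσ : σ < 1) : ∃ C : ℝ, 0 < C ∧ ∀ (X : ℝ) (A : Finset O), 0 ≤ X →
    (∀ n ∈ A, n ≠ 0 ∧ nm n ≤ X) → ∑ n ∈ A, nm n ^ (-σ) ≤ C * X ^ (1 - σ) := by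
  set r : ℝ := 2 ^ (1 - σ) with hr
  have hr1 : 1 < r := Real.one_lt_rpow one_lt_two (by linarith)
  have hr0 : 0 < r := by positivity
  have hr2 : 0 < r - 1 := by linarith
  have e : ∀ i : ℕ, ((2 : ℝ) ^ i) ^ (1 - σ) = r ^ i := fun i => by
    rw [hr, ← Real.rpow_natCast, ← Real.rpow_natCast, ← Real.rpow_mul zero_le_two,
      ← Real.rpow_mul zero_le_two, mul_comm]
  refine ⟨22 * r ^ 2 / (r - 1), by positivity, fun X A hX h => ?_⟩
  rcases A.eq_empty_or_nonempty with rfl | ⟨n₀, hn₀⟩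
  · rw [Finset.sum_empty]; positivity
  have hX1 : 1 ≤ X := (one_le_nm (h n₀ hn₀).1).trans (h n₀ hn₀).2
  refine (cta_dyadic (fun n hn => (h n hn).1) _ (fun i => r ^ (i + 1) / 2 ^ i)
    (fun i => by positivity) (fun n hn => ?_) _ fun n hn => cta_range (h n hn).2).trans ?_
  · have h0 := nm_pos (h n hn).1
    obtain ⟨h1, h2⟩ := cta_log (h n hn).1
    rw [show -σ = (1 - σ) - 1 by ring, Real.rpow_sub_one h0.ne', ← e]
    gcongr
  have e2 : ∀ i : ℕ, (22 : ℝ) * (2 ^ i * (r ^ (i + 1) / 2 ^ i)) = 22 * r * r ^ i := fun i => by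
    field_simp; ring
  simp only [e2, ← Finset.mul_sum]
  rw [geom_sum_eq hr1.ne']
  have h2 : r ^ Nat.log 2 ⌊X⌋₊ ≤ X ^ (1 - σ) := by
    rw [← e]
    exact Real.rpow_le_rpow (by positivity) (cta_pow_le hX1) (by linarith)
  calc _ ≤ 22 * r * (r ^ (Nat.log 2 ⌊X⌋₊ + 1) / (r - 1)) := by gcongr; linarith
    _ = 22 * r ^ 2 / (r - 1) * r ^ Nat.log 2 ⌊X⌋₊ := by field_simp; ring
    _ ≤ _ := by gcongr

theorem sum_nm_rpow_tail {σ : ℝ} (hσ : 1 < σ) : ∃ C : ℝ, 0 < C ∧ ∀ (X : ℝ) (A : Finset O), 0 < X →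
    (∀ n ∈ A, X ≤ nm n) → ∑ n ∈ A, nm n ^ (-σ) ≤ C * X ^ (1 - σ) :=
  cta_tail hσ

/-- `B ^ ω(n) ≪ N(n)^ε` -/
theorem pow_card_pfs_le (B : ℝ) {ε : ℝ} (hε : 0 < ε) : ∃ C : ℝ, 0 < C ∧ ∀ n : O, n ≠ 0 →
    |B| ^ (pfs n).card ≤ C * nm n ^ ε := by
  classical
  set M : ℝ := max |B| 1 with hM
  have hM1 : 1 ≤ M := le_max_right _ _
  refine ⟨M ^ (ball (M ^ ε⁻¹)).card, by positivity, fun n hn => ?_⟩
  have hp : ∀ p ∈ pfs n, |B| ≤ (if p ∈ ball (M ^ ε⁻¹) then M else 1) * nm p ^ ε := by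
    intro p hp
    have hp0 := ((mem_pfs hn).1 hp).1.ne_zero
    have h1 : 1 ≤ nm p ^ ε := Real.one_le_rpow (one_le_nm hp0) hε.le
    split_ifs with h
    · exact (le_max_left _ _).trans (le_mul_of_one_le_right (by linarith) h1)
    · rw [mem_ball, not_le] at h
      rw [one_mul]
      refine (le_max_left |B| 1).trans ?_
      calc M = (M ^ ε⁻¹) ^ ε := (Real.rpow_inv_rpow (by linarith) hε.ne').symm
        _ ≤ nm p ^ ε := Real.rpow_le_rpow (by positivity) h.le hε.le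
  calc |B| ^ (pfs n).card = ∏ _p ∈ pfs n, |B| := by simp
    _ ≤ ∏ p ∈ pfs n, (if p ∈ ball (M ^ ε⁻¹) then M else 1) * nm p ^ ε :=
        Finset.prod_le_prod (fun _ _ => abs_nonneg _) hp
    _ = M ^ ((pfs n).filter (· ∈ ball (M ^ ε⁻¹))).card * nm (rad n) ^ ε := by
        rw [Finset.prod_mul_distrib, ← Finset.prod_filter, Finset.prod_const, rad, nm_prod,
          Real.finsetProd_rpow _ _ fun p _ => nm_nonneg p]
    _ ≤ _ := by
        refine mul_le_mul (pow_le_pow_right₀ hM1 (Finset.card_le_card fun p hp =>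
          (Finset.mem_filter.1 hp).2)) (Real.rpow_le_rpow (nm_nonneg _)
          (nm_le_of_dvd (rad_dvd n) hn) hε.le) (Real.rpow_nonneg (nm_nonneg _) _) (by positivity)

theorem ctb_cover {α β : Type*} (A : Finset α) (T : Finset β) (g : β → α) (f : α → ℝ)
    (hf : ∀ a, 0 ≤ f a) (h : ∀ a ∈ A, ∃ x ∈ T, g x = a) : ∑ a ∈ A, f a ≤ ∑ x ∈ T, f (g x) := by
  classical
  calc ∑ a ∈ A, f a ≤ ∑ a ∈ T.image g, f a :=
        Finset.sum_le_sum_of_subset_of_nonneg (fun a ha => Finset.mem_image.2 (h a ha))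
          fun a _ _ => hf a
    _ ≤ _ := Finset.sum_image_le_of_nonneg fun a _ => hf a

theorem ctb_rankin {σ : ℝ} (hσ : 0 < σ) (S : Finset O) (hS : ∀ p ∈ S, 2 ≤ nm p) (A : Finset O)
    (hA : ∀ d ∈ A, d ≠ 0 ∧ ∀ r, Prime r → r ∣ d → ∃ p ∈ S, p ∣ r) :
    ∑ d ∈ A, nm d ^ (-σ) ≤ 6 * (1 - (2 : ℝ) ^ (-σ))⁻¹ ^ S.card := by
  classical
  have hr1 : (2 : ℝ) ^ (-σ) < 1 := Real.rpow_lt_one_of_one_lt_of_neg (by norm_num) (by linarith)
  have hnn : ∀ d : O, 0 ≤ nm d ^ (-σ) := fun d => Real.rpow_nonneg (nm_nonneg d) _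
  induction S using Finset.induction_on generalizing A with
  | empty =>
    refine (ctb_cover A (Finset.range 6) (fun j => zt ^ j) _ hnn fun d hd => ?_).trans ?_
    · have hu : IsUnit d := by
        by_contra hu
        obtain ⟨r, hr, hrd⟩ := WfDvdMonoid.exists_irreducible_factor hu (hA d hd).1
        simpa using (hA d hd).2 r hr.prime hrd
      obtain ⟨j, hj, rfl⟩ := isUnit_iff.1 hu
      exact ⟨j, Finset.mem_range.2 hj, rfl⟩
    · simp [nm_unit (isUnit_zt.pow _)]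
  | insert p S hp ih =>
    have hp2 : 2 ≤ nm p := hS p (Finset.mem_insert_self _ _)
    set X : ℝ := ∑ d ∈ A, nm d with hX
    set T : Finset O := (ball X).filter
      fun d => d ≠ 0 ∧ ∀ r, Prime r → r ∣ d → ∃ p' ∈ insert p S, p' ∣ r with hT
    have hAT : A ⊆ T := fun d hd => Finset.mem_filter.2
      ⟨mem_ball.2 (Finset.single_le_sum (f := nm) (fun d _ => nm_nonneg d) hd), hA d hd⟩
    have h1 : ∑ d ∈ T.filter (fun d => ¬ p ∣ d), nm d ^ (-σ) ≤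
        6 * (1 - (2 : ℝ) ^ (-σ))⁻¹ ^ S.card := by
      refine ih (fun p' hp' => hS p' (Finset.mem_insert_of_mem hp')) _ fun d hd => ?_
      obtain ⟨hdT, hpd⟩ := Finset.mem_filter.1 hd
      obtain ⟨-, hd0, hd1⟩ := Finset.mem_filter.1 hdT
      refine ⟨hd0, fun r hr hrd => ?_⟩
      obtain ⟨p', hp', hp'r⟩ := hd1 r hr hrd
      rcases Finset.mem_insert.1 hp' with rfl | hp'
      · exact absurd (hp'r.trans hrd) hpd
      · exact ⟨p', hp', hp'r⟩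
    have h2 : ∑ d ∈ T.filter (fun d => p ∣ d), nm d ^ (-σ) ≤
        (2 : ℝ) ^ (-σ) * ∑ d ∈ T, nm d ^ (-σ) := by
      refine (ctb_cover _ T (fun d => p * d) _ hnn fun d hd => ?_).trans ?_
      · obtain ⟨hdT, m, rfl⟩ := Finset.mem_filter.1 hd
        obtain ⟨hdX, hd0, hd1⟩ := Finset.mem_filter.1 hdT
        refine ⟨m, Finset.mem_filter.2 ⟨mem_ball.2 ((nm_le_of_dvd (dvd_mul_left m p) hd0).trans
          (mem_ball.1 hdX)), right_ne_zero_of_mul hd0, fun r hr hrm =>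
            hd1 r hr (hrm.mul_left p)⟩, rfl⟩
      · rw [Finset.mul_sum]
        refine Finset.sum_le_sum fun d _ => ?_
        rw [nm_mul, Real.mul_rpow (nm_nonneg _) (nm_nonneg _)]
        exact mul_le_mul_of_nonneg_right
          (Real.rpow_le_rpow_of_nonpos (by norm_num) hp2 (by linarith)) (hnn d)
    have h3 := Finset.sum_filter_add_sum_filter_not T (fun d => p ∣ d) fun d => nm d ^ (-σ)
    have h4 : ∑ d ∈ A, nm d ^ (-σ) ≤ ∑ d ∈ T, nm d ^ (-σ) :=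
      Finset.sum_le_sum_of_subset_of_nonneg hAT fun d _ _ => hnn d
    refine h4.trans ?_
    rw [Finset.card_insert_of_notMem hp, pow_succ, ← mul_assoc, le_mul_inv_iff₀ (by linarith)]
    linarith

theorem ctb_sum_smooth {σ ε : ℝ} (hσ : 0 < σ) (hε : 0 < ε) : ∃ C : ℝ, 0 < C ∧
    ∀ (D : O) (A : Finset O), D ≠ 0 → (∀ d ∈ A, ∃ k, d ∣ D ^ k) →
      ∑ d ∈ A, nm d ^ (-σ) ≤ C * nm D ^ ε := by
  classical
  have hr1 : (2 : ℝ) ^ (-σ) < 1 := Real.rpow_lt_one_of_one_lt_of_neg (by norm_num) (by linarith)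
  have hr0 : 0 < (2 : ℝ) ^ (-σ) := by positivity
  set B : ℝ := (1 - (2 : ℝ) ^ (-σ))⁻¹ with hB
  have hB1 : 1 ≤ B := (one_le_inv₀ (by linarith)).2 (by linarith)
  obtain ⟨C, hC, h⟩ := pow_card_pfs_le B hε
  refine ⟨6 * B * C, by positivity, fun D A hD hA => ?_⟩
  have h1 := ctb_rankin hσ (insert lam (pfs D)) (fun p hp => by
    rcases Finset.mem_insert.1 hp with rfl | hp
    · exact two_le_nm prime_lam
    · exact two_le_nm ((mem_pfs hD).1 hp).1) A fun d hd => by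
      obtain ⟨k, hk⟩ := hA d hd
      refine ⟨ne_zero_of_dvd_ne_zero (pow_ne_zero k hD) hk, fun r hr hrd => ?_⟩
      have hrD : r ∣ D := hr.dvd_of_dvd_pow (hrd.trans hk)
      by_cases hl : lam ∣ r
      · exact ⟨lam, Finset.mem_insert_self _ _, hl⟩
      · obtain ⟨u, m, hu, hm, rfl⟩ := exists_unit_prim hl
        refine ⟨m, Finset.mem_insert_of_mem ((mem_pfs hD).2
          ⟨(prime_isUnit_mul hu).1 hr, hm, (dvd_mul_left m u).trans hrD⟩), dvd_mul_left m u⟩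
  have h2 := h D hD
  rw [abs_of_nonneg (by linarith)] at h2
  calc _ ≤ 6 * B ^ (insert lam (pfs D)).card := h1
    _ ≤ 6 * B ^ ((pfs D).card + 1) := by
        gcongr
        exact Finset.card_insert_le _ _
    _ = 6 * B * B ^ (pfs D).card := by ring
    _ ≤ 6 * B * (C * nm D ^ ε) := by gcongr
    _ = _ := by ring

theorem ctb_card_le {σ X : ℝ} (hσ : 0 ≤ σ) {A : Finset O} (hA : ∀ d ∈ A, d ≠ 0 ∧ nm d ≤ X) :
    (A.card : ℝ) ≤ X ^ σ * ∑ d ∈ A, nm d ^ (-σ) := by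
  rw [Finset.mul_sum, Finset.card_eq_sum_ones]
  push_cast
  refine Finset.sum_le_sum fun d hd => ?_
  have h0 := nm_pos (hA d hd).1
  rw [Real.rpow_neg h0.le, ← div_eq_mul_inv, one_le_div (Real.rpow_pos_of_pos h0 _)]
  exact Real.rpow_le_rpow h0.le (hA d hd).2 hσ

theorem ctb_card_smooth {ε : ℝ} (hε : 0 < ε) : ∃ C : ℝ, 0 < C ∧
    ∀ (D : O) (X : ℝ) (A : Finset O), D ≠ 0 → 1 ≤ X → (∀ d ∈ A, (∃ k, d ∣ D ^ k) ∧ nm d ≤ X) →
      (A.card : ℝ) ≤ C * (X * nm D) ^ ε := by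
  obtain ⟨C, hC, h⟩ := ctb_sum_smooth hε hε
  refine ⟨C, hC, fun D X A hD hX hA => ?_⟩
  have h1 := ctb_card_le (X := X) hε.le (A := A) fun d hd =>
    ⟨(hA d hd).1.elim fun k hk => ne_zero_of_dvd_ne_zero (pow_ne_zero k hD) hk, (hA d hd).2⟩
  have h2 := h D A hD fun d hd => (hA d hd).1
  rw [Real.mul_rpow (by linarith) (nm_nonneg _)]
  calc _ ≤ X ^ ε * (C * nm D ^ ε) :=
        h1.trans (mul_le_mul_of_nonneg_left h2 (Real.rpow_nonneg (by linarith) _))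
    _ = _ := by ring

theorem ctb_card_divisors {ε : ℝ} (hε : 0 < ε) : ∃ C : ℝ, 0 < C ∧ ∀ (n : O) (A : Finset O),
    n ≠ 0 → (∀ d ∈ A, d ∣ n) → (A.card : ℝ) ≤ C * nm n ^ ε := by
  obtain ⟨C, hC, h⟩ := ctb_card_smooth (half_pos hε)
  refine ⟨C, hC, fun n A hn hA => ?_⟩
  have h1 := h n (nm n) A hn (one_le_nm hn) fun d hd =>
    ⟨⟨1, by simpa using hA d hd⟩, nm_le_of_dvd (hA d hd) hn⟩
  rwa [Real.mul_rpow (nm_nonneg _) (nm_nonneg _), ← Real.rpow_add (nm_pos hn), add_halves] at h1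

/-- divisor bound -/
theorem card_pdiv_le {ε : ℝ} (hε : 0 < ε) : ∃ C : ℝ, 0 < C ∧ ∀ n : O, n ≠ 0 →
    ((pdiv n).card : ℝ) ≤ C * nm n ^ ε := by
  obtain ⟨C, hC, h⟩ := ctb_card_divisors hε
  exact ⟨C, hC, fun n hn => h n _ hn fun d hd => ((mem_pdiv hn).1 hd).2⟩

/-- divisor bound, all divisors -/
theorem card_divisors_le {ε : ℝ} (hε : 0 < ε) : ∃ C : ℝ, 0 < C ∧ ∀ (n : O) (A : Finset O), n ≠ 0 →
    (∀ d ∈ A, d ∣ n) → (A.card : ℝ) ≤ C * nm n ^ ε := by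
  exact ctb_card_divisors hε

/-- smooth numbers (Rankin) -/
theorem sum_smooth_le {σ ε : ℝ} (hσ : 0 < σ) (hε : 0 < ε) : ∃ C : ℝ, 0 < C ∧
    ∀ (D : O) (A : Finset O), D ≠ 0 → (∀ d ∈ A, ∃ k, d ∣ D ^ k) →
      ∑ d ∈ A, nm d ^ (-σ) ≤ C * nm D ^ ε := by
  exact ctb_sum_smooth hσ hε

theorem card_smooth_le {ε : ℝ} (hε : 0 < ε) : ∃ C : ℝ, 0 < C ∧
    ∀ (D : O) (X : ℝ) (A : Finset O), D ≠ 0 → 1 ≤ X → (∀ d ∈ A, (∃ k, d ∣ D ^ k) ∧ nm d ≤ X) →
      (A.card : ℝ) ≤ C * (X * nm D) ^ ε := by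
  exact ctb_card_smooth hε

theorem ctb_sqfull_eq (f : O) : Sqfull f → ∃ a c : O, f = a ^ 2 * c ^ 3 := by
  refine UniqueFactorizationMonoid.induction_on_coprime
    (P := fun f => Sqfull f → ∃ a c : O, f = a ^ 2 * c ^ 3) f (fun _ => ⟨0, 0, by simp⟩) ?_ ?_ ?_
  · rintro _ ⟨u, rfl⟩ -
    refine ⟨(u⁻¹ : Oˣ), u, ?_⟩
    norm_cast
    group
  · intro p i hp h
    rcases Nat.even_or_odd' i with ⟨j, rfl | rfl⟩
    · exact ⟨p ^ j, 1, by ring⟩
    · rcases j with _ | j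
      · exfalso
        have h1 := h p hp (by simp)
        simp only [mul_zero, zero_add, pow_one] at h1
        exact hp.not_isUnit (hp.squarefree p (sq p ▸ h1))
      · exact ⟨p ^ j, p, by ring⟩
  · intro x y hxy hx hy h
    obtain ⟨a, c, rfl⟩ := hx fun p hp hpx =>
      hp.pow_dvd_of_dvd_mul_right 2 (fun hpy => hp.not_isUnit (hxy hpx hpy))
        (h p hp (hpx.mul_right y))
    obtain ⟨a', c', rfl⟩ := hy fun p hp hpy =>
      hp.pow_dvd_of_dvd_mul_left 2 (fun hpx => hp.not_isUnit (hxy hpx hpy))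
        (h p hp (hpy.mul_left _))
    exact ⟨a * a', c * c', by ring⟩

theorem ctb_sum_sqfull {θ : ℝ} (hθ : 0 < θ) : ∃ C : ℝ, 0 < C ∧ ∀ A : Finset O,
    (∀ f ∈ A, Sqfull f) → ∑ f ∈ A, nm f ^ (-(1 / 2 + θ)) ≤ C := by
  classical
  have s2 := summable_nm_rpow (σ := 2 * (1 / 2 + θ)) (by linarith)
  have s3 := summable_nm_rpow (σ := 3 * (1 / 2 + θ)) (by linarith)
  have hnn : ∀ (d : O) (s : ℝ), 0 ≤ nm d ^ s := fun d s => Real.rpow_nonneg (nm_nonneg d) _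
  refine ⟨(∑' n : O, nm n ^ (-(2 * (1 / 2 + θ)))) * (∑' n : O, nm n ^ (-(3 * (1 / 2 + θ)))) + 1,
    add_pos_of_nonneg_of_pos (mul_nonneg (tsum_nonneg fun _ => hnn _ _)
      (tsum_nonneg fun _ => hnn _ _)) one_pos, fun A hA => ?_⟩
  choose! a c hac using ctb_sqfull_eq
  refine (ctb_cover A (A.image a ×ˢ A.image c) (fun x => x.1 ^ 2 * x.2 ^ 3) _ (fun d => hnn d _)
    fun f hf => ⟨(a f, c f), Finset.mem_product.2 ⟨Finset.mem_image_of_mem _ hf,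
      Finset.mem_image_of_mem _ hf⟩, (hac f (hA f hf)).symm⟩).trans ?_
  have e : ∀ x : O × O, nm (x.1 ^ 2 * x.2 ^ 3) ^ (-(1 / 2 + θ)) =
      nm x.1 ^ (-(2 * (1 / 2 + θ))) * nm x.2 ^ (-(3 * (1 / 2 + θ))) := by
    intro x
    rw [nm_mul, Real.mul_rpow (nm_nonneg _) (nm_nonneg _), nm_pow, nm_pow, ← Real.rpow_natCast,
      ← Real.rpow_natCast, ← Real.rpow_mul (nm_nonneg _), ← Real.rpow_mul (nm_nonneg _)]
    congr 2 <;> push_cast <;> ring
  simp only [e]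
  rw [Finset.sum_product' (f := fun x y : O =>
    nm x ^ (-(2 * (1 / 2 + θ))) * nm y ^ (-(3 * (1 / 2 + θ)))), ← Finset.sum_mul_sum]
  refine le_trans (mul_le_mul (s2.sum_le_tsum _ fun _ _ => hnn _ _)
    (s3.sum_le_tsum _ fun _ _ => hnn _ _) (Finset.sum_nonneg fun _ _ => hnn _ _)
    (tsum_nonneg fun _ => hnn _ _)) (by linarith)

theorem card_sqfull_le {ε : ℝ} (hε : 0 < ε) : ∃ C : ℝ, 0 < C ∧ ∀ (X : ℝ) (A : Finset O), 1 ≤ X →
    (∀ f ∈ A, f ≠ 0 ∧ Sqfull f ∧ nm f ≤ X) → (A.card : ℝ) ≤ C * X ^ (1 / 2 + ε) := by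
  obtain ⟨C, hC, h⟩ := ctb_sum_sqfull hε
  refine ⟨C, hC, fun X A hX hA => ?_⟩
  have h1 := ctb_card_le (X := X) (σ := 1 / 2 + ε) (by linarith) (A := A) fun d hd =>
    ⟨(hA d hd).1, (hA d hd).2.2⟩
  rw [mul_comm]
  exact h1.trans (mul_le_mul_of_nonneg_left (h A fun f hf => (hA f hf).2.1)
    (Real.rpow_nonneg (by linarith) _))

theorem sum_sqfull_le {ε : ℝ} (hε : 0 < ε) : ∃ C : ℝ, 0 < C ∧ ∀ (X : ℝ) (A : Finset O), 1 ≤ X →
    (∀ f ∈ A, f ≠ 0 ∧ Sqfull f ∧ nm f ≤ X) → ∑ f ∈ A, nm f ^ (-(1 / 2) : ℝ) ≤ C * X ^ ε := by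
  obtain ⟨C, hC, h⟩ := ctb_sum_sqfull hε
  refine ⟨C, hC, fun X A hX hA => ?_⟩
  refine le_trans ?_ (mul_le_mul_of_nonneg_right (h A fun f hf => (hA f hf).2.1)
    (Real.rpow_nonneg (by linarith) _))
  rw [Finset.sum_mul]
  refine Finset.sum_le_sum fun f hf => ?_
  have h0 := nm_pos (hA f hf).1
  calc nm f ^ (-(1 / 2) : ℝ) = nm f ^ (-(1 / 2 + ε)) * nm f ^ ε := by
        rw [← Real.rpow_add h0]
        congr 1
        ring
    _ ≤ _ := mul_le_mul_of_nonneg_left (Real.rpow_le_rpow h0.le (hA f hf).2.2 hε.le)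
        (Real.rpow_nonneg h0.le _)

open Classical in
theorem summable_sqfull {θ : ℝ} (hθ : 0 < θ) :
    Summable fun f : O => if Sqfull f then nm f ^ (-(1 / 2 + θ)) else 0 := by
  obtain ⟨C, -, h⟩ := ctb_sum_sqfull hθ
  refine summable_of_sum_le (c := C) (fun f => ?_) fun A => ?_
  · split_ifs
    · exact Real.rpow_nonneg (nm_nonneg _) _
    · exact le_rfl
  · rw [← Finset.sum_filter]
    exact h _ fun f hf => (Finset.mem_filter.1 hf).2

open Classical in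
theorem summable_smooth {D : O} (hD : D ≠ 0) {σ : ℝ} (hσ : 0 < σ) :
    Summable fun d : O => if ∃ k, d ∣ D ^ k then nm d ^ (-σ) else 0 := by
  obtain ⟨C, -, h⟩ := ctb_sum_smooth hσ one_pos
  refine summable_of_sum_le (c := C * nm D ^ (1 : ℝ)) (fun f => ?_) fun A => ?_
  · split_ifs
    · exact Real.rpow_nonneg (nm_nonneg _) _
    · exact le_rfl
  · rw [← Finset.sum_filter]
    exact h D _ hD fun f hf => (Finset.mem_filter.1 hf).2

theorem ctb_mult_mul {p a b : O} (hp : Prime p) (ha : a ≠ 0) (hb : b ≠ 0) :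
    multiplicity p (a * b) = multiplicity p a + multiplicity p b :=
  multiplicity_mul hp (FiniteMultiplicity.of_prime_left hp (mul_ne_zero ha hb))

theorem ctb_mult_pow {p a : O} (hp : Prime p) (ha : a ≠ 0) (k : ℕ) :
    multiplicity p (a ^ k) = k * multiplicity p a :=
  (FiniteMultiplicity.of_prime_left hp ha).multiplicity_pow hp

theorem ctb_exc_iff {q u : O} (hu : u ≠ 0) :
    Exc q u ↔ ∀ p : O, Prime p → ¬ p ∣ q → 6 ∣ multiplicity p u := by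
  constructor
  · rintro ⟨s, v, k, hs, rfl⟩ p hp hpq
    have hv : v ≠ 0 := fun h => hu (by simp [h])
    rw [ctb_mult_mul hp (left_ne_zero_of_mul hu) (right_ne_zero_of_mul hu), ctb_mult_pow hp hv,
      multiplicity_eq_zero.2 fun h => hpq (hp.dvd_of_dvd_pow (h.trans hs)), zero_add]
    exact dvd_mul_right _ _
  · revert hu
    refine UniqueFactorizationMonoid.induction_on_coprime (P := fun u => u ≠ 0 →
      (∀ p : O, Prime p → ¬ p ∣ q → 6 ∣ multiplicity p u) → Exc q u) u (fun h => absurd rfl h)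
      ?_ ?_ ?_
    · intro x hx _ _
      exact ⟨x, 1, 0, hx.dvd, by simp⟩
    · intro p i hp _ h
      by_cases hpq : p ∣ q
      · exact ⟨p ^ i, 1, i, pow_dvd_pow_of_dvd hpq i, by simp⟩
      · have h1 := h p hp hpq
        rw [multiplicity_pow_self_of_prime hp] at h1
        obtain ⟨j, rfl⟩ := h1
        exact ⟨1, p ^ j, 0, one_dvd _, by ring⟩
    · intro x y hxy hx hy h0 h
      have hx0 := left_ne_zero_of_mul h0
      have hy0 := right_ne_zero_of_mul h0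
      have key : ∀ p : O, Prime p → ¬ p ∣ q → 6 ∣ multiplicity p x ∧ 6 ∣ multiplicity p y := by
        intro p hp hpq
        have h1 := h p hp hpq
        rw [ctb_mult_mul hp hx0 hy0] at h1
        by_cases hpx : p ∣ x
        · have h2 : multiplicity p y = 0 :=
            multiplicity_eq_zero.2 fun hpy => hp.not_isUnit (hxy hpx hpy)
          omega
        · have h2 : multiplicity p x = 0 := multiplicity_eq_zero.2 hpx
          omega
      obtain ⟨s, v, k, hs, rfl⟩ := hx hx0 fun p hp hpq => (key p hp hpq).1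
      obtain ⟨s', v', k', hs', rfl⟩ := hy hy0 fun p hp hpq => (key p hp hpq).2
      exact ⟨s * s', v * v', k + k', pow_add q k k' ▸ mul_dvd_mul hs hs', by ring⟩

/-- the rows `h` with `h y` exceptional are the exceptional multiples of one element -/
theorem ctb_exc_gen (q : O) {y : O} (hy : y ≠ 0) :
    ∃ c : O, ∀ h, h ≠ 0 → Exc q (h * y) → ∃ m, Exc q m ∧ h = c * m := by
  classical
  have hex : ∃ N : ℕ, ∃ c : O, c ≠ 0 ∧ Exc q (c * y) ∧ nN c = N :=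
    ⟨_, y ^ 5, pow_ne_zero _ hy, ⟨1, y, 0, one_dvd _, by ring⟩, rfl⟩
  obtain ⟨c, hc0, hc, hcN⟩ := Nat.find_spec hex
  refine ⟨c, fun h h0 hh => ?_⟩
  rw [ctb_exc_iff (mul_ne_zero hc0 hy)] at hc
  rw [ctb_exc_iff (mul_ne_zero h0 hy)] at hh
  obtain ⟨c', h', g, hrel, rfl, rfl⟩ := UniqueFactorizationMonoid.exists_reduced_factors c hc0 h
  have hg0 := left_ne_zero_of_mul hc0
  have hc'0 := right_ne_zero_of_mul hc0
  have hh'0 := right_ne_zero_of_mul h0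
  have hg : Exc q (g * y) := by
    rw [ctb_exc_iff (mul_ne_zero hg0 hy)]
    intro p hp hpq
    have h1 := hc p hp hpq
    have h2 := hh p hp hpq
    rw [ctb_mult_mul hp hc0 hy, ctb_mult_mul hp hg0 hc'0] at h1
    rw [ctb_mult_mul hp h0 hy, ctb_mult_mul hp hg0 hh'0] at h2
    rw [ctb_mult_mul hp hg0 hy]
    by_cases hpx : p ∣ c'
    · have h3 : multiplicity p h' = 0 :=
        multiplicity_eq_zero.2 fun hpy => hp.not_isUnit (hrel hpx hpy)
      omega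
    · have h3 : multiplicity p c' = 0 := multiplicity_eq_zero.2 hpx
      omega
  have hmin : Nat.find hex ≤ nN g := Nat.find_min' hex ⟨g, hg0, hg, rfl⟩
  have hle : nN g ≤ nN (g * c') :=
    Nat.le_of_dvd (Nat.pos_of_ne_zero fun h => hc0 (nN_eq_zero.1 h)) (nN_dvd (dvd_mul_right g c'))
  have hass : Associated g (g * c') :=
    associated_of_dvd_of_nN_eq (dvd_mul_right g c') (by omega)
  obtain ⟨m, hm⟩ : g * c' ∣ g * h' := hass.symm.dvd.mul_right h'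
  have hm0 : m ≠ 0 := fun h => h0 (by rw [hm, h, mul_zero])
  refine ⟨m, (ctb_exc_iff hm0).2 fun p hp hpq => ?_, hm⟩
  have h1 := hc p hp hpq
  have h2 := hh p hp hpq
  rw [ctb_mult_mul hp hc0 hy] at h1
  rw [ctb_mult_mul hp h0 hy, hm, ctb_mult_mul hp hc0 hm0] at h2
  omega

/-- exceptional rows, with a fixed multiplier `y` -/
theorem card_exc_le {q : O} (hq : q ≠ 0) {ε : ℝ} (hε : 0 < ε) : ∃ C : ℝ, 0 < C ∧
    ∀ (y : O) (H : ℝ) (A : Finset O), y ≠ 0 → 1 ≤ H →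
      (∀ h ∈ A, h ≠ 0 ∧ Exc q (h * y) ∧ nm h ≤ H) → (A.card : ℝ) ≤ C * H ^ (1 / 6 + ε) := by
  classical
  obtain ⟨C, hC, hS⟩ := ctb_card_smooth hε
  have hq' : 0 < nm q ^ ε := Real.rpow_pos_of_pos (nm_pos hq) _
  refine ⟨11 * C * nm q ^ ε, by positivity, fun y H A hy hH hA => ?_⟩
  obtain ⟨c, hc⟩ := ctb_exc_gen q hy
  have hex : ∀ h ∈ A, ∃ s w : O, (∃ k, s ∣ q ^ k) ∧ h = c * (s * w ^ 6) := by
    intro h hh
    obtain ⟨m, ⟨s, w, k, hs, rfl⟩, hm⟩ := hc h (hA h hh).1 (hA h hh).2.1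
    exact ⟨s, w, ⟨k, hs⟩, hm⟩
  choose! s w hs hsw using hex
  have h1 : A.card ≤ (A.image s).card * (A.image w).card := by
    rw [← Finset.card_product]
    refine le_trans (Finset.card_le_card fun h hh => ?_)
      (Finset.card_image_le (f := fun x : O × O => c * (x.1 * x.2 ^ 6)))
    exact Finset.mem_image.2 ⟨(s h, w h), Finset.mem_product.2 ⟨Finset.mem_image_of_mem _ hh,
      Finset.mem_image_of_mem _ hh⟩, (hsw h hh).symm⟩
  have h2 : ((A.image s).card : ℝ) ≤ C * (H * nm q) ^ ε := by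
    refine hS q H _ hq hH fun d hd => ?_
    obtain ⟨h, hh, rfl⟩ := Finset.mem_image.1 hd
    refine ⟨hs h hh, (nm_le_of_dvd ?_ (hA h hh).1).trans (hA h hh).2.2⟩
    exact ⟨c * w h ^ 6, (hsw h hh).trans (by ring)⟩
  have h3 : ((A.image w).card : ℝ) ≤ 11 * H ^ (1 / 6 : ℝ) := by
    refine card_le_of_nm_le (Real.rpow_nonneg (by linarith) _) fun d hd => ?_
    obtain ⟨h, hh, rfl⟩ := Finset.mem_image.1 hd
    have hd6 : w h ^ 6 ∣ h := ⟨c * s h, (hsw h hh).trans (by ring)⟩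
    have h4 := (nm_le_of_dvd hd6 (hA h hh).1).trans (hA h hh).2.2
    refine ⟨fun h0 => (hA h hh).1 (by simpa [h0] using hd6), ?_⟩
    rw [nm_pow] at h4
    calc nm (w h) = (nm (w h) ^ 6) ^ (((6 : ℕ) : ℝ)⁻¹) :=
          (Real.pow_rpow_inv_natCast (nm_nonneg _) (by norm_num)).symm
      _ ≤ H ^ (((6 : ℕ) : ℝ)⁻¹) :=
          Real.rpow_le_rpow (pow_nonneg (nm_nonneg _) _) h4 (by positivity)
      _ = _ := by norm_num
  calc (A.card : ℝ) ≤ (A.image s).card * (A.image w).card := by exact_mod_cast h1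
    _ ≤ C * (H * nm q) ^ ε * (11 * H ^ (1 / 6 : ℝ)) :=
        mul_le_mul h2 h3 (Nat.cast_nonneg _) ((Nat.cast_nonneg _).trans h2)
    _ = _ := by
        rw [Real.mul_rpow (by linarith) (nm_nonneg _), Real.rpow_add (by linarith)]
        ring

theorem exc_mul_pow_six {q u v : O} (hq : q ≠ 0) (hv : v ≠ 0) : Exc q (u * v ^ 6) ↔ Exc q u := by
  have _ := hq
  by_cases hu : u = 0
  · simp [hu]
  rw [ctb_exc_iff hu, ctb_exc_iff (mul_ne_zero hu (pow_ne_zero _ hv))]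
  refine forall_congr' fun p => forall_congr' fun hp => forall_congr' fun _ => ?_
  rw [ctb_mult_mul hp hu (pow_ne_zero _ hv), ctb_mult_pow hp hv]
  omega

theorem exc_smooth_mul {q u s : O} {k : ℕ} (hq : q ≠ 0) (hs : s ∣ q ^ k) :
    Exc q (s * u) ↔ Exc q u := by
  by_cases hu : u = 0
  · simp [hu]
  have hs0 : s ≠ 0 := ne_zero_of_dvd_ne_zero (pow_ne_zero k hq) hs
  rw [ctb_exc_iff hu, ctb_exc_iff (mul_ne_zero hs0 hu)]
  refine forall_congr' fun p => forall_congr' fun hp => forall_congr' fun hpq => ?_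
  rw [ctb_mult_mul hp hs0 hu,
    multiplicity_eq_zero.2 fun h => hpq (hp.dvd_of_dvd_pow (h.trans hs)), zero_add]

theorem exc_iff {q u : O} (hq : q ≠ 0) (hu : u ≠ 0) :
    Exc q u ↔ ∀ p : O, Prime p → ¬ p ∣ q → 6 ∣ multiplicity p u := by
  have _ := hq
  exact ctb_exc_iff hu

/-- few large primes divide `D` -/
theorem card_large_primes_le {D : O} (hD : D ≠ 0) {P : ℝ} (hP : 1 < P) {S : Finset O}
    (h : ∀ p ∈ S, Prime p ∧ Prim p ∧ p ∣ D ∧ P ≤ nm p) :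
    (S.card : ℝ) ≤ Real.log (nm D) / Real.log P := by
  have h1 : ∏ p ∈ S, p ∣ D := Finset.prod_dvd_of_coprime
    (fun p hp q hq hne => (h p hp).2.1.coprime_of_ne (h q hq).2.1 (h p hp).1 (h q hq).1 hne)
    fun p hp => (h p hp).2.2.1
  have h2 := nm_le_of_dvd h1 hD
  rw [nm_prod] at h2
  have h3 : P ^ S.card ≤ ∏ p ∈ S, nm p := by
    rw [← Finset.prod_const]
    exact Finset.prod_le_prod (fun _ _ => by linarith) fun p hp => (h p hp).2.2.2
  rw [le_div_iff₀ (Real.log_pos hP), ← Real.log_pow]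
  exact Real.log_le_log (by positivity) (h3.trans h2)

end Crest.Agent.R17
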