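import Crest.Agent.R17.A.Primes
import Crest.Agent.R17.A.Tau

/-!
Row 17, block A: the whole arithmetic API.
-/
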