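import Crest.Agent.R17.Defs

/-!
Row 17, block A0: coordinates, norm, conjugation, units, the additive character.
-/

set_option autoImplicit false

namespace Crest.Agent.R17

open scoped ComplexConjugate

/-! ### `ω`, `λ`, coordinates -/

theorem bsa_prim : IsPrimitiveRoot om 3 :=
  (IsCyclotomicExtension.zeta_spec 3 ℚ _).toInteger_isPrimitiveRoot

theorem om_sq : om ^ 2 = -1 - om := by
  have h := bsa_prim.geom_sum_eq_zero (by norm_num)
  simp only [Finset.sum_range_succ, Finset.sum_range_zero, pow_zero, pow_one, zero_add] at h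
  linear_combination h

theorem om_cube : om ^ 3 = 1 := by
  exact bsa_prim.pow_eq_one

theorem sg_om : sg om = Complex.exp (2 * Real.pi * Complex.I / 3) := by
  have h := (IsCyclotomicExtension.zeta_spec 3 ℚ
    Crest.NumberTheoryR.EisensteinField.K3).embeddingsEquivPrimitiveRoots_apply_coe ℂ
    (Polynomial.cyclotomic.irreducible_rat (by norm_num)) sgK
  rw [sgK, Equiv.apply_symm_apply] at h
  exact h.symm.trans (by norm_num)

theorem sg_om' : sg om = ⟨-1 / 2, Real.sqrt 3 / 2⟩ := by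
  have h1 : (2 * Real.pi * Complex.I / 3 : ℂ) = ((Real.pi - Real.pi / 3 : ℝ) : ℂ) * Complex.I := by
    push_cast
    ring
  rw [sg_om, h1]
  apply Complex.ext
  · rw [Complex.exp_ofReal_mul_I_re, Real.cos_pi_sub, Real.cos_pi_div_three]
    norm_num
  · rw [Complex.exp_ofReal_mul_I_im, Real.sin_pi_sub, Real.sin_pi_div_three]

theorem sg_injective : Function.Injective sg := by
  exact sgK.toRingHom.injective.comp NumberField.RingOfIntegers.coe_injective

theorem sg_eq_zero {n : O} : sg n = 0 ↔ n = 0 := by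
  exact map_eq_zero_iff sg sg_injective

theorem lam_sq : lam ^ 2 = -3 := by
  unfold lam
  linear_combination 4 * om_sq

theorem sg_lam : sg lam = Real.sqrt 3 * Complex.I := by
  rw [lam, map_add, map_mul, map_one, map_ofNat, sg_om']
  apply Complex.ext <;> simp <;> ring

theorem zt_sq : zt ^ 2 = om := by
  unfold zt
  linear_combination om_sq

theorem zt_cube : zt ^ 3 = -1 := by
  unfold zt
  linear_combination (om + 2) * om_sq

theorem zt_pow_six : zt ^ 6 = 1 := by
  rw [show 6 = 3 * 2 from rfl, pow_mul, zt_cube]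
  norm_num

theorem isPrimitiveRoot_sg_om : IsPrimitiveRoot (sg om) 3 := by
  exact bsa_prim.map_of_injective sg_injective

theorem isPrimitiveRoot_sg_zt : IsPrimitiveRoot (sg zt) 6 := by
  have h1 : sg zt = Complex.exp (2 * Real.pi * Complex.I / (6 : ℕ)) := by
    have h2 : (2 * Real.pi * Complex.I / (6 : ℕ) : ℂ) = ((Real.pi / 3 : ℝ) : ℂ) * Complex.I := by
      push_cast
      ring
    rw [zt, map_add, map_one, sg_om', h2]
    apply Complex.ext
    · rw [Complex.exp_ofReal_mul_I_re, Real.cos_pi_div_three]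
      norm_num
    · rw [Complex.exp_ofReal_mul_I_im, Real.sin_pi_div_three]
      norm_num
  rw [h1]
  exact Complex.isPrimitiveRoot_exp 6 (by norm_num)

theorem exists_coord (n : O) : ∃ x y : ℤ, n = x + y * om := by
  have h : n ∈ Algebra.adjoin ℤ {om} := by
    rw [om, IsCyclotomicExtension.Rat.adjoin_singleton_eq_top]
    trivial
  induction h using Algebra.adjoin_induction with
  | mem x hx => exact ⟨0, 1, by simpa using hx⟩
  | algebraMap r => exact ⟨r, 0, by simp⟩
  | add a b _ _ ha hb =>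
    obtain ⟨x, y, rfl⟩ := ha
    obtain ⟨x', y', rfl⟩ := hb
    exact ⟨x + x', y + y', by push_cast; ring⟩
  | mul a b _ _ ha hb =>
    obtain ⟨x, y, rfl⟩ := ha
    obtain ⟨x', y', rfl⟩ := hb
    exact ⟨x * x' - y * y', x * y' + x' * y - y * y', by
      push_cast
      linear_combination (y * y' : O) * om_sq⟩

theorem bsa_sg (x y : ℤ) :
    sg ((x : O) + y * om) = ⟨x - y / 2, y * (Real.sqrt 3 / 2)⟩ := by
  rw [map_add, map_mul, map_intCast, map_intCast, sg_om']
  apply Complex.ext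
  · simp
    ring
  · simp

theorem coord_inj {x y x' y' : ℤ} : ((x : O) + y * om = x' + y' * om) ↔ x = x' ∧ y = y' := by
  refine ⟨fun h => ?_, fun h => by rw [h.1, h.2]⟩
  have h1 := congrArg sg h
  rw [bsa_sg, bsa_sg, Complex.mk.injEq] at h1
  have h2 : (y : ℝ) = y' := mul_right_cancel₀ (by positivity) h1.2
  have h3 : (x : ℝ) = x' := by linarith [h1.1]
  exact ⟨by exact_mod_cast h3, by exact_mod_cast h2⟩

/-- coordinates `(x, y) ↦ x + y ω` -/
noncomputable def crd : ℤ × ℤ ≃ O :=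
  Equiv.ofBijective (fun p => (p.1 : O) + p.2 * om)
    ⟨fun _ _ h => Prod.ext (coord_inj.1 h).1 (coord_inj.1 h).2,
      fun n => (exists_coord n).elim fun x h => h.elim fun y h => ⟨(x, y), h.symm⟩⟩

theorem crd_apply (p : ℤ × ℤ) : crd p = (p.1 : O) + p.2 * om := rfl

theorem int_dvd_coord {m x y : ℤ} : (m : O) ∣ (x : O) + y * om ↔ m ∣ x ∧ m ∣ y := by
  constructor
  · rintro ⟨n, hn⟩
    obtain ⟨a, b, rfl⟩ := exists_coord n
    have h : (x : O) + y * om = ((m * a : ℤ) : O) + ((m * b : ℤ) : O) * om := by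
      rw [hn]
      push_cast
      ring
    obtain ⟨h1, h2⟩ := coord_inj.1 h
    exact ⟨⟨a, h1⟩, ⟨b, h2⟩⟩
  · rintro ⟨⟨a, rfl⟩, ⟨b, rfl⟩⟩
    exact ⟨a + b * om, by push_cast; ring⟩

theorem int_dvd_int {m x : ℤ} : (m : O) ∣ (x : O) ↔ m ∣ x := by
  simpa using int_dvd_coord (m := m) (x := x) (y := 0)

/-! ### The norm -/

/-- the basis `1, ω` -/
noncomputable def bsa_basis : Module.Basis (Fin 2) ℤ O :=
  Module.Basis.mk (v := ![1, om])
    (LinearIndependent.pair_iff.2 fun s t h => by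
      refine coord_inj.1 (?_ : (s : O) + t * om = (0 : ℤ) + (0 : ℤ) * om)
      simpa using h)
    (fun n _ => by
      obtain ⟨x, y, rfl⟩ := exists_coord n
      rw [Matrix.range_cons, Matrix.range_cons, Matrix.range_empty, Set.union_empty,
        Set.singleton_union, Submodule.mem_span_pair]
      exact ⟨x, y, by simp⟩)

theorem bsa_repr (x y : ℤ) :
    bsa_basis.repr ((x : O) + y * om) 0 = x ∧ bsa_basis.repr ((x : O) + y * om) 1 = y := by
  have h : (x : O) + y * om = x • bsa_basis 0 + y • bsa_basis 1 := by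
    simp [bsa_basis]
  rw [h, map_add, map_zsmul, map_zsmul, Module.Basis.repr_self, Module.Basis.repr_self]
  simp

theorem bsa_norm (x y : ℤ) : Algebra.norm ℤ ((x : O) + y * om) = x ^ 2 - x * y + y ^ 2 := by
  have h0 : ((x : O) + y * om) * bsa_basis 0 = (x : O) + y * om := by simp [bsa_basis]
  have h1 : ((x : O) + y * om) * bsa_basis 1 = ((-y : ℤ) : O) + ((x - y : ℤ) : O) * om := by
    have : bsa_basis 1 = om := by simp [bsa_basis]
    rw [this]
    push_cast
    linear_combination (y : O) * om_sq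
  rw [Algebra.norm_eq_matrix_det bsa_basis, Matrix.det_fin_two]
  simp only [Algebra.leftMulMatrix_eq_repr_mul, h0, h1, bsa_repr]
  ring

theorem nN_coord (x y : ℤ) : (nN ((x : O) + y * om) : ℤ) = x ^ 2 - x * y + y ^ 2 := by
  rw [nN, Ideal.absNorm_span_singleton, bsa_norm, Int.natAbs_of_nonneg]
  nlinarith [sq_nonneg (2 * x - y), sq_nonneg y]

theorem nm_coord (x y : ℤ) : nm ((x : O) + y * om) = (x : ℝ) ^ 2 - x * y + y ^ 2 := by
  have h := nN_coord x y
  unfold nm
  exact_mod_cast h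

theorem nm_eq (n : O) : nm n = ‖sg n‖ ^ 2 := by
  obtain ⟨x, y, rfl⟩ := exists_coord n
  rw [nm_coord, bsa_sg, Complex.sq_norm, Complex.normSq_mk]
  have h : Real.sqrt 3 * Real.sqrt 3 = 3 := Real.mul_self_sqrt (by norm_num)
  linear_combination (-(y : ℝ) ^ 2 / 4) * h

theorem norm_sg (n : O) : ‖sg n‖ = Real.sqrt (nm n) := by
  rw [nm_eq, Real.sqrt_sq (norm_nonneg _)]

theorem nN_mul (a b : O) : nN (a * b) = nN a * nN b := by
  rw [nN, ← Ideal.span_singleton_mul_span_singleton, map_mul]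
  rfl

theorem nm_mul (a b : O) : nm (a * b) = nm a * nm b := by
  simp [nm, nN_mul]

@[simp] theorem nN_one : nN 1 = 1 := by
  simp [nN]

@[simp] theorem nm_one : nm 1 = 1 := by
  simp [nm]

@[simp] theorem nN_zero : nN 0 = 0 := by
  simp [nN]

@[simp] theorem nm_zero : nm 0 = 0 := by
  simp [nm]

@[simp] theorem nN_neg (a : O) : nN (-a) = nN a := by
  simp [nN]

@[simp] theorem nm_neg (a : O) : nm (-a) = nm a := by
  simp [nm]

theorem nN_pow (a : O) (k : ℕ) : nN (a ^ k) = nN a ^ k := by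
  induction k with
  | zero => simp
  | succ k ih => rw [pow_succ, nN_mul, ih, pow_succ]

theorem nm_pow (a : O) (k : ℕ) : nm (a ^ k) = nm a ^ k := by
  simp [nm, nN_pow]

theorem nm_prod {ι : Type*} (s : Finset ι) (f : ι → O) : nm (∏ i ∈ s, f i) = ∏ i ∈ s, nm (f i) := by
  classical
  induction s using Finset.induction_on with
  | empty => simp
  | insert i s hi ih => rw [Finset.prod_insert hi, Finset.prod_insert hi, nm_mul, ih]

theorem nN_eq_zero {n : O} : nN n = 0 ↔ n = 0 := by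
  rw [nN, Ideal.absNorm_eq_zero_iff, Ideal.span_singleton_eq_bot]

theorem nm_eq_zero {n : O} : nm n = 0 ↔ n = 0 := by
  rw [nm, Nat.cast_eq_zero, nN_eq_zero]

theorem nm_nonneg (n : O) : 0 ≤ nm n := Nat.cast_nonneg _

theorem nm_pos {n : O} (h : n ≠ 0) : 0 < nm n := by
  exact lt_of_le_of_ne (nm_nonneg n) fun h' => h (nm_eq_zero.1 h'.symm)

theorem one_le_nm {n : O} (h : n ≠ 0) : 1 ≤ nm n := by
  have h1 : 1 ≤ nN n := Nat.one_le_iff_ne_zero.2 fun h' => h (nN_eq_zero.1 h')
  unfold nm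
  exact_mod_cast h1

theorem nN_eq_one {n : O} : nN n = 1 ↔ IsUnit n := by
  rw [nN, Ideal.absNorm_eq_one_iff, Ideal.span_singleton_eq_top]

theorem nm_unit {n : O} (h : IsUnit n) : nm n = 1 := by
  rw [nm, nN_eq_one.2 h, Nat.cast_one]

theorem nN_intCast (m : ℤ) : nN (m : O) = m.natAbs ^ 2 := by
  have h := nN_coord m 0
  simp only [Int.cast_zero, zero_mul, add_zero, mul_zero, sub_zero, ne_eq, OfNat.ofNat_ne_zero,
    not_false_eq_true, zero_pow] at h
  zify
  rw [h, sq_abs]

theorem nN_natCast (m : ℕ) : nN (m : O) = m ^ 2 := by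
  simpa using nN_intCast m

theorem nm_natCast (m : ℕ) : nm (m : O) = (m : ℝ) ^ 2 := by
  rw [nm, nN_natCast, Nat.cast_pow]

theorem nN_lam : nN lam = 3 := by
  have h := nN_coord 1 2
  have h1 : ((1 : ℤ) : O) + ((2 : ℤ) : O) * om = lam := by simp [lam]
  rw [h1] at h
  omega

theorem nm_lam : nm lam = 3 := by
  rw [nm, nN_lam]
  norm_num

theorem nN_two : nN 2 = 4 := by
  simpa using nN_natCast 2

theorem nN_assoc {a b : O} (h : Associated a b) : nN a = nN b := by
  rw [nN, nN, Ideal.span_singleton_eq_span_singleton.2 h]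

theorem nm_assoc {a b : O} (h : Associated a b) : nm a = nm b := by
  rw [nm, nm, nN_assoc h]

theorem nN_dvd {a b : O} (h : a ∣ b) : nN a ∣ nN b := by
  obtain ⟨c, rfl⟩ := h
  exact ⟨nN c, nN_mul a c⟩

theorem nm_le_of_dvd {a b : O} (h : a ∣ b) (hb : b ≠ 0) : nm a ≤ nm b := by
  have h1 := Nat.le_of_dvd (Nat.pos_of_ne_zero fun h' => hb (nN_eq_zero.1 h')) (nN_dvd h)
  unfold nm
  exact_mod_cast h1

theorem associated_of_dvd_of_nN_eq {a b : O} (h : a ∣ b) (hn : nN a = nN b) : Associated a b := by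
  obtain ⟨c, rfl⟩ := h
  by_cases ha : a = 0
  · simp [ha]
  · have h1 : nN a ≠ 0 := fun h' => ha (nN_eq_zero.1 h')
    rw [nN_mul] at hn
    have h2 : nN c = 1 := mul_left_cancel₀ h1 (by rw [← hn, mul_one])
    exact associated_mul_unit_right _ _ (nN_eq_one.1 h2)

theorem dvd_nN (n : O) : n ∣ (nN n : O) := by
  exact Ideal.mem_span_singleton.1 (Ideal.absNorm_mem _)

/-- the norm is periodic -/
theorem nN_congr {m : ℕ} {a b : O} (h : (m : O) ∣ a - b) : nN a ≡ nN b [MOD m] := by
  obtain ⟨x, y, rfl⟩ := exists_coord a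
  obtain ⟨x', y', rfl⟩ := exists_coord b
  have h1 : ((m : ℤ) : O) ∣ ((x - x' : ℤ) : O) + ((y - y' : ℤ) : O) * om := by
    convert h using 1
    · simp
    · push_cast
      ring
  obtain ⟨⟨u, hu⟩, ⟨v, hv⟩⟩ := int_dvd_coord.1 h1
  rw [Nat.modEq_iff_dvd, nN_coord, nN_coord]
  obtain rfl : x = x' + m * u := by linarith
  obtain rfl : y = y' + m * v := by linarith
  exact ⟨-(2 * x' * u + m * u ^ 2 - x' * v - u * y' - m * u * v + 2 * y' * v + m * v ^ 2), by ring⟩

theorem two_le_nm {p : O} (hp : Prime p) : 2 ≤ nm p := by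
  have h0 : nN p ≠ 0 := fun h' => hp.ne_zero (nN_eq_zero.1 h')
  have h1 : nN p ≠ 1 := fun h' => hp.not_isUnit (nN_eq_one.1 h')
  have h2 : 2 ≤ nN p := by omega
  unfold nm
  exact_mod_cast h2

theorem card_quot (Q : O) : Nat.card (O ⧸ Ideal.span {Q}) = nN Q := by
  rw [nN, Ideal.absNorm_apply, Submodule.cardQuot_apply]

theorem finite_quot {Q : O} (h : Q ≠ 0) : Finite (O ⧸ Ideal.span {Q}) := by
  exact (Ideal.absNorm_ne_zero_iff _).1 fun h' => h (nN_eq_zero.1 h')

/-- Fermat -/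
theorem dvd_pow_nN_sub_one {p u : O} (hp : Prime p) (hu : ¬ p ∣ u) : p ∣ u ^ (nN p - 1) - 1 := by
  have hf := finite_quot hp.ne_zero
  have hm : (Ideal.span {p}).IsMaximal := PrincipalIdealRing.isMaximal_of_irreducible hp.irreducible
  let _ := Ideal.Quotient.field (Ideal.span {p})
  let _ := Fintype.ofFinite (O ⧸ Ideal.span {p})
  have h1 : Ideal.Quotient.mk (Ideal.span {p}) u ≠ 0 := fun h =>
    hu (Ideal.mem_span_singleton.1 (Ideal.Quotient.eq_zero_iff_mem.1 h))
  have h2 := FiniteField.pow_card_sub_one_eq_one _ h1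
  rw [← Nat.card_eq_fintype_card, card_quot] at h2
  rw [← Ideal.mem_span_singleton, ← Ideal.Quotient.eq, map_pow, map_one]
  exact h2

theorem finite_nm_le (X : ℝ) : {n : O | nm n ≤ X}.Finite := by
  obtain ⟨N, hN⟩ := exists_nat_ge (2 * X + 1)
  refine (((Set.finite_Icc (-(N : ℤ)) N).prod (Set.finite_Icc (-(N : ℤ)) N)).image crd).subset ?_
  intro n hn
  obtain ⟨x, y, rfl⟩ := exists_coord n
  have h1 : (x : ℝ) ^ 2 - x * y + y ^ 2 ≤ X := by rw [← nm_coord]; exact hn
  have h2 : |(x : ℝ)| ≤ N := by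
    nlinarith [sq_nonneg ((x : ℝ) - 2 * y), sq_nonneg (|(x : ℝ)| - 1), sq_abs (x : ℝ)]
  have h3 : |(y : ℝ)| ≤ N := by
    nlinarith [sq_nonneg (2 * (x : ℝ) - y), sq_nonneg (|(y : ℝ)| - 1), sq_abs (y : ℝ)]
  have h4 : |x| ≤ N := by exact_mod_cast h2
  have h5 : |y| ≤ N := by exact_mod_cast h3
  exact ⟨(x, y), ⟨abs_le.1 h4, abs_le.1 h5⟩, rfl⟩

/-- all elements of norm at most `X` -/
noncomputable def ball (X : ℝ) : Finset O := (finite_nm_le X).toFinset

@[simp] theorem mem_ball {X : ℝ} {n : O} : n ∈ ball X ↔ nm n ≤ X := by simp [ball]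

/-! ### Conjugation -/

theorem bsb_conj_om : conj (sg om) = sg (om ^ 2) := by
  rw [om_sq, map_sub, map_neg, map_one, sg_om']
  apply Complex.ext
  · simp; norm_num
  · simp

theorem exists_cj (n : O) : ∃ m : O, sg m = conj (sg n) := by
  obtain ⟨x, y, rfl⟩ := exists_coord n
  refine ⟨x + y * om ^ 2, ?_⟩
  simp only [map_add, map_mul, map_intCast, bsb_conj_om]

/-- complex conjugation on `O` -/
noncomputable def cj : O →+* O where
  toFun n := (exists_cj n).choose
  map_one' := sg_injective (by rw [(exists_cj 1).choose_spec]; simp)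
  map_mul' a b := sg_injective (by
    rw [(exists_cj (a * b)).choose_spec, map_mul sg (exists_cj a).choose, (exists_cj a).choose_spec,
      (exists_cj b).choose_spec, map_mul, map_mul])
  map_zero' := sg_injective (by rw [(exists_cj 0).choose_spec]; simp)
  map_add' a b := sg_injective (by
    rw [(exists_cj (a + b)).choose_spec, map_add sg (exists_cj a).choose, (exists_cj a).choose_spec,
      (exists_cj b).choose_spec, map_add, map_add])

theorem sg_cj (n : O) : sg (cj n) = conj (sg n) := (exists_cj n).choose_spec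

@[simp] theorem cj_cj (n : O) : cj (cj n) = n := by
  apply sg_injective
  rw [sg_cj, sg_cj, Complex.conj_conj]

theorem cj_om : cj om = om ^ 2 := by
  apply sg_injective
  rw [sg_cj, bsb_conj_om]

theorem cj_lam : cj lam = -lam := by
  unfold lam
  rw [map_add, map_mul, map_one, map_ofNat, cj_om, om_sq]
  ring

theorem cj_zt : cj zt = zt ^ 5 := by
  have h : zt ^ 5 = zt ^ 3 * zt ^ 2 := by ring
  rw [h, zt_cube, zt_sq]
  unfold zt
  rw [map_add, map_one, cj_om, om_sq]
  ring

theorem mul_cj (n : O) : n * cj n = (nN n : O) := by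
  apply sg_injective
  rw [map_mul, sg_cj, Complex.mul_conj, map_natCast, Complex.normSq_eq_norm_sq, ← nm_eq]
  simp [nm]

@[simp] theorem nN_cj (n : O) : nN (cj n) = nN n := by
  have h := mul_cj (cj n)
  rw [cj_cj, mul_comm, mul_cj] at h
  exact_mod_cast h.symm

@[simp] theorem nm_cj (n : O) : nm (cj n) = nm n := by
  unfold nm; rw [nN_cj]

theorem cj_dvd_cj {a b : O} : cj a ∣ cj b ↔ a ∣ b := by
  refine ⟨fun h => ?_, fun h => map_dvd cj h⟩
  simpa using map_dvd cj h

theorem prime_cj {p : O} (hp : Prime p) : Prime (cj p) := by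
  refine ⟨fun h => hp.ne_zero ?_, fun h => hp.not_isUnit ?_, fun a b h => ?_⟩
  · simpa using congrArg cj h
  · simpa using h.map cj
  · have h1 : p ∣ cj a * cj b := by simpa using map_dvd cj h
    rcases hp.dvd_or_dvd h1 with h2 | h2
    · left; simpa using map_dvd cj h2
    · right; simpa using map_dvd cj h2

theorem exists_trace (n : O) : ∃ t : ℤ, n + cj n = t := by
  obtain ⟨x, y, rfl⟩ := exists_coord n
  refine ⟨2 * x - y, ?_⟩
  rw [map_add, map_mul, map_intCast, map_intCast, cj_om, om_sq]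
  push_cast
  ring

/-! ### Units, the primes `λ` and `2` -/

theorem isUnit_om : IsUnit om := by
  exact IsUnit.of_pow_eq_one om_cube (by norm_num)

theorem isUnit_zt : IsUnit zt := by
  exact IsUnit.of_pow_eq_one zt_pow_six (by norm_num)

theorem isUnit_iff {u : O} : IsUnit u ↔ ∃ j < 6, u = zt ^ j := by
  refine ⟨fun h => ?_, ?_⟩
  swap
  · rintro ⟨j, -, rfl⟩
    exact isUnit_zt.pow j
  obtain ⟨x, y, rfl⟩ := exists_coord u
  have h1 := nN_coord x y
  rw [nN_eq_one.2 h] at h1
  push_cast at h1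
  have hx1 : x ≤ 1 := by nlinarith [sq_nonneg (x - 2 * y)]
  have hx2 : -1 ≤ x := by nlinarith [sq_nonneg (x - 2 * y)]
  have hy1 : y ≤ 1 := by nlinarith [sq_nonneg (y - 2 * x)]
  have hy2 : -1 ≤ y := by nlinarith [sq_nonneg (y - 2 * x)]
  have h4 : zt ^ 4 = -zt := by rw [show zt ^ 4 = zt ^ 3 * zt by ring, zt_cube]; ring
  have h5 : zt ^ 5 = -om := by rw [show zt ^ 5 = zt ^ 3 * zt ^ 2 by ring, zt_cube, zt_sq]; ring
  interval_cases x <;> interval_cases y <;> norm_num at h1
  · exact ⟨4, by norm_num, by rw [h4]; simp [zt]; ring⟩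
  · exact ⟨3, by norm_num, by rw [zt_cube]; simp⟩
  · exact ⟨5, by norm_num, by rw [h5]; simp⟩
  · exact ⟨2, by norm_num, by rw [zt_sq]; simp⟩
  · exact ⟨0, by norm_num, by simp⟩
  · exact ⟨1, by norm_num, by simp [zt]⟩

theorem zt_pow_inj {i j : ℕ} (hi : i < 6) (hj : j < 6) (h : zt ^ i = zt ^ j) : i = j := by
  have h1 := congrArg sg h
  rw [map_pow, map_pow] at h1
  exact isPrimitiveRoot_sg_zt.pow_inj hi hj h1

theorem bsb_prime_of_nN {p : O} (h : (nN p).Prime) : Prime p := by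
  rw [← irreducible_iff_prime]
  refine ⟨fun hu => h.ne_one (nN_eq_one.2 hu), fun a b hab => ?_⟩
  rw [hab, nN_mul] at h
  rcases (Nat.prime_mul_iff.1 h) with ⟨-, h1⟩ | ⟨-, h1⟩
  · exact Or.inr (nN_eq_one.1 h1)
  · exact Or.inl (nN_eq_one.1 h1)

theorem bsb_nN_mod (n : O) : nN n % 3 ≠ 2 := by
  obtain ⟨x, y, rfl⟩ := exists_coord n
  have h1 := nN_coord x y
  have h2 : (x ^ 2 - x * y + y ^ 2) % 3 ≠ 2 := by
    have e : x ^ 2 - x * y + y ^ 2 = (x + y) ^ 2 - 3 * (x * y) := by ring
    rw [e]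
    generalize x + y = s
    generalize x * y = t
    have hs : s % 3 = 0 ∨ s % 3 = 1 ∨ s % 3 = 2 := by omega
    have : s ^ 2 % 3 = 0 ∨ s ^ 2 % 3 = 1 := by
      rcases hs with h | h | h <;> simp [pow_two, Int.mul_emod, h]
    omega
  omega

/-- a proper factor of a rational prime has that prime as its norm -/
theorem bsb_factor {r : ℕ} (hr : r.Prime) {a b : O} (hab : (r : O) = a * b) (ha : ¬ IsUnit a)
    (hb : ¬ IsUnit b) : nN a = r := by
  have h1 : nN a * nN b = r ^ 2 := by rw [← nN_mul, ← hab, nN_natCast]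
  obtain ⟨i, hi, h2⟩ := (Nat.dvd_prime_pow hr).1 (Dvd.intro _ h1)
  interval_cases i
  · exact absurd (nN_eq_one.1 (by simpa using h2)) ha
  · simpa using h2
  · rw [h2] at h1
    have : nN b = 1 := by
      have h3 : r ^ 2 * nN b = r ^ 2 * 1 := by rw [h1, mul_one]
      exact Nat.eq_of_mul_eq_mul_left (pow_pos hr.pos 2) h3
    exact absurd (nN_eq_one.1 this) hb

theorem bsb_not_unit {r : ℕ} (hr : r.Prime) : ¬ IsUnit (r : O) := by
  intro h
  have h1 := nN_eq_one.2 h
  rw [nN_natCast] at h1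
  exact hr.ne_one (by simpa using h1)

theorem bsb_prime_natCast {r : ℕ} (hr : r.Prime) (h3 : r % 3 = 2) : Prime (r : O) := by
  rw [← irreducible_iff_prime]
  refine ⟨bsb_not_unit hr, fun a b hab => ?_⟩
  by_contra h
  push Not at h
  exact bsb_nN_mod a (by rw [bsb_factor hr hab h.1 h.2, h3])

theorem bsb_exists_nN_eq {r : ℕ} (hr : r.Prime) (h3 : r % 3 = 1) : ∃ p : O, nN p = r := by
  have := Fact.mk hr
  have : Fact (Nat.Prime 3) := ⟨by norm_num⟩
  have hd : 3 ∣ Fintype.card (ZMod r)ˣ := by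
    rw [ZMod.card_units]
    have := hr.pos
    omega
  obtain ⟨u, hu⟩ := exists_prime_orderOf_dvd_card 3 hd
  have hu3 : (u : ZMod r) ^ 3 = 1 := by
    rw [← Units.val_pow_eq_pow_val, ← hu, pow_orderOf_eq_one, Units.val_one]
  have hu1 : (u : ZMod r) ≠ 1 := by
    intro h
    have : u = 1 := Units.ext h
    rw [this, orderOf_one] at hu
    exact absurd hu (by norm_num)
  have hq : (u : ZMod r) ^ 2 + u + 1 = 0 := by
    have : ((u : ZMod r) - 1) * ((u : ZMod r) ^ 2 + u + 1) = 0 := by linear_combination hu3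
    exact (mul_eq_zero.1 this).resolve_left (sub_ne_zero.2 hu1)
  obtain ⟨t, ht⟩ := ZMod.intCast_surjective (u : ZMod r)
  have hdv : (r : ℤ) ∣ t ^ 2 + t + 1 := by
    rw [← ZMod.intCast_zmod_eq_zero_iff_dvd]
    push_cast
    rw [ht, hq]
  have hnp : ¬ Prime (r : O) := by
    intro hp
    have h1 : ((r : ℤ) : O) ∣ ((t : O) + ((-1 : ℤ) : O) * om) * (((t + 1 : ℤ) : O) + ((1 : ℤ) : O) * om) := by
      have e : ((t : O) + ((-1 : ℤ) : O) * om) * (((t + 1 : ℤ) : O) + ((1 : ℤ) : O) * om) =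
          ((t ^ 2 + t + 1 : ℤ) : O) := by
        push_cast
        linear_combination (-1 : O) * om_sq
      rw [e]
      exact Int.cast_dvd_cast _ _ hdv
    have hp' : Prime ((r : ℤ) : O) := by simpa using hp
    have h2 : (r : ℤ) ∣ 1 := by
      rcases hp'.dvd_or_dvd h1 with h | h
      · exact (dvd_neg.1 (int_dvd_coord.1 h).2)
      · exact (int_dvd_coord.1 h).2
    have h4 : r ∣ 1 := by exact_mod_cast h2
    exact hr.ne_one (Nat.dvd_one.1 h4)
  rw [← irreducible_iff_prime, irreducible_iff] at hnp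
  push Not at hnp
  obtain ⟨a, b, hab, ha, hb⟩ := hnp (bsb_not_unit hr)
  exact ⟨a, bsb_factor hr hab ha hb⟩

theorem prime_lam : Prime lam := by
  exact bsb_prime_of_nN (by rw [nN_lam]; norm_num)

theorem prime_two : Prime (2 : O) := by
  simpa using bsb_prime_natCast (r := 2) (by norm_num) (by norm_num)

theorem lam_ne_zero : lam ≠ 0 := prime_lam.ne_zero

theorem lam_dvd_three : lam ∣ 3 := by
  exact ⟨-lam, by linear_combination lam_sq⟩

theorem lam_dvd_coord {x y : ℤ} : lam ∣ (x : O) + y * om ↔ 3 ∣ x + y := by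
  have h1 : lam ∣ ((x : O) + y * om) - ((x + y : ℤ) : O) := by
    refine ⟨y * zt, ?_⟩
    unfold lam zt
    push_cast
    linear_combination (-2 * (y : O)) * om_sq
  rw [dvd_iff_dvd_of_dvd_sub h1]
  constructor
  · intro h
    have h2 := nN_dvd h
    rw [nN_lam, nN_intCast] at h2
    exact Int.natCast_dvd.2 ((Nat.Prime.dvd_of_dvd_pow (by norm_num) h2))
  · intro h
    exact lam_dvd_three.trans (by exact_mod_cast Int.cast_dvd_cast (α := O) _ _ h)

theorem coprime_three_iff {n : O} : IsCoprime n 3 ↔ ¬ lam ∣ n := by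
  have h3 : (3 : O) = -(lam ^ 2) := by rw [lam_sq]; ring
  rw [h3, IsCoprime.neg_right_iff, IsCoprime.pow_right_iff (by norm_num), isCoprime_comm,
    prime_lam.irreducible.coprime_iff_not_dvd]

theorem coprime_two_iff {n : O} : IsCoprime n 2 ↔ ¬ (2 : O) ∣ n := by
  rw [isCoprime_comm, prime_two.irreducible.coprime_iff_not_dvd]

theorem coprime_six_iff {n : O} : IsCoprime n 6 ↔ IsCoprime n 2 ∧ IsCoprime n 3 := by
  rw [show (6 : O) = 2 * 3 by norm_num, IsCoprime.mul_right_iff]

theorem nN_mod_three {n : O} (h : IsCoprime n 3) : nN n % 3 = 1 := by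
  have h2 := bsb_nN_mod n
  have h0 : nN n % 3 ≠ 0 := by
    intro h0
    have h1 : lam ∣ n * cj n := by
      rw [mul_cj]
      exact lam_dvd_three.trans (by exact_mod_cast Nat.cast_dvd_cast (α := O) (Nat.dvd_of_mod_eq_zero h0))
    rw [coprime_three_iff] at h
    rcases prime_lam.dvd_or_dvd h1 with h3 | h3
    · exact h h3
    · apply h
      have h4 := cj_dvd_cj.2 h3
      rwa [cj_cj, cj_lam, neg_dvd] at h4
  omega

theorem nN_mod_two {n : O} (h : IsCoprime n 2) : nN n % 2 = 1 := by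
  have h0 : nN n % 2 ≠ 0 := by
    intro h0
    have h1 : (2 : O) ∣ n * cj n := by
      rw [mul_cj]
      exact_mod_cast Nat.cast_dvd_cast (α := O) (Nat.dvd_of_mod_eq_zero h0)
    rw [coprime_two_iff] at h
    rcases prime_two.dvd_or_dvd h1 with h3 | h3
    · exact h h3
    · apply h
      have h4 := cj_dvd_cj.2 h3
      rwa [cj_cj, map_ofNat] at h4
  omega

theorem nN_mod_six {n : O} (h : IsCoprime n 6) : nN n % 6 = 1 := by
  have h2 := nN_mod_two (coprime_six_iff.1 h).1
  have h3 := nN_mod_three (coprime_six_iff.1 h).2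
  omega

/-- every prime lies over a rational prime `r`; its norm is `r` or (inert case) `r²` -/
theorem prime_cases {p : O} (hp : Prime p) :
    (nN p).Prime ∨ ∃ r : ℕ, r.Prime ∧ r % 3 = 2 ∧ Associated p (r : O) := by
  have h0 : nN p ≠ 0 := fun h => hp.ne_zero (nN_eq_zero.1 h)
  have h1 : p ∣ ((nN p).primeFactorsList.map fun r : ℕ => (r : O)).prod := by
    rw [← Nat.cast_list_prod, Nat.prod_primeFactorsList h0]
    exact dvd_nN p
  obtain ⟨a, ha, hpa⟩ := (Prime.dvd_prod_iff hp).1 h1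
  obtain ⟨r, hr, rfl⟩ := List.mem_map.1 ha
  have hrp := Nat.prime_of_mem_primeFactorsList hr
  have h2 := nN_dvd hpa
  rw [nN_natCast] at h2
  obtain ⟨i, hi, h3⟩ := (Nat.dvd_prime_pow hrp).1 h2
  interval_cases i
  · exact absurd (nN_eq_one.1 (by simpa using h3)) hp.not_isUnit
  · left; rw [h3]; simpa using hrp
  · right
    have has : Associated p (r : O) := associated_of_dvd_of_nN_eq hpa (by rw [h3, nN_natCast])
    refine ⟨r, hrp, ?_, has⟩
    have hrO : Prime (r : O) := has.prime hp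
    have key : ∀ q : O, nN q ≠ r := by
      intro q hq
      have e : (r : O) = q * cj q := by rw [mul_cj, hq]
      rcases hrO.irreducible.isUnit_or_isUnit e with h | h
      · exact hrp.ne_one (by rw [← hq]; exact nN_eq_one.2 h)
      · exact hrp.ne_one (by rw [← hq, ← nN_cj]; exact nN_eq_one.2 h)
    have hm : r % 3 = 0 ∨ r % 3 = 1 ∨ r % 3 = 2 := by omega
    rcases hm with h | h | h
    · have : r = 3 := ((Nat.prime_dvd_prime_iff_eq (by norm_num) hrp).1
        (Nat.dvd_of_mod_eq_zero h)).symm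
      exact absurd (by rw [nN_lam, this]) (key lam)
    · obtain ⟨q, hq⟩ := bsb_exists_nN_eq hrp h
      exact absurd hq (key q)
    · exact h

theorem prime_of_nN_prime {p : O} (h : (nN p).Prime) : Prime p := by
  exact bsb_prime_of_nN h

/-- rational primes `≡ 1 mod 3` split -/
theorem exists_nN_eq {r : ℕ} (hr : r.Prime) (h3 : r % 3 = 1) : ∃ p : O, nN p = r := by
  exact bsb_exists_nN_eq hr h3

theorem prime_natCast {r : ℕ} (hr : r.Prime) (h3 : r % 3 = 2) : Prime (r : O) := by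
  exact bsb_prime_natCast hr h3

/-! ### The additive character -/

theorem eC_add (z w : ℂ) : eC (z + w) = eC z * eC w := by
  unfold eC
  rw [← Complex.exp_add]
  congr 1
  simp only [Complex.add_im]
  push_cast
  ring

@[simp] theorem eC_zero : eC 0 = 1 := by
  simp [eC]

@[simp] theorem norm_eC (z : ℂ) : ‖eC z‖ = 1 := by
  unfold eC
  rw [show 2 * (Real.pi : ℂ) * Complex.I * ((2 * z.im / Real.sqrt 3 : ℝ) : ℂ) =
    ((2 * Real.pi * (2 * z.im / Real.sqrt 3) : ℝ) : ℂ) * Complex.I by push_cast; ring]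
  exact Complex.norm_exp_ofReal_mul_I _

theorem eC_neg (z : ℂ) : eC (-z) = conj (eC z) := by
  unfold eC
  rw [← Complex.exp_conj]
  congr 1
  simp only [Complex.neg_im, map_mul, Complex.conj_ofReal, Complex.conj_I, map_ofNat]
  push_cast
  ring

theorem eC_conj (z : ℂ) : eC (conj z) = conj (eC z) := by
  rw [← eC_neg]
  unfold eC
  simp only [Complex.conj_im, Complex.neg_im]

theorem eC_coord (x y : ℝ) : eC (x + y * sg om) = Complex.exp (2 * Real.pi * Complex.I * y) := by
  unfold eC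
  have h3 : Real.sqrt 3 ≠ 0 := by positivity
  have : 2 * ((x : ℂ) + y * sg om).im / Real.sqrt 3 = y := by
    rw [sg_om']
    simp only [Complex.add_im, Complex.ofReal_im, Complex.mul_im, Complex.ofReal_re]
    field_simp
    ring
  rw [this]

@[simp] theorem eC_sg (n : O) : eC (sg n) = 1 := by
  obtain ⟨x, y, rfl⟩ := exists_coord n
  have := eC_coord (x : ℝ) (y : ℝ)
  simp only [Complex.ofReal_intCast] at this
  simp only [map_add, map_mul, map_intCast]
  rw [this, mul_comm]
  exact Complex.exp_int_mul_two_pi_mul_I y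

theorem continuous_eC : Continuous eC := by
  unfold eC
  fun_prop

theorem bsc_exists_real_coord (z : ℂ) : ∃ x y : ℝ, z = x + y * sg om := by
  have h3 : Real.sqrt 3 ≠ 0 := by positivity
  refine ⟨z.re + z.im / Real.sqrt 3, 2 * z.im / Real.sqrt 3, ?_⟩
  rw [sg_om']
  apply Complex.ext
  · simp only [Complex.add_re, Complex.ofReal_re, Complex.mul_re, Complex.ofReal_im]
    ring
  · simp only [Complex.add_im, Complex.ofReal_im, Complex.mul_im, Complex.ofReal_re]
    field_simp
    ring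

theorem bsc_int_of_exp {y : ℝ} (h : Complex.exp (2 * Real.pi * Complex.I * y) = 1) :
    ∃ m : ℤ, y = m := by
  obtain ⟨m, hm⟩ := Complex.exp_eq_one_iff.1 h
  refine ⟨m, ?_⟩
  have h2 : (2 * Real.pi * Complex.I : ℂ) ≠ 0 := Complex.two_pi_I_ne_zero
  have : (y : ℂ) = m := by
    apply mul_left_cancel₀ h2
    rw [hm]; ring
  exact_mod_cast this

/-- self-duality of the lattice -/
theorem eC_mul_eq_one_iff {z : ℂ} : (∀ n : O, eC (sg n * z) = 1) ↔ ∃ m : O, z = sg m := by
  constructor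
  · intro h
    obtain ⟨x, y, rfl⟩ := bsc_exists_real_coord z
    have h1 := h 1
    rw [map_one, one_mul, eC_coord] at h1
    obtain ⟨b, hb⟩ := bsc_int_of_exp h1
    have h2 := h om
    have hs : sg om ^ 2 = -1 - sg om := by
      rw [← map_pow, om_sq]; simp
    have e : sg om * ((x : ℂ) + y * sg om) = ((-y : ℝ) : ℂ) + ((x - y : ℝ) : ℂ) * sg om := by
      push_cast
      linear_combination (y : ℂ) * hs
    rw [e, eC_coord] at h2
    obtain ⟨a, ha⟩ := bsc_int_of_exp h2
    refine ⟨((a + b : ℤ) : O) + (b : O) * om, ?_⟩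
    have hx : x = ((a + b : ℤ) : ℝ) := by push_cast; linarith
    rw [hx, hb]
    simp only [map_add, map_mul, map_intCast, Complex.ofReal_intCast]
  · rintro ⟨m, rfl⟩ n
    rw [← map_mul, eC_sg]

theorem eQ_add (y y' c : O) : eQ (y + y') c = eQ y c * eQ y' c := by
  unfold eQ
  rw [map_add, add_div, eC_add]

@[simp] theorem eQ_zero (c : O) : eQ 0 c = 1 := by
  simp [eQ]

@[simp] theorem norm_eQ (y c : O) : ‖eQ y c‖ = 1 := norm_eC _

theorem eQ_neg (y c : O) : eQ (-y) c = conj (eQ y c) := by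
  unfold eQ
  rw [map_neg, neg_div, eC_neg]

theorem eQ_neg_right (y c : O) : eQ y (-c) = eQ (-y) c := by
  unfold eQ
  rw [map_neg, map_neg, neg_div, div_neg]

theorem eQ_of_dvd {y c : O} (h : c ∣ y) : eQ y c = 1 := by
  obtain ⟨k, rfl⟩ := h
  unfold eQ
  by_cases hc : c = 0
  · simp [hc]
  · rw [map_mul, mul_div_cancel_left₀ _ (sg_eq_zero.not.2 hc), eC_sg]

theorem eQ_congr {y y' c : O} (h : c ∣ y - y') : eQ y c = eQ y' c := by
  have : y = (y - y') + y' := by ring
  rw [this, eQ_add, eQ_of_dvd h, one_mul]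

theorem eQ_mul_cancel {a : O} (ha : a ≠ 0) (y c : O) : eQ (a * y) (a * c) = eQ y c := by
  unfold eQ
  rw [map_mul, map_mul, mul_div_mul_left _ _ (sg_eq_zero.not.2 ha)]

theorem eQ_split {c₁ c₂ : O} (h₁ : c₁ ≠ 0) (h₂ : c₂ ≠ 0) (y₁ y₂ : O) :
    eQ (y₁ * c₂ + y₂ * c₁) (c₁ * c₂) = eQ y₁ c₁ * eQ y₂ c₂ := by
  rw [eQ_add, mul_comm y₂ c₁, eQ_mul_cancel h₁, mul_comm y₁ c₂, mul_comm c₁ c₂, eQ_mul_cancel h₂]

theorem eQ_eq_one_iff {h c : O} (hc : c ≠ 0) : (∀ y, eQ (h * y) c = 1) ↔ c ∣ h := by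
  constructor
  · intro H
    have hc' : sg c ≠ 0 := sg_eq_zero.not.2 hc
    obtain ⟨m, hm⟩ := (eC_mul_eq_one_iff (z := sg h / sg c)).1 fun n => by
      have := H n
      unfold eQ at this
      rwa [map_mul, mul_comm (sg h), mul_div_assoc] at this
    refine ⟨m, sg_injective ?_⟩
    rw [map_mul, ← hm]
    field_simp
  · intro H y
    exact eQ_of_dvd (H.mul_right y)

theorem eQ_coord_nat (x y : ℤ) {m : ℕ} (hm : m ≠ 0) :
    eQ ((x : O) + y * om) (m : O) = Complex.exp (2 * Real.pi * Complex.I * (y / m)) := by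
  have hm' : (m : ℂ) ≠ 0 := Nat.cast_ne_zero.2 hm
  have := eC_coord ((x : ℝ) / m) ((y : ℝ) / m)
  push_cast at this
  rw [← this]
  unfold eQ
  congr 1
  simp only [map_add, map_mul, map_intCast, map_natCast]
  field_simp

theorem eQ_cj (y c : O) : eQ (cj y) (cj c) = conj (eQ y c) := by
  unfold eQ
  rw [sg_cj, sg_cj, ← map_div₀, eC_conj]

theorem eQ_pow (y c : O) (k : ℕ) : eQ y c ^ k = eQ (k * y) c := by
  induction k with
  | zero => simp
  | succ k ih => rw [pow_succ, ih, ← eQ_add]; congr 1; push_cast; ring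

/-! ### The angle -/

theorem al_mul (a b : O) : al (a * b) = al a * al b := by
  unfold al
  rw [map_mul, norm_mul, Complex.ofReal_mul, mul_div_mul_comm]

@[simp] theorem al_one : al 1 = 1 := by
  simp [al]

@[simp] theorem al_zero : al 0 = 0 := by
  simp [al]

theorem al_pow (a : O) (k : ℕ) : al (a ^ k) = al a ^ k := by
  induction k with
  | zero => simp
  | succ k ih => rw [pow_succ, al_mul, ih, pow_succ]

theorem norm_al {n : O} (h : n ≠ 0) : ‖al n‖ = 1 := by
  unfold al
  have : ‖sg n‖ ≠ 0 := norm_ne_zero_iff.2 (sg_eq_zero.not.2 h)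
  rw [norm_div, Complex.norm_real, norm_norm, div_self this]

theorem norm_al_le (n : O) : ‖al n‖ ≤ 1 := by
  by_cases h : n = 0
  · simp [h]
  · exact (norm_al h).le

theorem sg_eq_al (n : O) : sg n = (Real.sqrt (nm n) : ℂ) * al n := by
  by_cases h : n = 0
  · simp [h]
  · unfold al
    have : ((‖sg n‖ : ℝ) : ℂ) ≠ 0 :=
      Complex.ofReal_ne_zero.2 (norm_ne_zero_iff.2 (sg_eq_zero.not.2 h))
    rw [← norm_sg, mul_div_cancel₀ _ this]

theorem al_unit {u : O} (h : IsUnit u) : al u = sg u := by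
  unfold al
  rw [norm_sg, nm_unit h]
  simp

theorem al_cj (n : O) : al (cj n) = conj (al n) := by
  unfold al
  rw [sg_cj, map_div₀, Complex.conj_ofReal, Complex.norm_conj]

end Crest.Agent.R17
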