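import Crest.Agent.R17.A.Sym

/-!
Row 17, block A2: cubic reciprocity and its supplements.
-/

set_option autoImplicit false

namespace Crest.Agent.R17

open scoped ComplexConjugate

theorem cua_card_ne {F F' : Type*} [Field F] [Field F'] [Fintype F']
    (h : ringChar F' ≠ ringChar F) : (Fintype.card F' : F) ≠ 0 := by
  obtain ⟨n, hp, hc⟩ := FiniteField.card F' (ringChar F')
  intro H
  rw [hc, Nat.cast_pow, pow_eq_zero_iff n.ne_zero] at H
  exact h (CharP.ringChar_of_prime_eq_zero hp H).symm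

theorem cua_sq_ne {G : Type*} [Group G] {x : G} (h3 : x ^ 3 = 1) (h1 : x ≠ 1) : x * x ≠ 1 :=
  fun h => h1 (by rw [pow_three, h, mul_one] at h3; exact h3)

theorem cua_sum {F : Type*} [Field F] [Fintype F] {m : ℕ} (hm : Fintype.card F = 3 * m + 1) :
    ∑ x : F, x ^ m * (1 - x) ^ m = 0 := by
  have h1 : 1 < Fintype.card F := Fintype.one_lt_card
  have e : ∀ x : F, x ^ m * (1 - x) ^ m =
      ∑ k ∈ Finset.range (m + 1), (-1) ^ k * (m.choose k : F) * x ^ (m + k) := by
    intro x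
    rw [sub_eq_neg_add, add_pow, Finset.mul_sum]
    refine Finset.sum_congr rfl fun k _ => ?_
    rw [neg_pow x]
    ring
  simp only [e]
  rw [Finset.sum_comm]
  refine Finset.sum_eq_zero fun k hk => ?_
  have := Finset.mem_range.1 hk
  rw [← Finset.mul_sum, FiniteField.sum_pow_lt_card_sub_one F _ (by omega), mul_zero]

theorem cua_frob {F F' : Type*} [Field F] [Fintype F] [Field F'] [Fintype F'] {χ : MulChar F F'}
    (h3 : χ ^ 3 = 1) (h1 : χ ≠ 1) (hch : ringChar F' ≠ ringChar F) {m : ℕ}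
    (hm : Fintype.card F' = 3 * m + 1) :
    (Fintype.card F * jacobiSum χ χ) ^ m = χ (Fintype.card F') ^ 2 := by
  obtain ⟨n', hp', hc'⟩ := FiniteField.card F' (ringChar F')
  let ψ := AddChar.FiniteField.primitiveChar F F' hch
  let E := CyclotomicField ψ.n F'
  have hchar := Algebra.ringChar_eq F' E
  have hinj := (algebraMap F' E).injective
  apply hinj
  rw [map_pow, map_pow, map_mul, map_natCast, ← jacobiSum_ringHomComp, ← MulChar.ringHomComp_apply]
  have a1 : χ.ringHomComp (algebraMap F' E) ≠ 1 := (MulChar.ringHomComp_ne_one_iff hinj).2 h1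
  have a3 : χ.ringHomComp (algebraMap F' E) ^ 3 = 1 := by
    rw [MulChar.ringHomComp_pow, h3, MulChar.ringHomComp_one]
  generalize χ.ringHomComp (algebraMap F' E) = χ' at a1 a3
  have hu : ∀ a : F, a ≠ 0 → χ' a ^ 3 = 1 := fun a ha => by
    rw [← MulChar.pow_apply' _ three_ne_zero, a3, MulChar.one_apply (IsUnit.mk0 a ha)]
  have hi : χ' * χ' = χ'⁻¹ := eq_inv_of_mul_eq_one_left (by rw [← a3, pow_three'])
  have hneg : χ' (-1) = 1 := by
    have b1 := hu (-1) (neg_ne_zero.2 one_ne_zero)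
    rwa [pow_three, ← map_mul, neg_mul_neg, one_mul, map_one, mul_one] at b1
  have hq : (Fintype.card F : E) ≠ 0 := cua_card_ne (hchar ▸ hch.symm)
  have g0 := gaussSum_ne_zero_of_nontrivial hq a1 ψ.prim
  have g3 : gaussSum χ' ψ.char ^ 3 = Fintype.card F * jacobiSum χ' χ' := by
    have b1 := jacobiSum_mul_nontrivial (cua_sq_ne a3 a1) ψ.char
    have b2 := gaussSum_mul_gaussSum_eq_card a1 ψ.prim
    have b3 := mul_gaussSum_inv_eq_gaussSum (χ' * χ') ψ.char
    rw [MulChar.mul_apply, hneg, one_mul, one_mul] at b3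
    rw [pow_three, ← b1, ← b2, ← hi, b3, mul_assoc]
  have := Fact.mk (hchar.subst hp')
  have gQ : ∀ n : ℕ, gaussSum χ' ψ.char ^ (ringChar E ^ n) =
      gaussSum (χ' ^ (ringChar E ^ n)) (ψ.char ^ (ringChar E ^ n)) := by
    intro n
    induction n with
    | zero => simp only [pow_zero, pow_one]
    | succ n ih => rw [pow_succ, pow_mul, ih, gaussSum_frob, ← pow_mul, ← pow_mul]
  have b1 := gQ n'
  have hQ := cua_card_ne hch
  have b2 := gaussSum_mulShift χ' ψ.char (Units.mk0 _ hQ)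
  rw [← hchar, ← hc', AddChar.pow_mulShift] at b1
  rw [Units.val_mk0] at b2
  have b3 : χ' ^ Fintype.card F' = χ' := by rw [hm, pow_succ, pow_mul, a3, one_pow, one_mul]
  rw [b3] at b1
  rw [← b1] at b2
  nth_rewrite 2 [hm] at b2
  rw [pow_succ, pow_mul, g3, ← mul_assoc] at b2
  have b4 := mul_right_cancel₀ g0 (b2.trans (one_mul _).symm)
  linear_combination χ' (Fintype.card F') ^ 2 * b4 -
    (Fintype.card F * jacobiSum χ' χ') ^ m * hu _ hQ

theorem cua_field {p : O} (hp : Prime p) (h : Prim p) :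
    ∃ (F : Type) (_ : Field F) (_ : Fintype F) (φ : O →+* F) (χ : MulChar F O),
      (∀ u, φ u = 0 ↔ p ∣ u) ∧ Fintype.card F = nN p ∧ χ ^ 3 = 1 ∧
      (∀ u, sg (χ (φ u)) = cb u p) ∧ (∀ x, φ (χ x) = x ^ ((nN p - 1) / 3)) ∧
      ∀ G : F → ℂ, rsum p (fun y => G (φ y)) = ∑ x, G x := by
  obtain ⟨χ, h1, h2, h3⟩ := exists_cbChar hp h.coprime_three
  have := PrincipalIdealRing.isMaximal_of_irreducible hp.irreducible
  have := finite_quot hp.ne_zero
  have := Fintype.ofFinite (O ⧸ Ideal.span {p})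
  have hk : ∀ u, Ideal.Quotient.mk (Ideal.span {p}) u = 0 ↔ p ∣ u := fun u => by
    rw [Ideal.Quotient.eq_zero_iff_mem, Ideal.mem_span_singleton]
  refine ⟨O ⧸ Ideal.span {p}, Ideal.Quotient.field _, this, Ideal.Quotient.mk _, χ, hk,
    Fintype.card_eq_nat_card.trans (card_quot p), orderOf_dvd_iff_pow_eq_one.1 (dvd_of_eq h1), h2, fun x => ?_,
    rsum_eq_quot⟩
  obtain ⟨u, rfl⟩ := Ideal.Quotient.mk_surjective x
  have := (hk _).2 (h3 u)
  rw [map_sub, map_pow, sub_eq_zero] at this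
  exact this.symm

theorem cua_om_sub_sq : (om - 1) ^ 2 = -3 * om := by
  linear_combination om_sq

theorem cua_jac {p : O} (hp : Prime p) (h : Prim p) {F : Type} [Field F] [Fintype F]
    {φ : O →+* F} {χ : MulChar F O} (hk : ∀ u, φ u = 0 ↔ p ∣ u) (hc : Fintype.card F = nN p)
    (h3 : χ ^ 3 = 1) (hs : ∀ u, sg (χ (φ u)) = cb u p)
    (hφ : ∀ x, φ (χ x) = x ^ ((nN p - 1) / 3)) : jacobiSum χ χ = -p := by
  have hm := nN_mod_three h.coprime_three
  obtain ⟨z, -, hz⟩ := exists_jacobiSum_eq_neg_one_add (n := 3) (by norm_num) h3 h3 (by omega)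
    (isPrimitiveRoot_sg_om.of_map_of_injective sg_injective)
  have a1 : Prim (-jacobiSum χ χ) := ⟨z * om, by rw [hz, cua_om_sub_sq]; ring⟩
  have a2 : p ∣ jacobiSum χ χ := by
    rw [← hk, jacobiSum, map_sum]
    simp only [map_mul, hφ]
    exact cua_sum (by omega)
  have a3 : nN (jacobiSum χ χ) = nN p := by
    have b1 : χ.ringHomComp sg ≠ 1 := by
      obtain ⟨u, hu⟩ := exists_cb_eq_om hp h.coprime_three
      intro e
      have b2 := congrArg (fun ξ : MulChar F ℂ => ξ (φ u)) e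
      simp only [MulChar.ringHomComp_apply, hs, hu] at b2
      by_cases h0 : IsUnit (φ u)
      · rw [MulChar.one_apply h0] at b2
        exact isPrimitiveRoot_sg_om.ne_one (by norm_num) b2
      · rw [MulChar.map_nonunit _ h0] at b2
        exact isPrimitiveRoot_sg_om.ne_zero (by norm_num) b2
    have b3 : χ.ringHomComp sg ^ 3 = 1 := by
      rw [MulChar.ringHomComp_pow, h3, MulChar.ringHomComp_one]
    have b4 := jacobiSum_mul_jacobiSum_inv (F := F) (F' := ℂ) (by
      rw [ringChar.eq_zero]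
      exact (CharP.char_is_prime F _).ne_zero.symm) b1 b1 (cua_sq_ne b3 b1)
    rw [← MulChar.star_eq_inv] at b4
    have b5 := jacobiSum_ringHomComp (χ.ringHomComp sg) (χ.ringHomComp sg) (starRingEnd ℂ)
    change jacobiSum (star _) (star _) = _ at b5
    rw [b5, jacobiSum_ringHomComp, ← sg_cj, ← map_mul, mul_cj, map_natCast, hc] at b4
    exact_mod_cast b4
  have a4 := h.eq_of_associated a1
    (associated_of_dvd_of_nN_eq (dvd_neg.2 a2) (by rw [nN_neg, a3]))
  rw [a4, neg_neg]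

/-- `J(χ₃, χ₃) = -π` -/
theorem jacobi_cb {p : O} (hp : Prime p) (h : Prim p) :
    rsum p (fun y => cb y p * cb (1 - y) p) = -sg p := by
  obtain ⟨F, _, _, φ, χ, hk, hc, h3, hs, hφ, hr⟩ := cua_field hp h
  have h1 := hr fun x => sg (χ x) * sg (χ (1 - x))
  rw [← map_neg, ← cua_jac hp h hk hc h3 hs hφ, jacobiSum, map_sum]
  simp only [map_mul, ← h1, ← hs, map_sub, map_one]

/-- the key congruence from the Frobenius action on the cubic Gauss sum -/
theorem cb_frob {p r : O} (hp : Prime p) (h : Prim p) (hr : Prime r) (h' : Prim r)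
    (hc : ¬ r ∣ (nN p : O)) : cb ((nN p : O) * p) r = cb (nN r : O) p ^ 2 := by
  obtain ⟨F, _, _, φ, χ, hk, hcard, h3, hs, hφ, -⟩ := cua_field hp h
  obtain ⟨F', _, _, φ', -, hk', hcard', -⟩ := cua_field hr h'
  have hm := nN_mod_three h'.coprime_three
  have hch : ringChar F' ≠ ringChar F := fun e => hc (by
    obtain ⟨n, -, hn⟩ := FiniteField.card F (ringChar F)
    rw [← hk', map_natCast, ← hcard, hn, ← e, Nat.cast_pow, ringChar.Nat.cast_ringChar,
      zero_pow n.ne_zero])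
  have a1 : χ.ringHomComp φ' ≠ 1 := by
    obtain ⟨u, hu⟩ := exists_cb_eq_om hp h.coprime_three
    have b1 : χ (φ u) = om := sg_injective ((hs u).trans hu)
    have b0 : IsUnit (φ u) := by
      by_contra h0
      rw [MulChar.map_nonunit _ h0] at b1
      exact isUnit_om.ne_zero b1.symm
    intro e
    have b2 := congrArg (fun ξ : MulChar F F' => ξ (φ u)) e
    simp only [MulChar.ringHomComp_apply, b1, MulChar.one_apply b0] at b2
    have b3 : r ∣ (om - 1) ^ 2 :=
      Dvd.dvd.pow ((hk' _).1 (by rw [map_sub, b2, map_one, sub_self])) two_ne_zero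
    rw [cua_om_sub_sq, isUnit_om.dvd_mul_right, dvd_neg] at b3
    exact hr.not_isUnit (h'.coprime_three.isUnit_of_dvd b3)
  have a2 := cua_frob (m := (nN r - 1) / 3)
    (by rw [MulChar.ringHomComp_pow, h3, MulChar.ringHomComp_one]) a1 hch (by omega)
  have a3 : ¬ p ∣ (nN r : O) := by
    rw [← hk, map_natCast, ← hcard']
    exact cua_card_ne hch
  obtain ⟨j, -, -, hj⟩ := exists_cb_dvd hp h.coprime_three a3
  have a4 : χ (nN r) = om ^ j := sg_injective (by rw [map_pow, ← hj, ← hs, map_natCast φ])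
  rw [jacobiSum_ringHomComp, cua_jac hp h hk hcard h3 hs hφ, MulChar.ringHomComp_apply, hcard,
    hcard', a4] at a2
  rw [← cb_neg_left, hj, ← pow_mul]
  refine cb_eq_of_dvd hr h'.coprime_three ((hk' _).1 ?_)
  rw [map_sub, map_pow, pow_mul, map_pow, ← a2, ← mul_neg, map_mul, map_natCast, sub_self]

theorem cub_dvd_of_dvd {p r : O} (hp : Prime p) (hr : Prime r) (h : p ∣ r) : r ∣ p :=
  (hp.associated_of_dvd hr h).symm.dvd

theorem cub_cube {u n : O} (hn : Prim n) (h : IsCoprime u n) : cb u n ^ 3 = 1 := by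
  rw [cb_pow_three, if_pos ⟨hn.coprime_three, h⟩]

theorem cub_one {n : O} (hn : Prim n) : cb 1 n = 1 := by
  rw [cb_one_left, if_pos hn.coprime_three]

theorem cub_case1 {p r : O} (hp : Prime p) (h : Prim p) (hr : Prime r) (h' : Prim r)
    (hc : ¬ r ∣ (nN p : O)) : cb p r = cb r p := by
  have hc' : ¬ p ∣ (nN r : O) := by
    intro hd
    apply hc
    rw [← mul_cj] at hd ⊢
    rcases hp.dvd_or_dvd hd with h1 | h1
    · exact (cub_dvd_of_dvd hp hr h1).mul_right _
    · have := cub_dvd_of_dvd hp (prime_cj hr) h1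
      rw [← cj_dvd_cj, cj_cj] at this
      exact this.mul_left _
  have e1 := cb_frob hp h hr h' hc
  have e2 := cb_frob hr h' hp h hc'
  rw [← mul_cj] at hc hc'
  rw [← mul_cj, ← mul_cj] at e1 e2
  simp only [cb_mul_left] at e1 e2
  have ha := cub_cube h' ((hr.coprime_iff_not_dvd.2 fun hd => hc (hd.mul_right _)).symm)
  have hb := cub_cube h' ((hr.coprime_iff_not_dvd.2 fun hd => hc (hd.mul_left _)).symm)
  have hcc := cub_cube h ((hp.coprime_iff_not_dvd.2 fun hd => hc' (hd.mul_right _)).symm)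
  have hd := cub_cube h ((hp.coprime_iff_not_dvd.2 fun hd => hc' (hd.mul_left _)).symm)
  generalize cb p r = a at *
  generalize cb (cj p) r = b at *
  generalize cb r p = c at *
  generalize cb (cj r) p = d at *
  have ha0 : a ≠ 0 := by rintro rfl; simp at ha
  have hb0 : b ≠ 0 := by rintro rfl; simp at hb
  have hc0 : c ≠ 0 := by rintro rfl; simp at hcc
  have hd0 : d ≠ 0 := by rintro rfl; simp at hd
  have hbd : b * d = 1 := by
    have : a ^ 2 * b * c ^ 2 * d * (b * d - 1) = 0 := by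
      linear_combination (-(c * d * c)) * e1 - (c * d) ^ 2 * e2
    simpa [ha0, hb0, hc0, hd0, sub_eq_zero] using this
  have h2 : a ^ 2 = c ^ 2 := by
    linear_combination b ^ 2 * e1 - a ^ 2 * hb + c ^ 2 * (b * d + 1) * hbd
  linear_combination (a ^ 2 + c ^ 2) * h2 - a * ha + c * hcc

theorem cub_case1' {q : O} (hq : Prime q) (h : Prim q) {m : O} (hm : Prim m) :
    IsCoprime m (nN q : O) → cb m q = cb q m := by
  refine hm.induction (P := fun m => IsCoprime m (nN q : O) → cb m q = cb q m) ?_ ?_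
  · intro _
    rw [cub_one h, cb_one_right]
  · intro r m hr hr' _ ih hc
    rw [cb_mul_left, cb_mul_right, ih hc.of_mul_left_right,
      cub_case1 hq h hr hr' (hr.coprime_iff_not_dvd.1 hc.of_mul_left_left)]

theorem cb_recip_prime {p r : O} (hp : Prime p) (h : Prim p) (hr : Prime r) (h' : Prim r) :
    cb p r = cb r p := by
  by_cases hc : r ∣ (nN p : O)
  swap
  · exact cub_case1 hp h hr h' hc
  rw [← mul_cj] at hc
  rcases hr.dvd_or_dvd hc with h1 | h1
  · rw [h'.eq_of_associated h (hr.associated_of_dvd hp h1)]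
  have hrp : r = cj p := h'.eq_of_associated h.cj (hr.associated_of_dvd (prime_cj hp) h1)
  subst hrp
  by_cases he : cj p = p
  · rw [he]
  obtain ⟨t, ht⟩ := exists_trace p
  have htp : Prim (-(t : O)) := by
    refine prim_neg_two.congr ?_
    have : (-2 : O) - -(t : O) = (p - 1) + (cj p - 1) := by rw [← ht]; ring
    rw [this]
    exact dvd_add h h'
  have hcop : IsCoprime (-(t : O)) (nN (cj p) : O) := by
    rw [nN_cj, ← mul_cj, ← ht]
    refine IsCoprime.neg_left (IsCoprime.mul_right ?_ ?_)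
    · refine (hp.coprime_iff_not_dvd.2 fun hd => he ?_).symm
      exact (h.eq_of_associated h' (hp.associated_of_dvd hr ((dvd_add_right dvd_rfl).1 hd))).symm
    · refine (hr.coprime_iff_not_dvd.2 fun hd => he ?_).symm
      exact h'.eq_of_associated h (hr.associated_of_dvd hp ((dvd_add_left dvd_rfl).1 hd))
  have e1 : cb p (cj p) = cb (cj p) (-(t : O)) := by
    rw [← cub_case1' hr h' htp hcop, cb_neg_left]
    exact cb_congr ⟨-1, by rw [← ht]; ring⟩
  have e2 : conj (cb (cj p) (-(t : O))) = cb (cj p) (-(t : O)) := by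
    rw [← cb_cj, cj_cj, map_neg, map_intCast, ← cb_neg_left (cj p)]
    exact cb_congr ⟨-1, by rw [← ht]; ring⟩
  have e3 : cb (cj p) p = conj (cb p (cj p)) := by rw [← cb_cj, cj_cj]
  rw [e3, e1, e2]

/-- cubic reciprocity -/
theorem cb_recip {a b : O} (ha : Prim a) (hb : Prim b) : cb a b = cb b a := by
  refine ha.induction (P := fun a => cb a b = cb b a) ?_ ?_
  · rw [cub_one hb, cb_one_right]
  · intro p m hp hp' _ ih
    rw [cb_mul_left, cb_mul_right, ih]
    congr 1
    refine hb.induction (P := fun b => cb p b = cb b p) ?_ ?_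
    · rw [cub_one hp', cb_one_right]
    · intro r m' hr hr' _ ih'
      rw [cb_mul_left, cb_mul_right, ih', cb_recip_prime hp hp' hr hr']

theorem cub_om_cube : sg om ^ 3 = 1 := by rw [← map_pow, om_cube, map_one]

theorem cub_om_ne : sg om ≠ 0 := by
  intro h
  have := cub_om_cube
  rw [h] at this
  simp at this

theorem cub_zpow {m n : ℤ} (h : 3 ∣ m - n) : sg om ^ m = sg om ^ n := by
  obtain ⟨k, hk⟩ := h
  have : m = n + 3 * k := by omega
  rw [this, zpow_add₀ cub_om_ne, zpow_mul, zpow_ofNat, cub_om_cube, one_zpow, mul_one]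

theorem cub_prim (a b : ℤ) : Prim (1 + 3 * ((a : O) + b * om)) := prim_iff_coord.2 ⟨a, b, rfl⟩

theorem cb_om (a b : ℤ) : cb om (1 + 3 * ((a : O) + b * om)) = sg om ^ (-(a + b)) := by
  rw [cb_om_eq (cub_prim a b).coprime_three, ← zpow_natCast]
  apply cub_zpow
  have h1 : 1 + 3 * ((a : O) + b * om) = ((1 + 3 * a : ℤ) : O) + ((3 * b : ℤ) : O) * om := by
    push_cast; ring
  have h2 := nN_coord (1 + 3 * a) (3 * b)
  rw [← h1] at h2
  generalize nN (1 + 3 * ((a : O) + b * om)) = N at h2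
  have h3 : (N : ℤ) = 1 + 3 * (2 * a - b) + 9 * (a ^ 2 - a * b + b ^ 2) := by rw [h2]; ring
  generalize a ^ 2 - a * b + b ^ 2 = M at h3
  omega

theorem cub_zt (a b : ℤ) : cb zt (1 + 3 * ((a : O) + b * om)) = sg om ^ (a + b) := by
  have h1 : zt = -(om * om) := by
    have := om_sq
    unfold zt
    linear_combination this
  rw [h1, cb_neg_left, cb_mul_left, cb_om, ← zpow_add₀ cub_om_ne]
  exact cub_zpow ⟨-(a + b), by ring⟩

theorem cub_lam {a b : ℤ} (hab : ¬ 3 ∣ a + b) :
    cb lam (1 + 3 * ((a : O) + b * om)) = sg om ^ (-b) := by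
  have hd := cub_prim a b
  obtain ⟨ζ, n, hζ, hn, he⟩ := exists_unit_prim (n := (a : O) + b * om)
    (fun h => hab (lam_dvd_coord.1 h))
  obtain ⟨j, hj, rfl⟩ := isUnit_iff.1 hζ
  have e1 : cb (lam * lam * zt ^ j * n) (1 + 3 * ((a : O) + b * om)) = 1 := by
    rw [← cub_one hd]
    refine cb_congr ⟨-1, ?_⟩
    have := lam_sq
    linear_combination (zt ^ j * n) * this + 3 * he
  have e2 : cb n (1 + 3 * ((a : O) + b * om)) = 1 := by
    rw [cb_recip hn hd, ← cub_one hn]
    exact cb_congr ⟨3 * zt ^ j, by rw [he]; ring⟩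
  have e3 := cub_cube hd (prime_lam.coprime_iff_not_dvd.2 hd.not_lam_dvd)
  rw [cb_mul_left, cb_mul_left, cb_mul_left, e2, cb_pow_left' _ hd.coprime_three, cub_zt] at e1
  have e4 : cb lam (1 + 3 * ((a : O) + b * om)) = (sg om ^ (a + b)) ^ j := by
    linear_combination (sg om ^ (a + b)) ^ j * e3 - cb lam (1 + 3 * ((a : O) + b * om)) * e1
  rw [e4, ← zpow_natCast, ← zpow_mul]
  apply cub_zpow
  have h3 : (3 : O) ∣ (a : O) + b * om - zt ^ j := by
    have : (a : O) + b * om - zt ^ j = zt ^ j * (n - 1) := by rw [he]; ring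
    rw [this]
    exact Dvd.dvd.mul_left hn _
  have key : ∀ x y : ℤ, zt ^ j = (x : O) + y * om → 3 ∣ a - x ∧ 3 ∣ b - y := by
    intro x y hxy
    apply (int_dvd_coord (m := 3)).1
    have : ((a - x : ℤ) : O) + ((b - y : ℤ) : O) * om = (a : O) + b * om - zt ^ j := by
      rw [hxy]; push_cast; ring
    rw [this]
    exact_mod_cast h3
  have z1 : zt = 1 + om := rfl
  have z2 := zt_sq
  have z3 := zt_cube
  interval_cases j
  · have := key 1 0 (by simp)
    omega
  · have := key 1 1 (by simp [z1])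
    omega
  · have := key 0 1 (by simp [z2])
    omega
  · have := key (-1) 0 (by simp [z3])
    omega
  · have := key (-1) (-1) (by push_cast; linear_combination zt * z3 - z1)
    omega
  · have := key 0 (-1) (by push_cast; linear_combination zt ^ 2 * z3 - z2)
    omega

theorem cb_lam (a b : ℤ) : cb lam (1 + 3 * ((a : O) + b * om)) = sg om ^ (-b) := by
  by_cases hab : 3 ∣ a + b
  swap
  · exact cub_lam hab
  have e1 := cub_lam (a := -1 - 2 * a) (b := -2 * b) (by omega)
  have e2 := cub_lam (a := -1) (b := 0) (by omega)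
  have h1 : 1 + 3 * (((-1 - 2 * a : ℤ) : O) + ((-2 * b : ℤ) : O) * om) =
      (1 + 3 * ((a : O) + b * om)) * (1 + 3 * (((-1 : ℤ) : O) + ((0 : ℤ) : O) * om)) := by
    push_cast; ring
  rw [h1, cb_mul_right, e2, neg_zero, zpow_zero, mul_one] at e1
  rw [e1]
  exact cub_zpow ⟨b, by ring⟩

theorem cb_one_sub_om (a b : ℤ) : cb (1 - om) (1 + 3 * ((a : O) + b * om)) = sg om ^ a := by
  have h1 : 1 - om = om * om * lam := by
    have := om_sq
    unfold lam
    linear_combination (1 - 2 * om) * this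
  rw [h1, cb_mul_left, cb_mul_left, cb_om, cb_lam, ← zpow_add₀ cub_om_ne, ← zpow_add₀ cub_om_ne]
  exact cub_zpow ⟨-(a + b), by ring⟩

theorem cb_three (a b : ℤ) : cb 3 (1 + 3 * ((a : O) + b * om)) = sg om ^ b := by
  have h1 : (3 : O) = -(lam * lam) := by
    have := lam_sq
    linear_combination this
  conv_lhs => enter [1]; rw [h1]
  rw [cb_neg_left, cb_mul_left, cb_lam, ← zpow_add₀ cub_om_ne]
  exact cub_zpow ⟨-b, by ring⟩

theorem cub_lam_dvd {n n' : O} (h : (9 : O) ∣ n - n') (hn : lam ∣ n) : lam ∣ n' := by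
  have h1 : lam ∣ n - n' := (lam_dvd_three.trans ⟨3, by norm_num⟩).trans h
  exact (dvd_sub_right hn).1 h1

/-- simultaneous normalisation of two elements that are congruent modulo `9` -/
theorem cub_norm {n n' : O} (h : (9 : O) ∣ n - n') (hn : ¬ lam ∣ n) :
    ∃ η m m' : O, IsUnit η ∧ Prim m ∧ Prim m' ∧ n = η * m ∧ n' = η * m' ∧ (9 : O) ∣ m - m' := by
  obtain ⟨η, m, hη, hm, he⟩ := exists_unit_prim hn
  obtain ⟨m', hm'⟩ : η ∣ n' := hη.dvd
  have h9 : (9 : O) ∣ m - m' := by
    rw [he, hm', ← mul_sub] at h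
    exact (hη.dvd_mul_left).1 h
  exact ⟨η, m, m', hη, hm, hm.congr (Dvd.dvd.trans ⟨3, by norm_num⟩ h9), he, hm', h9⟩

theorem cub_zero {n : O} (hn : lam ∣ n) (u : O) : cb u n = 0 :=
  cb_eq_zero_of_not_three (fun h => coprime_three_iff.1 h hn) u

/-- `(ζ λ^i / n)₃` only depends on `n mod 9` -/
theorem cb_unit_lam_congr {ζ n n' : O} (hζ : IsUnit ζ) (i : ℕ) (h : (9 : O) ∣ n - n') :
    cb (ζ * lam ^ i) n = cb (ζ * lam ^ i) n' := by
  by_cases hn : lam ∣ n
  · rw [cub_zero hn, cub_zero (cub_lam_dvd h hn)]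
  obtain ⟨η, m, m', hη, hm, hm', rfl, rfl, h9⟩ := cub_norm h hn
  obtain ⟨j, -, rfl⟩ := isUnit_iff.1 hζ
  rw [cb_mul_right, cb_mul_right]
  congr 1
  rw [cb_mul_left, cb_mul_left, cb_pow_left' _ hm.coprime_three, cb_pow_left' _ hm.coprime_three,
    cb_pow_left' _ hm'.coprime_three, cb_pow_left' _ hm'.coprime_three]
  obtain ⟨a, b, rfl⟩ := prim_iff_coord.1 hm
  obtain ⟨a', b', rfl⟩ := prim_iff_coord.1 hm'
  have h3 : 3 ∣ a - a' ∧ 3 ∣ b - b' := by
    have : (9 : ℤ) ∣ 3 * (a - a') ∧ (9 : ℤ) ∣ 3 * (b - b') := by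
      apply (int_dvd_coord (m := 9)).1
      have : ((3 * (a - a') : ℤ) : O) + ((3 * (b - b') : ℤ) : O) * om =
          1 + 3 * ((a : O) + b * om) - (1 + 3 * ((a' : O) + b' * om)) := by
        push_cast; ring
      rw [this]
      exact_mod_cast h9
    omega
  rw [cub_zt, cub_zt, cb_lam, cb_lam, cub_zpow (m := a + b) (n := a' + b') (by omega),
    cub_zpow (m := -b) (n := -b') (by omega)]

theorem cub_per_prim {u D n n' : O} {k : ℕ} (h : Prim u) (hu : u ∣ D ^ k) (hn : Prim n)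
    (hn' : Prim n') (hD : D ∣ n - n') : cb u n = cb u n' := by
  rw [cb_recip h hn, cb_recip h hn']
  exact cb_congr_rad fun p hp hpu => (hp.dvd_of_dvd_pow (hpu.trans hu)).trans hD

/-- periodicity in the lower argument -/
theorem cb_per {u D n n' : O} {k : ℕ} (hu : u ∣ D ^ k) (h9 : (9 : O) ∣ n - n') (hD : D ∣ n - n') :
    cb u n = cb u n' := by
  by_cases hu0 : u = 0
  · rw [hu0, zero_dvd_iff] at hu
    rw [pow_eq_zero_iff', ] at hu
    rw [hu.1, zero_dvd_iff, sub_eq_zero] at hD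
    rw [hD]
  by_cases hn : lam ∣ n
  · rw [cub_zero hn, cub_zero (cub_lam_dvd h9 hn)]
  obtain ⟨ζ, i, m, hζ, hm, rfl⟩ := exists_decomp hu0
  rw [cb_mul_left, cb_mul_left (ζ * lam ^ i), cb_unit_lam_congr hζ i h9]
  congr 1
  obtain ⟨η, a, a', hη, ha, ha', rfl, rfl, -⟩ := cub_norm h9 hn
  rw [cb_mul_right, cb_mul_right]
  congr 1
  rw [← mul_sub] at hD
  exact cub_per_prim hm ((Dvd.intro_left _ rfl).trans hu) ha ha' ((hη.dvd_mul_left).1 hD)

/-- for primary `u` the modulus `3` suffices (for primary `n`, `n'`) -/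
theorem cb_per_prim {u D n n' : O} {k : ℕ} (h : Prim u) (hu : u ∣ D ^ k) (hn : Prim n)
    (hn' : Prim n') (hD : D ∣ n - n') : cb u n = cb u n' :=
  cub_per_prim h hu hn hn' hD

end Crest.Agent.R17
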