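import Crest.Agent.R17.A.Basic

/-!
Row 17, block A0: complete sums and finite Fourier transforms.
-/

set_option autoImplicit false

namespace Crest.Agent.R17

open scoped ComplexConjugate

/-- periodic modulo `Q` -/
def Per (Q : O) (f : O → ℂ) : Prop := ∀ a b, Q ∣ a - b → f a = f b

theorem Per.mono {Q Q' : O} {f : O → ℂ} (h : Per Q f) (hQ : Q ∣ Q') : Per Q' f :=
  fun a b hab => h a b (hQ.trans hab)

theorem Per.mul {Q : O} {f g : O → ℂ} (hf : Per Q f) (hg : Per Q g) : Per Q fun y => f y * g y :=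
  fun a b hab => by simp only [hf a b hab, hg a b hab]

theorem Per.comp {Q : O} {f : O → ℂ} (hf : Per Q f) (F : ℂ → ℂ) : Per Q fun y => F (f y) :=
  fun a b hab => by simp only [hf a b hab]

theorem Per.affine {Q : O} {f : O → ℂ} (hf : Per Q f) (a b : O) : Per Q fun y => f (a * y + b) := by
  intro y y' h
  refine hf _ _ ?_
  have : a * y + b - (a * y' + b) = a * (y - y') := by ring
  rw [this]; exact h.mul_left a

theorem per_eQ (h Q : O) : Per Q fun y => eQ (h * y) Q := by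
  intro y y' hy
  refine eQ_congr ?_
  rw [← mul_sub]; exact hy.mul_left h

theorem rsa_mk_eq {Q a b : O} :
    Ideal.Quotient.mk (Ideal.span {Q}) a = Ideal.Quotient.mk (Ideal.span {Q}) b ↔ Q ∣ a - b := by
  rw [Ideal.Quotient.eq, Ideal.mem_span_singleton]

theorem rsa_dvd_out (Q a : O) :
    Q ∣ a - Quotient.out (Ideal.Quotient.mk (Ideal.span {Q}) a) := by
  rw [← rsa_mk_eq, Ideal.Quotient.mk_out]

theorem Per.bdd {Q : O} {f : O → ℂ} (hf : Per Q f) (hQ : Q ≠ 0) : ∃ B : ℝ, ∀ y, ‖f y‖ ≤ B := by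
  have := finite_quot hQ
  obtain ⟨B, hB⟩ := (Set.finite_range fun x : O ⧸ Ideal.span {Q} => ‖f (Quotient.out x)‖).bddAbove
  refine ⟨B, fun y => ?_⟩
  rw [hf y _ (rsa_dvd_out Q y)]
  exact hB ⟨_, rfl⟩

open Classical in
/-- a complete residue system -/
noncomputable def res (Q : O) : Finset O :=
  if h : (Set.range (Quotient.out : O ⧸ Ideal.span {Q} → O)).Finite then h.toFinset else ∅

open Classical in
theorem rsa_res_eq (Q : O) [Fintype (O ⧸ Ideal.span {Q})] :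
    res Q = Finset.univ.image (Quotient.out : O ⧸ Ideal.span {Q} → O) := by
  ext y
  rw [res, dif_pos (Set.finite_range _)]
  simp

theorem rsa_mem_res {Q y : O} (hy : y ∈ res Q) :
    ∃ x : O ⧸ Ideal.span {Q}, Quotient.out x = y := by
  unfold res at hy
  split_ifs at hy with h
  · exact h.mem_toFinset.1 hy
  · simp at hy

theorem rsum_eq_sum {Q : O} (hQ : Q ≠ 0) (f : O → ℂ) : rsum Q f = ∑ y ∈ res Q, f y := by
  classical
  have := finite_quot hQ
  have := Fintype.ofFinite (O ⧸ Ideal.span {Q})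
  rw [rsum, finsum_eq_sum_of_fintype, rsa_res_eq,
    Finset.sum_image fun _ _ _ _ h => Quotient.out_injective h]
  rfl

theorem card_res {Q : O} (hQ : Q ≠ 0) : (res Q).card = nN Q := by
  classical
  have := finite_quot hQ
  have := Fintype.ofFinite (O ⧸ Ideal.span {Q})
  rw [rsa_res_eq, Finset.card_image_of_injective _ Quotient.out_injective, ← card_quot,
    Nat.card_eq_fintype_card]
  rfl

theorem exists_res {Q : O} (hQ : Q ≠ 0) (a : O) : ∃ y ∈ res Q, Q ∣ a - y := by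
  classical
  have := finite_quot hQ
  have := Fintype.ofFinite (O ⧸ Ideal.span {Q})
  refine ⟨_, ?_, rsa_dvd_out Q a⟩
  rw [rsa_res_eq]
  exact Finset.mem_image_of_mem _ (Finset.mem_univ _)

theorem res_inj {Q y y' : O} (hy : y ∈ res Q) (hy' : y' ∈ res Q) (h : Q ∣ y - y') : y = y' := by
  obtain ⟨x, rfl⟩ := rsa_mem_res hy
  obtain ⟨x', rfl⟩ := rsa_mem_res hy'
  rw [← rsa_mk_eq, Ideal.Quotient.mk_out, Ideal.Quotient.mk_out] at h
  rw [h]

/-- any (parametrised) residue system computes `rsum` -/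
theorem rsum_eq_of_system {ι : Type*} {Q : O} (hQ : Q ≠ 0) {f : O → ℂ} (hf : Per Q f)
    (S : Finset ι) (g : ι → O) (h₁ : ∀ a, ∃ i ∈ S, Q ∣ a - g i)
    (h₂ : ∀ i ∈ S, ∀ j ∈ S, Q ∣ g i - g j → i = j) : rsum Q f = ∑ i ∈ S, f (g i) := by
  have := finite_quot hQ
  have := Fintype.ofFinite (O ⧸ Ideal.span {Q})
  rw [rsum, finsum_eq_sum_of_fintype]
  symm
  refine Finset.sum_bij (fun i _ => Ideal.Quotient.mk (Ideal.span {Q}) (g i))
    (fun _ _ => Finset.mem_univ _) (fun i hi j hj h => h₂ i hi j hj (rsa_mk_eq.1 h))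
    (fun x _ => ?_) (fun i _ => hf _ _ (rsa_dvd_out Q _))
  obtain ⟨i, hi, h⟩ := h₁ (Quotient.out x)
  exact ⟨i, hi, by rw [← rsa_mk_eq.2 h, Ideal.Quotient.mk_out]⟩

theorem rsum_eq_quot {Q : O} [Fintype (O ⧸ Ideal.span {Q})] (F : O ⧸ Ideal.span {Q} → ℂ) :
    rsum Q (fun y => F (Ideal.Quotient.mk _ y)) = ∑ x, F x := by
  rw [rsum, finsum_eq_sum_of_fintype]
  simp only [Ideal.Quotient.mk_out]

theorem rsum_nat {m : ℕ} (hm : m ≠ 0) {f : O → ℂ} (hf : Per (m : O) f) :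
    rsum (m : O) f = ∑ x ∈ Finset.range m, ∑ y ∈ Finset.range m, f ((x : O) + y * om) := by
  have hm' : (m : O) ≠ 0 := by exact_mod_cast hm
  have hm0 : (0 : ℤ) < m := by exact_mod_cast Nat.pos_of_ne_zero hm
  have hc : (m : O) = ((m : ℤ) : O) := by simp
  rw [rsum_eq_of_system hm' hf (Finset.range m ×ˢ Finset.range m)
    (fun p : ℕ × ℕ => (p.1 : O) + p.2 * om) ?_ ?_, Finset.sum_product]
  · intro a
    obtain ⟨x, y, rfl⟩ := exists_coord a
    have hx := Int.emod_nonneg x hm0.ne'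
    have hy := Int.emod_nonneg y hm0.ne'
    have hx' := Int.emod_lt_of_pos x hm0
    have hy' := Int.emod_lt_of_pos y hm0
    refine ⟨((x % m).toNat, (y % m).toNat), ?_, ?_⟩
    · simp only [Finset.mem_product, Finset.mem_range]
      omega
    · have e1 : (((x % m).toNat : ℕ) : O) = ((x % m : ℤ) : O) := by
        rw [← Int.cast_natCast, Int.toNat_of_nonneg hx]
      have e2 : (((y % m).toNat : ℕ) : O) = ((y % m : ℤ) : O) := by
        rw [← Int.cast_natCast, Int.toNat_of_nonneg hy]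
      have e : (x : O) + y * om - (((x % m : ℤ) : O) + ((y % m : ℤ) : O) * om) =
          ((x - x % m : ℤ) : O) + ((y - y % m : ℤ) : O) * om := by push_cast; ring
      simp only [e1, e2]
      rw [e, hc, int_dvd_coord]
      exact ⟨Int.dvd_self_sub_emod, Int.dvd_self_sub_emod⟩
  · rintro ⟨x, y⟩ hp ⟨x', y'⟩ hp' h
    simp only [Finset.mem_product, Finset.mem_range] at hp hp'
    have e : (x : O) + y * om - ((x' : O) + y' * om) =
        (((x : ℤ) - x' : ℤ) : O) + (((y : ℤ) - y' : ℤ) : O) * om := by push_cast; ring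
    simp only at h
    rw [e, hc, int_dvd_coord] at h
    have h1 := Int.eq_zero_of_abs_lt_dvd h.1 (by rw [abs_lt]; omega)
    have h2 := Int.eq_zero_of_abs_lt_dvd h.2 (by rw [abs_lt]; omega)
    ext <;> simp only <;> omega

theorem rsum_assoc {Q Q' : O} (h : Associated Q Q') (f : O → ℂ) : rsum Q f = rsum Q' f := by
  have e : Ideal.span {Q} = Ideal.span {Q'} := Ideal.span_singleton_eq_span_singleton.2 h
  exact congrArg (fun I : Ideal O => ∑ᶠ y : O ⧸ I, f (Quotient.out y)) e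

@[simp] theorem rsum_zero (Q : O) : rsum Q (fun _ => 0) = 0 := by
  simp [rsum]

theorem rsum_add {Q : O} (hQ : Q ≠ 0) (f g : O → ℂ) :
    rsum Q (fun y => f y + g y) = rsum Q f + rsum Q g := by
  simp only [rsum_eq_sum hQ, Finset.sum_add_distrib]

theorem rsum_sub {Q : O} (hQ : Q ≠ 0) (f g : O → ℂ) :
    rsum Q (fun y => f y - g y) = rsum Q f - rsum Q g := by
  simp only [rsum_eq_sum hQ, Finset.sum_sub_distrib]

theorem rsum_mul_left (Q : O) (c : ℂ) (f : O → ℂ) : rsum Q (fun y => c * f y) = c * rsum Q f := by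
  simp only [rsum]
  rw [mul_finsum]

theorem rsum_mul_right (Q : O) (c : ℂ) (f : O → ℂ) : rsum Q (fun y => f y * c) = rsum Q f * c := by
  simp only [mul_comm _ c, rsum_mul_left]

theorem rsum_sum {ι : Type*} {Q : O} (hQ : Q ≠ 0) (S : Finset ι) (f : ι → O → ℂ) :
    rsum Q (fun y => ∑ i ∈ S, f i y) = ∑ i ∈ S, rsum Q (f i) := by
  simp only [rsum_eq_sum hQ]
  exact Finset.sum_comm

theorem rsum_comm {Q R : O} (hQ : Q ≠ 0) (hR : R ≠ 0) (f : O → O → ℂ) :
    rsum Q (fun y => rsum R fun z => f y z) = rsum R fun z => rsum Q fun y => f y z := by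
  simp only [rsum_eq_sum hQ, rsum_eq_sum hR]
  exact Finset.sum_comm

theorem rsum_const {Q : O} (hQ : Q ≠ 0) (c : ℂ) : rsum Q (fun _ => c) = nm Q * c := by
  rw [rsum_eq_sum hQ, Finset.sum_const, card_res hQ, nsmul_eq_mul, nm]
  simp

theorem conj_rsum (Q : O) (f : O → ℂ) : conj (rsum Q f) = rsum Q fun y => conj (f y) := by
  simp only [rsum]
  exact (starRingAut : RingAut ℂ).toAddEquiv.map_finsum _

theorem norm_rsum_le {Q : O} (hQ : Q ≠ 0) {f : O → ℂ} {B : ℝ} (h : ∀ y, ‖f y‖ ≤ B) :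
    ‖rsum Q f‖ ≤ nm Q * B := by
  rw [rsum_eq_sum hQ]
  refine (norm_sum_le _ _).trans ((Finset.sum_le_sum fun y _ => h y).trans ?_)
  rw [Finset.sum_const, card_res hQ, nsmul_eq_mul, nm]

theorem rsum_unit {Q : O} (hQ : IsUnit Q) {f : O → ℂ} (hf : Per Q f) : rsum Q f = f 0 := by
  rw [rsum_eq_of_system hQ.ne_zero hf ({0} : Finset O) id (fun a => ⟨0, by simp, hQ.dvd⟩)
    (fun i hi j hj _ => by simp only [Finset.mem_singleton] at hi hj; rw [hi, hj])]
  simp

open Classical in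
theorem rsum_ite {Q : O} (hQ : Q ≠ 0) {f : O → ℂ} (hf : Per Q f) (a : O) :
    rsum Q (fun y => if Q ∣ y - a then f y else 0) = f a := by
  obtain ⟨y, hy, h⟩ := exists_res hQ a
  rw [rsum_eq_sum hQ, Finset.sum_eq_single_of_mem y hy fun z hz hzy => if_neg fun hc => hzy ?_,
    if_pos (dvd_sub_comm.1 h), hf a y h]
  refine res_inj hz hy ?_
  have : z - y = z - a + (a - y) := by ring
  rw [this]; exact dvd_add hc h

theorem rsum_affine {Q a : O} (hQ : Q ≠ 0) (ha : IsCoprime a Q) {f : O → ℂ} (hf : Per Q f) (b : O) :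
    rsum Q (fun y => f (a * y + b)) = rsum Q f := by
  rw [rsum_eq_sum hQ, rsum_eq_of_system hQ hf (res Q) (fun y => a * y + b) (fun c => ?_)
    (fun i hi j hj h => res_inj hi hj ?_)]
  · obtain ⟨u, v, huv⟩ := ha
    obtain ⟨y, hy, h⟩ := exists_res hQ (u * (c - b))
    refine ⟨y, hy, ?_⟩
    have : c - (a * y + b) = a * (u * (c - b) - y) + Q * (v * (c - b)) := by
      linear_combination (b - c) * huv
    rw [this]; exact dvd_add (h.mul_left a) (dvd_mul_right _ _)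
  · have : a * i + b - (a * j + b) = a * (i - j) := by ring
    rw [this] at h
    exact ha.symm.dvd_of_dvd_mul_left h

theorem rsum_shift {Q : O} (hQ : Q ≠ 0) {f : O → ℂ} (hf : Per Q f) (b : O) :
    rsum Q (fun y => f (y + b)) = rsum Q f := by
  simpa using rsum_affine hQ (isCoprime_one_left (x := Q)) hf b

theorem rsum_mul_arg {Q a : O} (hQ : Q ≠ 0) (ha : IsCoprime a Q) {f : O → ℂ} (hf : Per Q f) :
    rsum Q (fun y => f (a * y)) = rsum Q f := by
  simpa using rsum_affine hQ ha hf 0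

theorem rsum_neg_arg {Q : O} (hQ : Q ≠ 0) {f : O → ℂ} (hf : Per Q f) :
    rsum Q (fun y => f (-y)) = rsum Q f := by
  simpa using rsum_affine hQ (isCoprime_one_left (x := Q)).neg_left hf 0

theorem rsum_cj {Q : O} (hQ : Q ≠ 0) {f : O → ℂ} (hf : Per (cj Q) f) :
    rsum Q (fun y => f (cj y)) = rsum (cj Q) f := by
  have hQ' : cj Q ≠ 0 := fun h => hQ (by rw [← cj_cj Q, h, map_zero])
  rw [rsum_eq_sum hQ, rsum_eq_of_system hQ' hf (res Q) cj (fun c => ?_)
    (fun i hi j hj h => res_inj hi hj ?_)]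
  · obtain ⟨y, hy, h⟩ := exists_res hQ (cj c)
    refine ⟨y, hy, ?_⟩
    have := cj_dvd_cj.2 h
    rwa [map_sub, cj_cj] at this
  · rwa [← map_sub, cj_dvd_cj] at h

theorem rsum_tower {Q R : O} (hQ : Q ≠ 0) (hR : R ≠ 0) {f : O → ℂ} (hf : Per (Q * R) f) :
    rsum (Q * R) f = rsum Q fun y => rsum R fun z => f (y + Q * z) := by
  rw [rsum_eq_of_system (mul_ne_zero hQ hR) hf (res Q ×ˢ res R) (fun p => p.1 + Q * p.2),
    Finset.sum_product, rsum_eq_sum hQ]
  · exact Finset.sum_congr rfl fun y _ => (rsum_eq_sum hR fun z => f (y + Q * z)).symm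
  · intro a
    obtain ⟨y, hy, w, hw⟩ := exists_res hQ a
    obtain ⟨z, hz, v, hv⟩ := exists_res hR w
    exact ⟨(y, z), Finset.mem_product.2 ⟨hy, hz⟩, v, by linear_combination hw + Q * hv⟩
  · rintro ⟨y, z⟩ hp ⟨y', z'⟩ hp' ⟨v, hv⟩
    rw [Finset.mem_product] at hp hp'
    dsimp only at hv hp hp'
    have h1 : y = y' := res_inj hp.1 hp'.1 ⟨R * v - z + z', by linear_combination hv⟩
    have h2 : z = z' := res_inj hp.2 hp'.2
      ⟨v, mul_left_cancel₀ hQ (by linear_combination hv - h1)⟩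
    rw [h1, h2]

theorem rsum_lift {Q R : O} (hQ : Q ≠ 0) (hR : R ≠ 0) {f : O → ℂ} (hf : Per Q f) :
    rsum (Q * R) f = nm R * rsum Q f := by
  rw [rsum_tower hQ hR (hf.mono (dvd_mul_right Q R)), ← rsum_mul_left]
  congr 1
  funext y
  rw [← rsum_const hR]
  congr 1
  funext z
  exact hf _ _ ⟨z, by ring⟩

open Classical in
theorem rsum_dvd {d Q : O} (hd : d ≠ 0) (hQ : Q ≠ 0) {f : O → ℂ} (hf : Per (d * Q) f) :
    rsum (d * Q) (fun y => if d ∣ y then f y else 0) = rsum Q fun z => f (d * z) := by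
  have h1 : Per (d * Q) fun y => if d ∣ y then f y else 0 := fun a b hab => by
    have h : d ∣ a - b := (dvd_mul_right d Q).trans hab
    have : d ∣ a ↔ d ∣ b := ⟨fun ha => by simpa using dvd_sub ha h, fun hb => by simpa using dvd_add h hb⟩
    simp only [this, hf a b hab]
  have h2 : Per d fun y => rsum Q fun z => f (y + d * z) := by
    rintro a b ⟨w, hw⟩
    have h3 : Per Q fun z => f (b + d * z) := by
      rintro x x' ⟨v, hv⟩
      exact hf _ _ ⟨v, by linear_combination d * hv⟩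
    show (rsum Q fun z => f (a + d * z)) = rsum Q fun z => f (b + d * z)
    rw [← rsum_shift hQ h3 w]
    congr 1
    funext z
    congr 1
    linear_combination hw
  have h4 := rsum_ite hd h2 0
  simp only [sub_zero, zero_add] at h4
  rw [rsum_tower hd hQ h1, ← h4]
  congr 1
  funext y
  simp only [dvd_add_left (dvd_mul_right d _)]
  split_ifs
  · rfl
  · exact rsum_zero Q

theorem rsum_crt {Q R : O} (hQ : Q ≠ 0) (hR : R ≠ 0) (h : IsCoprime Q R) {f : O → ℂ}
    (hf : Per (Q * R) f) : rsum (Q * R) f = rsum Q fun y => rsum R fun z => f (y * R + z * Q) := by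
  rw [rsum_eq_of_system (mul_ne_zero hQ hR) hf (res Q ×ˢ res R) (fun p => p.1 * R + p.2 * Q),
    Finset.sum_product, rsum_eq_sum hQ]
  · exact Finset.sum_congr rfl fun y _ => (rsum_eq_sum hR fun z => f (y * R + z * Q)).symm
  · intro a
    obtain ⟨u, v, huv⟩ := h
    obtain ⟨y, hy, w, hw⟩ := exists_res hQ (a * v)
    obtain ⟨z, hz, w', hw'⟩ := exists_res hR (a * u)
    exact ⟨(y, z), Finset.mem_product.2 ⟨hy, hz⟩, w + w',
      by linear_combination R * hw + Q * hw' - a * huv⟩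
  · rintro ⟨y, z⟩ hp ⟨y', z'⟩ hp' ⟨v, hv⟩
    rw [Finset.mem_product] at hp hp'
    dsimp only at hv hp hp'
    have h1 : y = y' := res_inj hp.1 hp'.1
      (h.dvd_of_dvd_mul_right ⟨R * v - z + z', by linear_combination hv⟩)
    have h2 : z = z' := res_inj hp.2 hp'.2
      (h.symm.dvd_of_dvd_mul_right ⟨Q * v - y + y', by linear_combination hv⟩)
    rw [h1, h2]

theorem rsum_crt_mul {Q R : O} (hQ : Q ≠ 0) (hR : R ≠ 0) (h : IsCoprime Q R) {f g : O → ℂ}
    (hf : Per Q f) (hg : Per R g) : rsum (Q * R) (fun y => f y * g y) = rsum Q f * rsum R g := by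
  rw [rsum_crt hQ hR h ((hf.mono (dvd_mul_right Q R)).mul (hg.mono (dvd_mul_left R Q))),
    ← rsum_mul_arg hQ h.symm hf, ← rsum_mul_arg hR h hg, ← rsum_mul_right]
  congr 1
  funext y
  rw [← rsum_mul_left]
  congr 1
  funext z
  rw [hf (y * R + z * Q) (R * y) ⟨z, by ring⟩, hg (y * R + z * Q) (Q * z) ⟨y, by ring⟩]

open Classical in
theorem rsum_eQ {Q : O} (hQ : Q ≠ 0) (h : O) :
    rsum Q (fun y => eQ (h * y) Q) = if Q ∣ h then (nm Q : ℂ) else 0 := by
  split_ifs with hh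
  · simp only [eQ_of_dvd (hh.mul_right _)]
    rw [rsum_const hQ, mul_one]
  · rw [← eQ_eq_one_iff hQ] at hh
    push Not at hh
    obtain ⟨b, hb⟩ := hh
    have h1 := rsum_shift hQ (per_eQ h Q) b
    simp only [mul_add, eQ_add] at h1
    rw [rsum_mul_right] at h1
    by_contra h0
    exact hb ((mul_eq_left₀ h0).1 h1)

theorem tsum_eq_rsum {Q : O} (hQ : Q ≠ 0) {f : O → ℂ} (hf : Summable f) :
    ∑' n, f n = rsum Q fun y => ∑' k, f (y + Q * k) := by
  have hb : Function.Bijective fun p : res Q × O => (p.1 : O) + Q * p.2 := by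
    constructor
    · rintro ⟨y, z⟩ ⟨y', z'⟩ hv
      dsimp only at hv
      have h1 : (y : O) = y' := res_inj y.2 y'.2 ⟨z' - z, by linear_combination hv⟩
      have h2 : z = z' := mul_left_cancel₀ hQ (by linear_combination hv - h1)
      rw [Subtype.ext h1, h2]
    · intro a
      obtain ⟨y, hy, w, hw⟩ := exists_res hQ a
      exact ⟨(⟨y, hy⟩, w), by linear_combination -hw⟩
  have h1 := (Equiv.ofBijective _ hb).tsum_eq f
  have h2 := ((Equiv.ofBijective _ hb).summable_iff.2 hf).tsum_prod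
  rw [← h1, rsum_eq_sum hQ, ← Finset.tsum_subtype]
  exact h2

/-! ### Finite Fourier transform -/

theorem per_FT (Q : O) (Ψ : O → ℂ) : Per Q (FT Q Ψ) := by
  intro a b hab
  unfold FT
  congr 1
  funext y
  rw [eQ_congr (y := a * y) (y' := b * y) (by rw [← sub_mul]; exact hab.mul_right y)]

theorem FT_zero (Q : O) (Ψ : O → ℂ) : FT Q Ψ 0 = rsum Q Ψ := by
  simp only [FT, zero_mul, eQ_zero, mul_one]

theorem norm_FT_le {Q : O} (hQ : Q ≠ 0) {Ψ : O → ℂ} {B : ℝ} (h : ∀ y, ‖Ψ y‖ ≤ B) (k : O) :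
    ‖FT Q Ψ k‖ ≤ nm Q * B := by
  exact norm_rsum_le hQ fun y => by rw [norm_mul, norm_eQ, mul_one]; exact h y

theorem FT_FT {Q : O} (hQ : Q ≠ 0) {Ψ : O → ℂ} (h : Per Q Ψ) (n : O) :
    FT Q (FT Q Ψ) n = nm Q * Ψ (-n) := by
  classical
  have h1 : FT Q (FT Q Ψ) n = rsum Q fun k => rsum Q fun y => Ψ y * eQ ((y - -n) * k) Q := by
    unfold FT
    congr 1
    funext k
    rw [← rsum_mul_right]
    congr 1
    funext y
    rw [mul_assoc, ← eQ_add]
    congr 2
    ring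
  rw [h1, rsum_comm hQ hQ, ← rsum_ite hQ (h.comp fun c => nm Q * c) (-n)]
  congr 1
  funext y
  rw [rsum_mul_left, rsum_eQ hQ]
  split_ifs
  · exact mul_comm _ _
  · exact mul_zero _

theorem FT_inv {Q : O} (hQ : Q ≠ 0) {Ψ : O → ℂ} (h : Per Q Ψ) (n : O) :
    Ψ n = (nm Q : ℂ)⁻¹ * rsum Q fun k => FT Q Ψ k * eQ (-(k * n)) Q := by
  have h1 := FT_FT hQ h (-n)
  rw [neg_neg] at h1
  have h2 : (nm Q : ℂ) ≠ 0 := Complex.ofReal_ne_zero.2 (nm_pos hQ).ne'
  rw [eq_inv_mul_iff_mul_eq₀ h2, ← h1]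
  conv_lhs => unfold FT
  congr 1
  funext k
  rw [neg_mul, mul_comm n k]
  rfl

theorem rsb_conj_FT (Q : O) (Ψ : O → ℂ) (k : O) :
    conj (FT Q Ψ k) = FT Q (fun y => conj (Ψ y)) (-k) := by
  unfold FT
  rw [conj_rsum]
  congr 1
  funext y
  rw [map_mul, neg_mul, eQ_neg]

theorem FT_parseval {Q : O} (hQ : Q ≠ 0) {Ψ Φ : O → ℂ} (h : Per Q Ψ) (h' : Per Q Φ) :
    rsum Q (fun k => FT Q Ψ k * conj (FT Q Φ k)) = nm Q * rsum Q fun y => Ψ y * conj (Φ y) := by
  have h2 : (nm Q : ℂ) ≠ 0 := Complex.ofReal_ne_zero.2 (nm_pos hQ).ne'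
  have h1 : (fun k => FT Q Ψ k * conj (FT Q Φ k)) =
      fun k => rsum Q fun y => FT Q Ψ k * eQ (-(k * y)) Q * conj (Φ y) := by
    funext k
    rw [rsb_conj_FT]
    generalize FT Q Ψ k = c
    rw [FT, ← rsum_mul_left]
    congr 1
    funext y
    rw [neg_mul]
    ring
  rw [h1, rsum_comm hQ hQ, ← rsum_mul_left]
  congr 1
  funext y
  rw [rsum_mul_right, ← mul_assoc]
  congr 1
  exact ((eq_inv_mul_iff_mul_eq₀ h2).1 (FT_inv hQ h y)).symm

theorem conj_FT (Q : O) (Ψ : O → ℂ) (k : O) :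
    conj (FT Q Ψ k) = FT Q (fun y => conj (Ψ y)) (-k) := by
  exact rsb_conj_FT Q Ψ k

theorem FT_mul_arg {Q a : O} (hQ : Q ≠ 0) (ha : IsCoprime a Q) {Ψ : O → ℂ} (h : Per Q Ψ) (k : O) :
    FT Q (fun y => Ψ (a * y)) (a * k) = FT Q Ψ k := by
  unfold FT
  rw [← rsum_mul_arg hQ ha (h.mul (per_eQ k Q))]
  congr 1
  funext y
  congr 2
  ring

theorem FT_unit_mul {u : O} (hu : IsUnit u) (Q : O) (Ψ : O → ℂ) (k : O) :
    FT (u * Q) Ψ (u * k) = FT Q Ψ k := by
  unfold FT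
  rw [rsum_assoc (associated_unit_mul_left Q u hu)]
  congr 1
  funext y
  rw [mul_assoc, eQ_mul_cancel hu.ne_zero]

theorem FT_lift {Q R : O} (hQ : Q ≠ 0) (hR : R ≠ 0) {Ψ : O → ℂ} (h : Per Q Ψ) (k : O) :
    FT (Q * R) Ψ (R * k) = nm R * FT Q Ψ k := by
  unfold FT
  rw [← rsum_lift hQ hR (h.mul (per_eQ k Q))]
  congr 1
  funext y
  rw [mul_assoc, mul_comm Q R, eQ_mul_cancel hR]

theorem FT_lift_zero {Q R k : O} (hQ : Q ≠ 0) (hR : R ≠ 0) {Ψ : O → ℂ} (h : Per Q Ψ)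
    (hk : ¬ R ∣ k) : FT (Q * R) Ψ k = 0 := by
  unfold FT
  rw [rsum_tower hQ hR ((h.mono (dvd_mul_right Q R)).mul (per_eQ k (Q * R))), ← rsum_zero Q]
  congr 1
  funext y
  have h1 : (fun z => Ψ (y + Q * z) * eQ (k * (y + Q * z)) (Q * R)) =
      fun z => Ψ y * eQ (k * y) (Q * R) * eQ (k * z) R := by
    funext z
    rw [h (y + Q * z) y ⟨z, by ring⟩, mul_add, eQ_add, mul_left_comm k Q z, eQ_mul_cancel hQ, mul_assoc]
  rw [h1, rsum_mul_left, rsum_eQ hR, if_neg hk, mul_zero]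

theorem FT_crt {Q R : O} (hQ : Q ≠ 0) (hR : R ≠ 0) (h : IsCoprime Q R) {Ψ Φ : O → ℂ}
    (hΨ : Per Q Ψ) (hΦ : Per R Φ) (k : O) :
    FT (Q * R) (fun y => Ψ y * Φ y) k =
      FT Q (fun y => Ψ (R * y)) k * FT R (fun y => Φ (Q * y)) k := by
  unfold FT
  rw [rsum_crt hQ hR h (((hΨ.mono (dvd_mul_right Q R)).mul (hΦ.mono (dvd_mul_left R Q))).mul
    (per_eQ k (Q * R))), ← rsum_mul_right]
  congr 1
  funext y
  rw [← rsum_mul_left]
  congr 1
  funext z
  rw [hΨ (y * R + z * Q) (R * y) ⟨z, by ring⟩, hΦ (y * R + z * Q) (Q * z) ⟨y, by ring⟩,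
    show k * (y * R + z * Q) = k * y * R + k * z * Q by ring, eQ_split hQ hR]
  ring

end Crest.Agent.R17
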