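import Crest.Agent.R17.A.Prim
import Crest.Agent.R17.A.Rsum

/-!
Row 17, block A1: the sextic and cubic residue symbols.
-/

set_option autoImplicit false

namespace Crest.Agent.R17

open scoped ComplexConjugate

/-! ### The sextic symbol -/

theorem sya_sxp_assoc (u : O) {p p' : O} (h : Associated p p') : sxp u p = sxp u p' := by
  classical
  rw [sxp, sxp, nN_assoc h]
  exact Finset.sum_congr rfl fun j _ => if_congr h.dvd_iff_dvd_left rfl rfl

theorem sya_eq_prod (u : O) {n : O} (f : Multiset O) (hf : ∀ p ∈ f, Prime p)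
    (h : Associated f.prod n) : sx u n = (f.map (sxp u)).prod := by
  have hn : n ≠ 0 := by
    rintro rfl
    rw [associated_zero_iff_eq_zero, Multiset.prod_eq_zero_iff] at h
    exact (hf 0 h).ne_zero rfl
  rw [sx, if_neg hn]
  congr 1
  refine Multiset.rel_eq.1 (Multiset.rel_map.2 ?_)
  exact (UniqueFactorizationMonoid.factors_unique UniqueFactorizationMonoid.irreducible_of_factor
    (fun p hp => (hf p hp).irreducible)
    ((UniqueFactorizationMonoid.factors_prod hn).trans h.symm)).mono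
      fun _ _ _ _ h => sya_sxp_assoc u h

theorem sx_prime {p : O} (hp : Prime p) (u : O) : sx u p = sxp u p := by
  rw [sya_eq_prod u {p} (fun q hq => Multiset.mem_singleton.1 hq ▸ hp)
    (by rw [Multiset.prod_singleton]), Multiset.map_singleton, Multiset.prod_singleton]

theorem sya_zt_inj {p : O} (hp : Prime p) (h6 : IsCoprime p 6) {i j : ℕ}
    (h : p ∣ zt ^ i - zt ^ j) : zt ^ i = zt ^ j := by
  have e1 : zt ^ j * zt ^ (5 * j) = 1 := by
    rw [← pow_add, show j + 5 * j = 6 * j by ring, pow_mul, zt_pow_six, one_pow]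
  have e2 : (zt ^ i * zt ^ (5 * j)) ^ 6 = 1 := by
    rw [← pow_add, ← pow_mul, mul_comm, pow_mul, zt_pow_six, one_pow]
  have e3 : p ∣ zt ^ i * zt ^ (5 * j) - 1 := by
    rw [← e1, ← sub_mul]; exact h.mul_right _
  by_cases hx : zt ^ i * zt ^ (5 * j) = 1
  · linear_combination zt ^ j * hx - zt ^ i * e1
  · exfalso
    generalize zt ^ i * zt ^ (5 * j) = x at e2 e3 hx
    have e4 : (x - 1) * (x ^ 5 + x ^ 4 + x ^ 3 + x ^ 2 + x + 1) = 0 := by linear_combination e2
    have e5 := (mul_eq_zero.1 e4).resolve_left (sub_ne_zero.2 hx)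
    have e6 : (6 : O) = (x - 1) * -(x ^ 4 + 2 * x ^ 3 + 3 * x ^ 2 + 4 * x + 5) := by
      linear_combination e5
    exact hp.coprime_iff_not_dvd.1 h6 (e6 ▸ e3.mul_right _)

/-- characterisation at a prime -/
theorem sx_eq_of_dvd {p u : O} (hp : Prime p) (h6 : IsCoprime p 6) {j : ℕ}
    (h : p ∣ u ^ ((nN p - 1) / 6) - zt ^ j) : sx u p = sg zt ^ j := by
  have hj : zt ^ j = zt ^ (j % 6) := pow_eq_pow_mod j zt_pow_six
  have hj6 : j % 6 < 6 := Nat.mod_lt _ (by norm_num)
  rw [sx_prime hp, sxp, Finset.sum_eq_single (j % 6), if_pos (hj ▸ h), ← hj, map_pow]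
  · intro i hi hij
    refine if_neg fun h' => hij (zt_pow_inj (Finset.mem_range.1 hi) hj6 ?_)
    rw [← hj]
    refine sya_zt_inj hp h6 ?_
    have := dvd_sub h h'
    rwa [sub_sub_sub_cancel_left] at this
  · intro h'
    exact absurd (Finset.mem_range.2 hj6) h'

theorem sya_zt_sq : zt ^ 2 = zt - 1 := by
  rw [zt_sq, zt]; ring

theorem sya_factor (a : O) : a ^ 6 - 1 = ∏ j ∈ Finset.range 6, (a - zt ^ j) := by
  have hz := sya_zt_sq
  have h4 : zt ^ 4 = -zt := by rw [pow_succ, zt_cube]; ring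
  have h5 : zt ^ 5 = 1 - zt := by linear_combination zt * h4 - hz
  simp only [Finset.prod_range_succ, Finset.prod_range_zero, h4, h5, zt_cube, hz, pow_zero, pow_one]
  have h1 : (a - zt) * (a + zt) = a ^ 2 - zt + 1 := by linear_combination -hz
  have h2 : (a - (zt - 1)) * (a + (zt - 1)) = a ^ 2 + zt := by linear_combination -hz
  have h3 : (a ^ 2 - zt + 1) * (a ^ 2 + zt) = a ^ 4 + a ^ 2 + 1 := by linear_combination -hz
  calc a ^ 6 - 1 = (a ^ 2 - 1) * (a ^ 4 + a ^ 2 + 1) := by ring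
    _ = (a ^ 2 - 1) * (((a - zt) * (a + zt)) * ((a - (zt - 1)) * (a + (zt - 1)))) := by
      rw [h1, h2, h3]
    _ = _ := by ring

theorem sya_exp {n : O} (h6 : IsCoprime n 6) : (nN n - 1) / 6 * 6 = nN n - 1 := by
  have := nN_mod_six h6
  omega

theorem exists_sx_dvd {p u : O} (hp : Prime p) (h6 : IsCoprime p 6) (hu : ¬ p ∣ u) :
    ∃ j < 6, p ∣ u ^ ((nN p - 1) / 6) - zt ^ j ∧ sx u p = sg zt ^ j := by
  have h := dvd_pow_nN_sub_one hp hu
  rw [← sya_exp h6, pow_mul, sya_factor] at h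
  obtain ⟨j, hj, h⟩ := hp.exists_mem_finset_dvd h
  exact ⟨j, Finset.mem_range.1 hj, h, sx_eq_of_dvd hp h6 h⟩

@[simp] theorem sx_zero_right (u : O) : sx u 0 = 0 := by
  rw [sx, if_pos rfl]

@[simp] theorem sx_one_right (u : O) : sx u 1 = 1 := by
  rw [sya_eq_prod u 0 (by simp) (by rw [Multiset.prod_zero]), Multiset.map_zero, Multiset.prod_zero]

theorem sx_unit_right (u : O) {n : O} (h : IsUnit n) : sx u n = 1 := by
  rw [sya_eq_prod u 0 (by simp) (by rw [Multiset.prod_zero]; exact (associated_one_iff_isUnit.2 h).symm),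
    Multiset.map_zero, Multiset.prod_zero]

theorem sx_assoc (u : O) {n n' : O} (h : Associated n n') : sx u n = sx u n' := by
  by_cases hn : n' = 0
  · subst hn
    rw [(associated_zero_iff_eq_zero n).1 h]
  · rw [sya_eq_prod u _ UniqueFactorizationMonoid.prime_of_factor
      ((UniqueFactorizationMonoid.factors_prod hn).trans h.symm), sx, if_neg hn]

theorem sx_mul_right (u m n : O) : sx u (m * n) = sx u m * sx u n := by
  by_cases hm : m = 0
  · simp [hm]
  by_cases hn : n = 0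
  · simp [hn]
  rw [sya_eq_prod u (UniqueFactorizationMonoid.factors m + UniqueFactorizationMonoid.factors n),
    Multiset.map_add, Multiset.prod_add, sx, sx, if_neg hm, if_neg hn]
  · intro p hp
    rcases Multiset.mem_add.1 hp with h | h <;> exact UniqueFactorizationMonoid.prime_of_factor p h
  · rw [Multiset.prod_add]
    exact (UniqueFactorizationMonoid.factors_prod hm).mul_mul
      (UniqueFactorizationMonoid.factors_prod hn)

theorem sya_iff {p a x y : O} (h : p ∣ x - y) : p ∣ a - x ↔ p ∣ a - y := by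
  constructor
  · intro h'
    have := dvd_add h' h
    rwa [sub_add_sub_cancel] at this
  · intro h'
    have := dvd_sub h' h
    rwa [sub_sub_sub_cancel_right] at this

theorem sya_six {p : O} (hp : Prime p) (h6 : ¬ IsCoprime p 6) (u : O) : sx u p = 0 := by
  classical
  have hz := sya_zt_sq
  have h3 := zt_cube
  have hd : p ∣ 2 * 3 := by
    have := hp.coprime_iff_not_dvd.not.1 h6
    rw [not_not] at this
    rwa [show (2 : O) * 3 = 6 by norm_num]
  rw [sx_prime hp, sxp]
  generalize u ^ ((nN p - 1) / 6) = a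
  have s3 : sg zt ^ 3 = -1 := by rw [← map_pow, h3, map_neg, map_one]
  have s2 : sg zt ^ 2 = sg zt - 1 := by rw [← map_pow, hz, map_sub, map_one]
  simp only [Finset.sum_range_succ, Finset.sum_range_zero, map_pow]
  rcases hp.dvd_or_dvd hd with h | h
  · have e : ∀ j, p ∣ a - zt ^ (j + 3) ↔ p ∣ a - zt ^ j := fun j => sya_iff (by
      rw [show zt ^ (j + 3) - zt ^ j = 2 * -zt ^ j by rw [pow_add, h3]; ring]
      exact h.mul_right _)
    have e3 : p ∣ a - zt ^ 3 ↔ p ∣ a - zt ^ 0 := e 0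
    have e4 : p ∣ a - zt ^ 4 ↔ p ∣ a - zt ^ 1 := e 1
    have e5 : p ∣ a - zt ^ 5 ↔ p ∣ a - zt ^ 2 := e 2
    simp only [e3, e4, e5]
    split_ifs <;> first
      | ring1
      | linear_combination s3
      | linear_combination sg zt * s3
      | linear_combination sg zt ^ 2 * s3
      | linear_combination (1 + sg zt) * s3
      | linear_combination (1 + sg zt ^ 2) * s3
      | linear_combination (sg zt + sg zt ^ 2) * s3
      | linear_combination (1 + sg zt + sg zt ^ 2) * s3
  · have h' : p ∣ zt ^ 2 - 1 := by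
      refine hp.dvd_of_dvd_pow (n := 2) ?_
      rw [show (zt ^ 2 - 1) ^ 2 = 3 * -zt ^ 2 by linear_combination (zt ^ 2 + zt + 1) * hz]
      exact h.mul_right _
    have e : ∀ j, p ∣ a - zt ^ (j + 2) ↔ p ∣ a - zt ^ j := fun j => sya_iff (by
      rw [show zt ^ (j + 2) - zt ^ j = (zt ^ 2 - 1) * zt ^ j by ring]
      exact h'.mul_right _)
    have e2 : p ∣ a - zt ^ 2 ↔ p ∣ a - zt ^ 0 := e 0
    have e3 : p ∣ a - zt ^ 3 ↔ p ∣ a - zt ^ 1 := e 1
    have e4 : p ∣ a - zt ^ 4 ↔ p ∣ a - zt ^ 0 := (e 2).trans e2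
    have e5 : p ∣ a - zt ^ 5 ↔ p ∣ a - zt ^ 1 := (e 3).trans e3
    simp only [e2, e3, e4, e5]
    split_ifs <;> first
      | ring1
      | linear_combination (sg zt ^ 2 + sg zt + 1) * s2
      | linear_combination sg zt * (sg zt ^ 2 + sg zt + 1) * s2
      | linear_combination (1 + sg zt) * (sg zt ^ 2 + sg zt + 1) * s2

theorem sya_exp_pos {p : O} (hp : Prime p) (h6 : IsCoprime p 6) : (nN p - 1) / 6 ≠ 0 := by
  have h1 := nN_mod_six h6
  have h2 : 2 ≤ nN p := by
    have := two_le_nm hp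
    rw [nm] at this
    exact_mod_cast this
  omega

theorem sya_dvd {p u : O} (hp : Prime p) (h : p ∣ u) : sx u p = 0 := by
  by_cases h6 : IsCoprime p 6
  · rw [sx_prime hp, sxp]
    refine Finset.sum_eq_zero fun j _ => if_neg fun h' => hp.not_isUnit ?_
    have := dvd_sub (dvd_pow h (sya_exp_pos hp h6)) h'
    rw [sub_sub_cancel] at this
    exact isUnit_of_dvd_unit this (isUnit_zt.pow j)
  · exact sya_six hp h6 u

theorem sx_mul_left (u v n : O) : sx (u * v) n = sx u n * sx v n := by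
  induction n using UniqueFactorizationMonoid.induction_on_prime with
  | h₁ => simp
  | h₂ n hn => simp [sx_unit_right _ hn]
  | h₃ n p _ hp ih =>
    have key : sx (u * v) p = sx u p * sx v p := by
      by_cases h6 : IsCoprime p 6
      swap
      · simp [sya_six hp h6]
      by_cases hu : p ∣ u
      · rw [sya_dvd hp hu, sya_dvd hp (hu.mul_right v), zero_mul]
      by_cases hv : p ∣ v
      · rw [sya_dvd hp hv, sya_dvd hp (hv.mul_left u), mul_zero]
      obtain ⟨i, -, hi, hi'⟩ := exists_sx_dvd hp h6 hu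
      obtain ⟨j, -, hj, hj'⟩ := exists_sx_dvd hp h6 hv
      rw [hi', hj', ← pow_add]
      refine sx_eq_of_dvd hp h6 ?_
      rw [mul_pow, pow_add]
      generalize u ^ ((nN p - 1) / 6) = a at hi
      generalize v ^ ((nN p - 1) / 6) = b at hj
      rw [show a * b - zt ^ i * zt ^ j = (a - zt ^ i) * b + zt ^ i * (b - zt ^ j) by ring]
      exact dvd_add (hi.mul_right _) (hj.mul_left _)
    rw [sx_mul_right, sx_mul_right, sx_mul_right, ih, key]
    ring

theorem sx_pow_right (u n : O) (k : ℕ) : sx u (n ^ k) = sx u n ^ k := by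
  induction k with
  | zero => simp
  | succ k ih => rw [pow_succ, sx_mul_right, ih, pow_succ]

theorem sx_pow_left (u n : O) {k : ℕ} (hk : k ≠ 0) : sx (u ^ k) n = sx u n ^ k := by
  induction k with
  | zero => exact absurd rfl hk
  | succ k ih =>
    by_cases h : k = 0
    · simp [h]
    · rw [pow_succ, sx_mul_left, ih h, pow_succ]

theorem sya_not_coprime_zero : ¬ IsCoprime (0 : O) 6 := fun h => by
  have := nN_mod_six h
  simp at this

theorem sya_one {n : O} (h : IsCoprime n 6) : sx 1 n = 1 := by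
  induction n using UniqueFactorizationMonoid.induction_on_prime with
  | h₁ => exact absurd h sya_not_coprime_zero
  | h₂ n hn => exact sx_unit_right _ hn
  | h₃ n p _ hp ih =>
    rw [sx_mul_right, ih h.of_mul_left_right,
      sx_eq_of_dvd (j := 0) hp h.of_mul_left_left (by simp), pow_zero, one_mul]

theorem sx_pow_left' (u : O) {n : O} (h : IsCoprime n 6) (k : ℕ) : sx (u ^ k) n = sx u n ^ k := by
  by_cases hk : k = 0
  · rw [hk, pow_zero, pow_zero, sya_one h]
  · exact sx_pow_left u n hk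

theorem sx_prod_right {ι : Type*} (u : O) (s : Finset ι) (f : ι → O) :
    sx u (∏ i ∈ s, f i) = ∏ i ∈ s, sx u (f i) := by
  induction s using Finset.cons_induction with
  | empty => simp
  | cons a s ha ih => rw [Finset.prod_cons, Finset.prod_cons, sx_mul_right, ih]

theorem sx_prod_left {ι : Type*} (s : Finset ι) (f : ι → O) {n : O} (h : IsCoprime n 6) :
    sx (∏ i ∈ s, f i) n = ∏ i ∈ s, sx (f i) n := by
  induction s using Finset.cons_induction with
  | empty => simp [sya_one h]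
  | cons a s ha ih => rw [Finset.prod_cons, Finset.prod_cons, sx_mul_left, ih]

/-- only the residues modulo the prime divisors of `n` matter -/
theorem sx_congr_rad {u v n : O} (h : ∀ p, Prime p → p ∣ n → p ∣ u - v) : sx u n = sx v n := by
  classical
  induction n using UniqueFactorizationMonoid.induction_on_prime with
  | h₁ => simp
  | h₂ n hn => simp [sx_unit_right _ hn]
  | h₃ n p _ hp ih =>
    rw [sx_mul_right, sx_mul_right, ih fun q hq hd => h q hq (hd.mul_left p), sx_prime hp,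
      sx_prime hp, sxp, sxp]
    congr 1
    refine Finset.sum_congr rfl fun j _ => if_congr ?_ rfl rfl
    have := (h p hp (dvd_mul_right p n)).trans (sub_dvd_pow_sub_pow u v ((nN p - 1) / 6))
    rw [dvd_sub_comm, sya_iff this, dvd_sub_comm]

theorem sx_congr {u v n : O} (h : n ∣ u - v) : sx u n = sx v n :=
  sx_congr_rad fun _ _ hp => hp.trans h

theorem per_sx (n : O) : Per n fun y => sx y n := fun _ _ h => sx_congr h

theorem sya_sg_ne : sg zt ≠ 0 := fun h => isUnit_zt.ne_zero (sg_eq_zero.1 h)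

theorem sx_ne_zero {u n : O} : sx u n ≠ 0 ↔ IsCoprime n 6 ∧ IsCoprime u n := by
  induction n using UniqueFactorizationMonoid.induction_on_prime with
  | h₁ => simp [sya_not_coprime_zero]
  | h₂ n hn =>
    rw [sx_unit_right _ hn]
    refine iff_of_true one_ne_zero ⟨?_, ?_⟩
    · exact isCoprime_one_left.of_isCoprime_of_dvd_left hn.dvd
    · exact isCoprime_one_right.of_isCoprime_of_dvd_right hn.dvd
  | h₃ n p _ hp ih =>
    have key : sx u p ≠ 0 ↔ IsCoprime p 6 ∧ IsCoprime u p := by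
      constructor
      · intro h
        refine ⟨by_contra fun h6 => h (sya_six hp h6 u), ?_⟩
        exact (hp.coprime_iff_not_dvd.2 fun hd => h (sya_dvd hp hd)).symm
      · rintro ⟨h6, hu⟩
        obtain ⟨j, -, -, hj⟩ := exists_sx_dvd hp h6 (hp.coprime_iff_not_dvd.1 hu.symm)
        rw [hj]
        exact pow_ne_zero _ sya_sg_ne
    rw [sx_mul_right, mul_ne_zero_iff, ih, key, IsCoprime.mul_left_iff, IsCoprime.mul_right_iff]
    tauto

theorem sx_eq_zero_of_not_coprime {u n : O} (h : ¬ IsCoprime u n) : sx u n = 0 := by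
  exact by_contra fun h' => h (sx_ne_zero.1 h').2

theorem sx_eq_zero_of_not_six {n : O} (h : ¬ IsCoprime n 6) (u : O) : sx u n = 0 := by
  exact by_contra fun h' => h (sx_ne_zero.1 h').1

theorem sya_sg_six : sg zt ^ 6 = 1 := by rw [← map_pow, zt_pow_six, map_one]

theorem sx_eq_pow {u n : O} (h6 : IsCoprime n 6) (h : IsCoprime u n) :
    ∃ j < 6, sx u n = sg zt ^ j := by
  suffices ∃ j, sx u n = sg zt ^ j by
    obtain ⟨j, hj⟩ := this
    exact ⟨j % 6, Nat.mod_lt _ (by norm_num), hj.trans (pow_eq_pow_mod j sya_sg_six)⟩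
  induction n using UniqueFactorizationMonoid.induction_on_prime with
  | h₁ => exact absurd h6 sya_not_coprime_zero
  | h₂ n hn => exact ⟨0, sx_unit_right _ hn⟩
  | h₃ n p _ hp ih =>
    obtain ⟨i, hi⟩ := ih h6.of_mul_left_right h.of_mul_right_right
    obtain ⟨j, -, -, hj⟩ := exists_sx_dvd hp h6.of_mul_left_left
      (hp.coprime_iff_not_dvd.1 h.of_mul_right_left.symm)
    exact ⟨j + i, by rw [sx_mul_right, hi, hj, pow_add]⟩

open Classical in
theorem sx_pow_six (u n : O) :
    sx u n ^ 6 = if IsCoprime n 6 ∧ IsCoprime u n then 1 else 0 := by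
  split_ifs with h
  · obtain ⟨j, -, hj⟩ := sx_eq_pow h.1 h.2
    rw [hj, ← pow_mul, mul_comm, pow_mul, sya_sg_six, one_pow]
  · rw [not_not.1 (sx_ne_zero.not.2 h)]
    norm_num

theorem sx_pow_add_six (u n : O) {j : ℕ} (hj : j ≠ 0) : sx u n ^ (j + 6) = sx u n ^ j := by
  rw [pow_add, sx_pow_six]
  split_ifs with h
  · rw [mul_one]
  · rw [not_not.1 (sx_ne_zero.not.2 h), zero_pow hj, zero_mul]

theorem sx_pow_mod {u n : O} (h6 : IsCoprime n 6) (h : IsCoprime u n) (j : ℕ) :
    sx u n ^ j = sx u n ^ (j % 6) := by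
  exact pow_eq_pow_mod j (by rw [sx_pow_six, if_pos ⟨h6, h⟩])

open Classical in
theorem sx_one_left (n : O) : sx 1 n = if IsCoprime n 6 then 1 else 0 := by
  split_ifs with h
  · exact sya_one h
  · exact sx_eq_zero_of_not_six h 1

theorem sya_norm {u n : O} (h6 : IsCoprime n 6) (h : IsCoprime u n) : ‖sx u n‖ = 1 := by
  obtain ⟨j, -, hj⟩ := sx_eq_pow h6 h
  rw [hj, norm_pow, norm_sg, nm_unit isUnit_zt, Real.sqrt_one, one_pow]

theorem norm_sx_le (u n : O) : ‖sx u n‖ ≤ 1 := by
  by_cases h : sx u n = 0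
  · simp [h]
  · exact (sya_norm (sx_ne_zero.1 h).1 (sx_ne_zero.1 h).2).le

theorem norm_sx {u n : O} (h6 : IsCoprime n 6) (h : IsCoprime u n) : ‖sx u n‖ = 1 := by
  exact sya_norm h6 h

theorem conj_sx (u n : O) : conj (sx u n) = sx u n ^ 5 := by
  by_cases h : sx u n = 0
  · simp [h]
  · obtain ⟨j, -, hj⟩ := sx_eq_pow (sx_ne_zero.1 h).1 (sx_ne_zero.1 h).2
    rw [hj, map_pow, ← sg_cj, cj_zt, map_pow, ← pow_mul, ← pow_mul, mul_comm]

open Classical in
theorem sx_mul_conj (u n : O) :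
    sx u n * conj (sx u n) = if IsCoprime n 6 ∧ IsCoprime u n then 1 else 0 := by
  rw [conj_sx, ← pow_succ', sx_pow_six]

theorem conj_sx_cube (u n : O) : conj (sx u n ^ 3) = sx u n ^ 3 := by
  rw [map_pow, conj_sx, ← pow_mul, show 5 * 3 = 3 + 6 + 6 by norm_num,
    sx_pow_add_six u n (by norm_num), sx_pow_add_six u n (by norm_num)]

theorem sx_cube_eq_or (u n : O) : sx u n ^ 3 = 0 ∨ sx u n ^ 3 = 1 ∨ sx u n ^ 3 = -1 := by
  have h := sx_pow_six u n
  rw [show 6 = 3 * 2 by norm_num, pow_mul] at h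
  split_ifs at h
  · exact Or.inr (sq_eq_one_iff.1 h)
  · exact Or.inl (pow_eq_zero_iff two_ne_zero |>.1 h)

open Classical in
theorem sx_sq_cube (u n : O) :
    sx (u ^ 2) n ^ 3 = if IsCoprime n 6 ∧ IsCoprime u n then 1 else 0 := by
  rw [sx_pow_left u n two_ne_zero, ← pow_mul, sx_pow_six]

theorem sx_prime_eq_zero {p u : O} (hp : Prime p) (h6 : IsCoprime p 6) : sx u p = 0 ↔ p ∣ u := by
  refine ⟨fun h => by_contra fun hu => ?_, sya_dvd hp⟩
  exact sx_ne_zero.2 ⟨h6, (hp.coprime_iff_not_dvd.2 hu).symm⟩ h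

theorem sx_cj (u n : O) : sx (cj u) (cj n) = conj (sx u n) := by
  induction n using UniqueFactorizationMonoid.induction_on_prime with
  | h₁ => simp
  | h₂ n hn => simp [sx_unit_right _ hn, sx_unit_right _ (hn.map cj)]
  | h₃ n p _ hp ih =>
    have key : sx (cj u) (cj p) = conj (sx u p) := by
      by_cases h6 : IsCoprime p 6
      swap
      · rw [sya_six hp h6, sya_six (prime_cj hp), map_zero]
        intro h
        have := h.map cj
        rw [cj_cj, map_ofNat] at this
        exact h6 this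
      have h6' : IsCoprime (cj p) 6 := by
        have := h6.map cj
        rwa [map_ofNat] at this
      by_cases hu : p ∣ u
      · rw [sya_dvd hp hu, sya_dvd (prime_cj hp) (cj_dvd_cj.2 hu), map_zero]
      obtain ⟨j, -, hj, hj'⟩ := exists_sx_dvd hp h6 hu
      have := cj_dvd_cj.2 hj
      rw [map_sub, map_pow, map_pow, cj_zt, ← pow_mul, ← nN_cj p] at this
      rw [sx_eq_of_dvd (prime_cj hp) h6' this, conj_sx, hj', ← pow_mul, mul_comm]
    rw [map_mul, sx_mul_right, sx_mul_right, ih, key, map_mul]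

theorem sx_zt {n : O} (h : IsCoprime n 6) : sx zt n = sg zt ^ ((nN n - 1) / 6) := by
  induction n using UniqueFactorizationMonoid.induction_on_prime with
  | h₁ => exact absurd h sya_not_coprime_zero
  | h₂ n hn => rw [sx_unit_right _ hn, nN_eq_one.2 hn, pow_zero]
  | h₃ n p _ hp ih =>
    have h1 := nN_mod_six h.of_mul_left_left
    have h2 := nN_mod_six h.of_mul_left_right
    rw [sx_mul_right, ih h.of_mul_left_right,
      sx_eq_of_dvd hp h.of_mul_left_left (j := (nN p - 1) / 6) (by simp), nN_mul, ← pow_add]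
    obtain ⟨s, hs⟩ : ∃ s, nN p = 6 * s + 1 := ⟨nN p / 6, by omega⟩
    obtain ⟨t, ht⟩ : ∃ t, nN n = 6 * t + 1 := ⟨nN n / 6, by omega⟩
    have e : (6 * s + 1) * (6 * t + 1) = 6 * (6 * (s * t) + (s + t)) + 1 := by ring
    rw [hs, ht, e]
    simp only [Nat.add_sub_cancel, Nat.mul_div_cancel_left _ (show 0 < 6 by norm_num)]
    rw [pow_add _ (6 * _), pow_mul, sya_sg_six, one_pow, one_mul]

theorem sx_neg_one {n : O} (h : IsCoprime n 6) : sx (-1) n = (-1) ^ ((nN n - 1) / 2) := by
  have h1 := nN_mod_six h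
  have s3 : sg zt ^ 3 = -1 := by rw [← map_pow, zt_cube, map_neg, map_one]
  rw [← zt_cube, sx_pow_left' _ h, sx_zt h, ← pow_mul, mul_comm, pow_mul, s3,
    show (nN n - 1) / 2 = 3 * ((nN n - 1) / 6) by omega, pow_mul]
  norm_num

theorem sx_neg_one_cube (n : O) : sx (-1) n ^ 3 = sx (-1) n := by
  rw [← sx_pow_left _ n (by norm_num)]
  norm_num

theorem conj_sx_neg_one (n : O) : conj (sx (-1) n) = sx (-1) n := by
  rw [← sx_neg_one_cube, conj_sx_cube]

theorem sya_exists_zt {p : O} (hp : Prime p) (h6 : IsCoprime p 6) : ∃ u, sx u p = sg zt := by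
  have : (Ideal.span {p}).IsMaximal := PrincipalIdealRing.isMaximal_of_irreducible hp.irreducible
  let : Field (O ⧸ Ideal.span {p}) := Ideal.Quotient.field _
  have := finite_quot hp.ne_zero
  obtain ⟨g, hg⟩ := IsCyclic.exists_monoid_generator (α := (O ⧸ Ideal.span {p})ˣ)
  have ho := orderOf_eq_card_of_forall_mem_powers hg
  rw [Nat.card_units, card_quot, ← sya_exp h6] at ho
  obtain ⟨k, hk⟩ := hg (isUnit_zt.map (Ideal.Quotient.mk (Ideal.span {p}))).unit
  have hk' : (g : O ⧸ Ideal.span {p}) ^ k = Ideal.Quotient.mk _ zt := by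
    rw [← Units.val_pow_eq_pow_val]
    exact congrArg Units.val hk
  have h1 : g ^ (k * 6) = 1 := Units.ext (by
    rw [Units.val_pow_eq_pow_val, pow_mul, hk', ← map_pow, zt_pow_six, map_one, Units.val_one])
  rw [← orderOf_dvd_iff_pow_eq_one, ho] at h1
  obtain ⟨m, rfl⟩ := Nat.dvd_of_mul_dvd_mul_right (by norm_num) h1
  obtain ⟨u, hu⟩ := Ideal.Quotient.mk_surjective ((g : O ⧸ Ideal.span {p}) ^ m)
  refine ⟨u, (sx_eq_of_dvd hp h6 (j := 1) ?_).trans (pow_one _)⟩
  rw [← Ideal.Quotient.eq_zero_iff_dvd, map_sub, map_pow, hu, ← pow_mul, mul_comm, hk', pow_one,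
    sub_self]

theorem sya_out (p u : O) : p ∣ Quotient.out (Ideal.Quotient.mk (Ideal.span {p}) u) - u := by
  rw [← Ideal.Quotient.eq_zero_iff_dvd, map_sub, Ideal.Quotient.mk_out, sub_self]

/-- the symbol modulo a prime as a character of exact order six -/
theorem exists_sxChar {p : O} (hp : Prime p) (h6 : IsCoprime p 6) :
    ∃ χ : MulChar (O ⧸ Ideal.span {p}) ℂ, orderOf χ = 6 ∧
      ∀ u : O, χ (Ideal.Quotient.mk _ u) = sx u p := by
  have : (Ideal.span {p}).IsMaximal := PrincipalIdealRing.isMaximal_of_irreducible hp.irreducible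
  let : Field (O ⧸ Ideal.span {p}) := Ideal.Quotient.field _
  have key : ∀ u, sx (Quotient.out (Ideal.Quotient.mk (Ideal.span {p}) u)) p = sx u p :=
    fun u => sx_congr (sya_out p u)
  let χ : MulChar (O ⧸ Ideal.span {p}) ℂ :=
    { toFun := fun x => sx (Quotient.out x) p
      map_one' := (key 1).trans (sya_one h6)
      map_mul' := fun x y => by
        obtain ⟨x, rfl⟩ := Ideal.Quotient.mk_surjective x
        obtain ⟨y, rfl⟩ := Ideal.Quotient.mk_surjective y
        rw [← map_mul, key, key, key, sx_mul_left]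
      map_nonunit' := fun x hx => by
        obtain rfl : x = 0 := by simpa using hx
        exact (key 0).trans (sya_dvd hp (dvd_zero p)) }
  have hχ : ∀ u : O, χ (Ideal.Quotient.mk _ u) = sx u p := key
  refine ⟨χ, (orderOf_eq_iff (by norm_num)).2 ⟨MulChar.ext fun a => ?_, fun m hm hm0 h => ?_⟩, hχ⟩
  · obtain ⟨x, hx⟩ := Ideal.Quotient.mk_surjective (a : O ⧸ Ideal.span {p})
    rw [MulChar.pow_apply_coe, MulChar.one_apply_coe, ← hx, hχ, sx_pow_six, if_pos]
    refine ⟨h6, (hp.coprime_iff_not_dvd.2 fun hd => a.ne_zero ?_).symm⟩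
    rw [← hx, Ideal.Quotient.eq_zero_iff_dvd]
    exact hd
  · obtain ⟨u, hu⟩ := sya_exists_zt hp h6
    have h1 : (χ ^ m) (Ideal.Quotient.mk _ u) = sg zt ^ m := by
      rw [MulChar.pow_apply' _ hm0.ne', hχ, hu]
    have h2 : IsUnit (Ideal.Quotient.mk (Ideal.span {p}) u) := by
      rw [isUnit_iff_ne_zero, Ne, Ideal.Quotient.eq_zero_iff_dvd]
      intro hd
      exact sya_sg_ne (hu ▸ sya_dvd hp hd)
    rw [h, MulChar.one_apply h2] at h1
    exact isPrimitiveRoot_sg_zt.pow_ne_one_of_pos_of_lt hm0.ne' hm h1.symm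

theorem exists_sx_eq_zt {p : O} (hp : Prime p) (h6 : IsCoprime p 6) : ∃ u, sx u p = sg zt := by
  exact sya_exists_zt hp h6

theorem rsum_sx_pow {p : O} (hp : Prime p) {j : ℕ} (hj : ¬ 6 ∣ j) :
    rsum p (fun y => sx y p ^ j) = 0 := by
  have hj0 : j ≠ 0 := by
    rintro rfl
    exact hj (dvd_zero 6)
  by_cases h6 : IsCoprime p 6
  swap
  · simp [sya_six hp h6, hj0]
  obtain ⟨u, hu⟩ := exists_sx_eq_zt hp h6
  have h := rsum_mul_arg hp.ne_zero (sx_ne_zero.1 (hu ▸ sya_sg_ne)).2 ((per_sx p).comp (· ^ j))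
  simp only [sx_mul_left, mul_pow, rsum_mul_left, hu] at h
  have h1 : sg zt ^ j ≠ 1 := fun h' => hj ((isPrimitiveRoot_sg_zt.pow_eq_one_iff_dvd j).1 h')
  exact (mul_eq_zero.1 (show (sg zt ^ j - 1) * _ = 0 by linear_combination h)).resolve_left
    (sub_ne_zero.2 h1)

/-- the quadratic symbol counts square roots -/
theorem rsum_sq {p : O} (hp : Prime p) (h6 : IsCoprime p 6) {f : O → ℂ} (hf : Per p f) :
    rsum p (fun y => f (y ^ 2)) = rsum p fun y => (1 + sx y p ^ 3) * f y := by
  classical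
  have : (Ideal.span {p}).IsMaximal := PrincipalIdealRing.isMaximal_of_irreducible hp.irreducible
  let : Field (O ⧸ Ideal.span {p}) := Ideal.Quotient.field _
  have := finite_quot hp.ne_zero
  let : Fintype (O ⧸ Ideal.span {p}) := Fintype.ofFinite _
  have hc : ringChar (O ⧸ Ideal.span {p}) ≠ 2 := fun h => by
    have h2 := (ringChar.spec (O ⧸ Ideal.span {p}) 2).2 (h ▸ dvd_rfl)
    rw [← map_natCast (Ideal.Quotient.mk (Ideal.span {p})), Ideal.Quotient.eq_zero_iff_dvd] at h2
    exact hp.coprime_iff_not_dvd.1 (coprime_six_iff.1 h6).1 (by exact_mod_cast h2)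
  have hcard : Fintype.card (O ⧸ Ideal.span {p}) / 2 = (nN p - 1) / 6 * 3 := by
    have := nN_mod_six h6
    rw [← Nat.card_eq_fintype_card, card_quot]
    omega
  have s3 : sg zt ^ 3 = -1 := by rw [← map_pow, zt_cube, map_neg, map_one]
  have hq : ∀ y, sx y p ^ 3 = (quadraticChar _ (Ideal.Quotient.mk (Ideal.span {p}) y) : ℤ) := by
    intro y
    by_cases hy : p ∣ y
    · rw [sya_dvd hp hy, (Ideal.Quotient.eq_zero_iff_dvd p y).2 hy]
      simp
    obtain ⟨j, -, hj, hj'⟩ := exists_sx_dvd hp h6 hy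
    rw [← Ideal.Quotient.eq_zero_iff_dvd, map_sub, map_pow, sub_eq_zero] at hj
    rw [quadraticChar_eq_pow_of_char_ne_two hc ((Ideal.Quotient.eq_zero_iff_dvd p y).not.2 hy),
      hcard, pow_mul, hj, ← map_pow, ← pow_mul, mul_comm, pow_mul, zt_cube, hj', ← pow_mul,
      mul_comm, pow_mul, s3, map_pow, map_neg, map_one]
    rcases Nat.even_or_odd j with h | h
    · simp [h.neg_one_pow]
    · rw [h.neg_one_pow, h.neg_one_pow, if_neg (Ring.neg_one_ne_one_of_char_ne_two hc)]
      simp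
  have hG : ∀ y, f y = f (Quotient.out (Ideal.Quotient.mk (Ideal.span {p}) y)) :=
    fun y => (hf _ _ (sya_out p y)).symm
  have e1 := rsum_eq_quot (Q := p) fun x => f (Quotient.out (x ^ 2))
  have e2 := rsum_eq_quot (Q := p) fun x =>
    (1 + ((quadraticChar _ x : ℤ) : ℂ)) * f (Quotient.out x)
  simp only [← map_pow, ← hG, ← hq] at e1 e2
  rw [e1, e2, ← Finset.sum_fiberwise' Finset.univ (fun x => x ^ 2) fun x => f (Quotient.out x)]
  refine Finset.sum_congr rfl fun a _ => ?_
  have := quadraticChar_card_sqrts hc a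
  rw [Set.toFinset_ofPred] at this
  rw [Finset.sum_const, nsmul_eq_mul, add_comm]
  congr 1
  have h2 := congrArg (Int.cast : ℤ → ℂ) this
  push_cast at h2
  convert h2

/-! ### The cubic symbol -/

theorem syb_cbp_assoc (u : O) {p p' : O} (h : Associated p p') : cbp u p = cbp u p' := by
  classical
  unfold cbp
  simp only [nN_assoc h, h.dvd_iff_dvd_left]

theorem syb_cb_eq (u : O) {n : O} (s : Multiset O) (hs : ∀ x ∈ s, Irreducible x)
    (h : Associated s.prod n) : cb u n = (s.map (cbp u)).prod := by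
  have hn : n ≠ 0 := h.ne_zero_iff.1 (Multiset.prod_ne_zero fun h0 => (hs 0 h0).ne_zero rfl)
  unfold cb
  rw [if_neg hn]
  have hr := UniqueFactorizationMonoid.factors_unique
    UniqueFactorizationMonoid.irreducible_of_factor hs
    ((UniqueFactorizationMonoid.factors_prod hn).trans h.symm)
  exact congrArg Multiset.prod
    (Multiset.rel_eq.1 (Multiset.rel_map.2 (hr.mono fun a _ b _ hab => syb_cbp_assoc u hab)))

theorem cb_prime {p : O} (hp : Prime p) (u : O) : cb u p = cbp u p := by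
  rw [syb_cb_eq u {p} (fun x hx => Multiset.mem_singleton.1 hx ▸ hp.irreducible)
    (by rw [Multiset.prod_singleton]), Multiset.map_singleton, Multiset.prod_singleton]

theorem syb_root {p : O} (hp : Prime p) (h3 : IsCoprime p 3) {k : ℕ} (h : p ∣ om ^ k - 1) :
    om ^ k = 1 := by
  have h1 : (om ^ k - 1) * ((om ^ k) ^ 2 + om ^ k + 1) = 0 := by
    have : (om ^ k) ^ 3 = 1 := by rw [← pow_mul, mul_comm, pow_mul, om_cube, one_pow]
    linear_combination this
  rcases mul_eq_zero.1 h1 with h2 | h2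
  · exact sub_eq_zero.1 h2
  · refine absurd (h3.isUnit_of_dvd ?_) hp.not_isUnit
    have : (3 : O) = (om ^ k - 1) * -(om ^ k + 2) := by linear_combination h2
    rw [this]
    exact h.mul_right _

theorem syb_inj {p : O} (hp : Prime p) (h3 : IsCoprime p 3) {i j : ℕ} (h : p ∣ om ^ i - om ^ j) :
    om ^ i = om ^ j := by
  have e : om ^ j * om ^ (2 * j) = 1 := by
    rw [← pow_add, show j + 2 * j = 3 * j by ring, pow_mul, om_cube, one_pow]
  have h1 : om ^ (i + 2 * j) = 1 := by
    refine syb_root hp h3 ?_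
    rw [pow_add, ← e, ← sub_mul]
    exact h.mul_right _
  rw [pow_add, ← e] at h1
  exact mul_right_cancel₀ (pow_ne_zero _ isUnit_om.ne_zero) h1

theorem syb_exp_ne {p : O} (hp : Prime p) (h3 : IsCoprime p 3) : (nN p - 1) / 3 ≠ 0 := by
  have h1 := nN_mod_three h3
  have h2 : nN p ≠ 1 := fun h => hp.not_isUnit (nN_eq_one.1 h)
  omega

theorem syb_zero_dvd {p u : O} (hp : Prime p) (h3 : IsCoprime p 3) (hu : p ∣ u) : cb u p = 0 := by
  rw [cb_prime hp]
  unfold cbp
  refine Finset.sum_eq_zero fun j _ => if_neg fun h => hp.not_isUnit ?_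
  exact isUnit_of_dvd_unit ((dvd_sub_right (dvd_pow hu (syb_exp_ne hp h3))).1 h) (isUnit_om.pow j)

theorem syb_zero_lam {p : O} (hp : Prime p) (h3 : ¬ IsCoprime p 3) (u : O) : cb u p = 0 := by
  have h1 : Associated lam p :=
    prime_lam.associated_of_dvd hp (not_not.1 fun h => h3 (coprime_three_iff.2 h))
  have h2 : lam ∣ 1 - om := ⟨om ^ 2, by unfold lam; linear_combination -om_sq - 2 * om_cube⟩
  rw [cb_prime hp, ← syb_cbp_assoc u h1]
  unfold cbp
  rw [Finset.sum_congr rfl fun j _ => if_pos (by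
    rw [nN_lam, show (3 - 1) / 3 = 0 from rfl, pow_zero]
    exact h2.trans (one_sub_dvd_one_sub_pow om j)), ← map_sum]
  simp only [Finset.sum_range_succ, Finset.range_zero, Finset.sum_empty]
  rw [om_sq, ← map_zero sg]
  congr 1
  ring

theorem cb_eq_of_dvd {p u : O} (hp : Prime p) (h3 : IsCoprime p 3) {j : ℕ}
    (h : p ∣ u ^ ((nN p - 1) / 3) - om ^ j) : cb u p = sg om ^ j := by
  have e : om ^ j = om ^ (j % 3) := pow_eq_pow_mod j om_cube
  rw [cb_prime hp, ← map_pow, e]
  unfold cbp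
  rw [Finset.sum_eq_single (j % 3), if_pos (e ▸ h)]
  · refine fun i hi hij => if_neg fun h' => hij ?_
    have h1 : p ∣ om ^ i - om ^ j := by
      have := dvd_sub h h'
      rwa [sub_sub_sub_cancel_left] at this
    have h2 := congrArg sg ((syb_inj hp h3 h1).trans e)
    rw [map_pow, map_pow] at h2
    exact isPrimitiveRoot_sg_om.pow_inj (Finset.mem_range.1 hi) (Nat.mod_lt j (by norm_num)) h2
  · exact fun h' => absurd (Finset.mem_range.2 (Nat.mod_lt j (by norm_num))) h'

theorem exists_cb_dvd {p u : O} (hp : Prime p) (h3 : IsCoprime p 3) (hu : ¬ p ∣ u) :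
    ∃ j < 3, p ∣ u ^ ((nN p - 1) / 3) - om ^ j ∧ cb u p = sg om ^ j := by
  have h1 := dvd_pow_nN_sub_one hp hu
  have h2 := nN_mod_three h3
  obtain ⟨U, hU⟩ : ∃ U, U = u ^ ((nN p - 1) / 3) := ⟨_, rfl⟩
  have h4 : u ^ (nN p - 1) - 1 = (U - om ^ 0) * ((U - om ^ 1) * (U - om ^ 2)) := by
    rw [show nN p - 1 = (nN p - 1) / 3 * 3 by omega, pow_mul, ← hU]
    linear_combination (U ^ 2 - U) * om_sq + (1 - U) * om_cube
  rw [h4, hU] at h1
  rcases hp.dvd_or_dvd h1 with h | h
  · exact ⟨0, by norm_num, h, cb_eq_of_dvd hp h3 h⟩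
  · rcases hp.dvd_or_dvd h with h | h
    · exact ⟨1, by norm_num, h, cb_eq_of_dvd hp h3 h⟩
    · exact ⟨2, by norm_num, h, cb_eq_of_dvd hp h3 h⟩

@[simp] theorem cb_zero_right (u : O) : cb u 0 = 0 := by
  unfold cb
  rw [if_pos rfl]

@[simp] theorem cb_one_right (u : O) : cb u 1 = 1 := by
  rw [syb_cb_eq u 0 (by simp) (by rw [Multiset.prod_zero]), Multiset.map_zero, Multiset.prod_zero]

theorem cb_unit_right (u : O) {n : O} (h : IsUnit n) : cb u n = 1 := by
  rw [syb_cb_eq u 0 (by simp) (associated_one_iff_isUnit.2 h).symm, Multiset.map_zero,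
    Multiset.prod_zero]

theorem cb_assoc (u : O) {n n' : O} (h : Associated n n') : cb u n = cb u n' := by
  by_cases hn : n = 0
  · rw [hn, (associated_zero_iff_eq_zero n').1 (hn ▸ h.symm)]
  · rw [syb_cb_eq u _ UniqueFactorizationMonoid.irreducible_of_factor
      (UniqueFactorizationMonoid.factors_prod hn), syb_cb_eq u _
      UniqueFactorizationMonoid.irreducible_of_factor
      ((UniqueFactorizationMonoid.factors_prod hn).trans h)]

theorem cb_mul_right (u m n : O) : cb u (m * n) = cb u m * cb u n := by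
  by_cases hm : m = 0
  · rw [hm, zero_mul, cb_zero_right, zero_mul]
  by_cases hn : n = 0
  · rw [hn, mul_zero, cb_zero_right, mul_zero]
  have h1 := UniqueFactorizationMonoid.factors_prod hm
  have h2 := UniqueFactorizationMonoid.factors_prod hn
  rw [syb_cb_eq u _ UniqueFactorizationMonoid.irreducible_of_factor h1,
    syb_cb_eq u _ UniqueFactorizationMonoid.irreducible_of_factor h2, ← Multiset.prod_add,
    ← Multiset.map_add]
  refine syb_cb_eq u _ (fun x hx => ?_) ?_
  · exact (Multiset.mem_add.1 hx).elim (UniqueFactorizationMonoid.irreducible_of_factor x)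
      (UniqueFactorizationMonoid.irreducible_of_factor x)
  · rw [Multiset.prod_add]
    exact h1.mul_mul h2

theorem cb_mul_left (u v n : O) : cb (u * v) n = cb u n * cb v n := by
  induction n using UniqueFactorizationMonoid.induction_on_prime with
  | h₁ => simp
  | h₂ x hx => simp [cb_unit_right _ hx]
  | h₃ a p _ hp ih =>
    rw [cb_mul_right, cb_mul_right, cb_mul_right, ih, mul_mul_mul_comm]
    congr 1
    by_cases h3 : IsCoprime p 3
    swap
    · rw [syb_zero_lam hp h3, syb_zero_lam hp h3, zero_mul]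
    by_cases hu : p ∣ u
    · rw [syb_zero_dvd hp h3 hu, syb_zero_dvd hp h3 (hu.mul_right v), zero_mul]
    by_cases hv : p ∣ v
    · rw [syb_zero_dvd hp h3 hv, syb_zero_dvd hp h3 (hv.mul_left u), mul_zero]
    obtain ⟨j, -, a1, a2⟩ := exists_cb_dvd hp h3 hu
    obtain ⟨k, -, b1, b2⟩ := exists_cb_dvd hp h3 hv
    rw [a2, b2, ← pow_add]
    refine cb_eq_of_dvd hp h3 ?_
    have := dvd_add (a1.mul_right (v ^ ((nN p - 1) / 3))) (b1.mul_left (om ^ j))
    convert this using 1
    rw [mul_pow]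
    ring

theorem cb_pow_right (u n : O) (k : ℕ) : cb u (n ^ k) = cb u n ^ k := by
  induction k with
  | zero => rw [pow_zero, pow_zero, cb_one_right]
  | succ k ih => rw [pow_succ, pow_succ, cb_mul_right, ih]

theorem cb_pow_left (u n : O) {k : ℕ} (hk : k ≠ 0) : cb (u ^ k) n = cb u n ^ k := by
  obtain ⟨k, rfl⟩ := Nat.exists_eq_succ_of_ne_zero hk
  clear hk
  induction k with
  | zero => rw [Nat.succ_eq_add_one, zero_add, pow_one, pow_one]
  | succ k ih => rw [pow_succ, pow_succ (cb u n), cb_mul_left, ih]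

theorem syb_cop_unit {n : O} (h : IsUnit n) (m : O) : IsCoprime n m := by
  obtain ⟨v, hv⟩ := h.exists_left_inv
  exact ⟨v, 0, by rw [hv, zero_mul, add_zero]⟩

theorem syb_not_cop : ¬ IsCoprime (0 : O) 3 := fun h => coprime_three_iff.1 h (dvd_zero _)

theorem syb_one {n : O} (h : IsCoprime n 3) : cb 1 n = 1 := by
  induction n using UniqueFactorizationMonoid.induction_on_prime with
  | h₁ => exact absurd h syb_not_cop
  | h₂ x hx => exact cb_unit_right 1 hx
  | h₃ a p _ hp ih =>
    rw [cb_mul_right, ih h.of_mul_left_right, mul_one,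
      cb_eq_of_dvd hp h.of_mul_left_left (j := 0) (by simp), pow_zero]

theorem cb_pow_left' (u : O) {n : O} (h : IsCoprime n 3) (k : ℕ) : cb (u ^ k) n = cb u n ^ k := by
  rcases eq_or_ne k 0 with rfl | hk
  · rw [pow_zero, pow_zero, syb_one h]
  · exact cb_pow_left u n hk

theorem cb_prod_right {ι : Type*} (u : O) (s : Finset ι) (f : ι → O) :
    cb u (∏ i ∈ s, f i) = ∏ i ∈ s, cb u (f i) := by
  exact map_prod (⟨⟨cb u, cb_one_right u⟩, cb_mul_right u⟩ : O →* ℂ) f s

theorem cb_prod_left {ι : Type*} (s : Finset ι) (f : ι → O) {n : O} (h : IsCoprime n 3) :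
    cb (∏ i ∈ s, f i) n = ∏ i ∈ s, cb (f i) n := by
  exact map_prod (⟨⟨fun u => cb u n, syb_one h⟩, fun u v => cb_mul_left u v n⟩ : O →* ℂ) f s

theorem cb_congr_rad {u v n : O} (h : ∀ p, Prime p → p ∣ n → p ∣ u - v) : cb u n = cb v n := by
  classical
  unfold cb
  split_ifs with hn
  · rfl
  refine congrArg Multiset.prod (Multiset.map_congr rfl fun p hp => ?_)
  have h1 := (h p (UniqueFactorizationMonoid.prime_of_factor p hp)
    (UniqueFactorizationMonoid.dvd_of_mem_factors hp)).trans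
    (sub_dvd_pow_sub_pow u v ((nN p - 1) / 3))
  unfold cbp
  refine Finset.sum_congr rfl fun j _ => if_congr ?_ rfl rfl
  rw [← sub_add_sub_cancel _ (v ^ ((nN p - 1) / 3)), dvd_add_right h1]

theorem cb_congr {u v n : O} (h : n ∣ u - v) : cb u n = cb v n :=
  cb_congr_rad fun _ _ hp => hp.trans h

theorem per_cb (n : O) : Per n fun y => cb y n := fun _ _ h => cb_congr h

theorem syb_sg_ne (j : ℕ) : sg om ^ j ≠ 0 := pow_ne_zero _ (mt sg_eq_zero.1 isUnit_om.ne_zero)

theorem syb_prime_ne {p : O} (hp : Prime p) (u : O) :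
    cb u p ≠ 0 ↔ IsCoprime p 3 ∧ IsCoprime u p := by
  rw [isCoprime_comm (x := u), hp.coprime_iff_not_dvd (n := u)]
  refine ⟨fun h => ?_, fun h => ?_⟩
  · have h3 : IsCoprime p 3 := not_not.1 fun h3 => h (syb_zero_lam hp h3 u)
    exact ⟨h3, fun hu => h (syb_zero_dvd hp h3 hu)⟩
  · obtain ⟨j, -, -, hj⟩ := exists_cb_dvd hp h.1 h.2
    rw [hj]
    exact syb_sg_ne j

theorem cb_ne_zero {u n : O} : cb u n ≠ 0 ↔ IsCoprime n 3 ∧ IsCoprime u n := by
  induction n using UniqueFactorizationMonoid.induction_on_prime with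
  | h₁ => exact iff_of_false (by simp) fun h => syb_not_cop h.1
  | h₂ x hx =>
    exact iff_of_true (by simp [cb_unit_right _ hx]) ⟨syb_cop_unit hx _, (syb_cop_unit hx _).symm⟩
  | h₃ a p _ hp ih =>
    rw [cb_mul_right, mul_ne_zero_iff, ih, syb_prime_ne hp, IsCoprime.mul_left_iff,
      IsCoprime.mul_right_iff, and_and_and_comm]

theorem cb_eq_zero_of_not_coprime {u n : O} (h : ¬ IsCoprime u n) : cb u n = 0 := by
  exact not_not.1 fun h' => h (cb_ne_zero.1 h').2

theorem cb_eq_zero_of_not_three {n : O} (h : ¬ IsCoprime n 3) (u : O) : cb u n = 0 := by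
  exact not_not.1 fun h' => h (cb_ne_zero.1 h').1

theorem cb_eq_pow {u n : O} (h3 : IsCoprime n 3) (h : IsCoprime u n) :
    ∃ j < 3, cb u n = sg om ^ j := by
  suffices H : ∃ j, cb u n = sg om ^ j by
    obtain ⟨j, hj⟩ := H
    exact ⟨j % 3, Nat.mod_lt j (by norm_num),
      hj.trans (pow_eq_pow_mod j isPrimitiveRoot_sg_om.pow_eq_one)⟩
  induction n using UniqueFactorizationMonoid.induction_on_prime with
  | h₁ => exact absurd h3 syb_not_cop
  | h₂ x hx => exact ⟨0, by rw [cb_unit_right _ hx, pow_zero]⟩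
  | h₃ a p _ hp ih =>
    obtain ⟨j, hj⟩ := ih h3.of_mul_left_right h.of_mul_right_right
    obtain ⟨k, -, -, hk⟩ := exists_cb_dvd hp h3.of_mul_left_left
      (hp.coprime_iff_not_dvd.1 h.of_mul_right_left.symm)
    exact ⟨k + j, by rw [cb_mul_right, hj, hk, pow_add]⟩

open Classical in
theorem cb_pow_three (u n : O) :
    cb u n ^ 3 = if IsCoprime n 3 ∧ IsCoprime u n then 1 else 0 := by
  split_ifs with h
  · obtain ⟨j, -, hj⟩ := cb_eq_pow h.1 h.2
    rw [hj, ← pow_mul, mul_comm, pow_mul, isPrimitiveRoot_sg_om.pow_eq_one, one_pow]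
  · rw [not_not.1 (mt cb_ne_zero.1 h), zero_pow three_ne_zero]

theorem cb_pow_add_three (u n : O) {j : ℕ} (hj : j ≠ 0) : cb u n ^ (j + 3) = cb u n ^ j := by
  rw [pow_add, cb_pow_three]
  split_ifs with h
  · rw [mul_one]
  · rw [not_not.1 (mt cb_ne_zero.1 h), zero_pow hj, mul_zero]

open Classical in
theorem cb_one_left (n : O) : cb 1 n = if IsCoprime n 3 then 1 else 0 := by
  split_ifs with h
  · exact syb_one h
  · exact cb_eq_zero_of_not_three h 1

theorem cb_neg_left (u n : O) : cb (-u) n = cb u n := by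
  by_cases h : IsCoprime n 3
  · rw [show -u = (-1) ^ 3 * u by ring, cb_mul_left, cb_pow_left _ _ three_ne_zero, cb_pow_three,
      if_pos ⟨h, syb_cop_unit isUnit_one.neg n⟩, one_mul]
  · rw [cb_eq_zero_of_not_three h, cb_eq_zero_of_not_three h]

theorem norm_cb_le (u n : O) : ‖cb u n‖ ≤ 1 := by
  by_cases h : cb u n = 0
  · rw [h, norm_zero]
    exact zero_le_one
  · exact (Complex.norm_eq_one_of_pow_eq_one
      ((cb_pow_three u n).trans (if_pos (cb_ne_zero.1 h))) three_ne_zero).le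

theorem norm_cb {u n : O} (h3 : IsCoprime n 3) (h : IsCoprime u n) : ‖cb u n‖ = 1 := by
  exact Complex.norm_eq_one_of_pow_eq_one ((cb_pow_three u n).trans (if_pos ⟨h3, h⟩)) three_ne_zero

theorem conj_cb (u n : O) : conj (cb u n) = cb u n ^ 2 := by
  by_cases h : cb u n = 0
  · rw [h, map_zero, zero_pow two_ne_zero]
  · obtain ⟨h1, h2⟩ := cb_ne_zero.1 h
    rw [← Complex.inv_eq_conj (norm_cb h1 h2)]
    refine inv_eq_of_mul_eq_one_right ?_
    rw [← pow_succ', cb_pow_three, if_pos ⟨h1, h2⟩]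

open Classical in
theorem cb_mul_conj (u n : O) :
    cb u n * conj (cb u n) = if IsCoprime n 3 ∧ IsCoprime u n then 1 else 0 := by
  rw [conj_cb, ← pow_succ', cb_pow_three]

theorem cb_prime_eq_zero {p u : O} (hp : Prime p) (h3 : IsCoprime p 3) : cb u p = 0 ↔ p ∣ u := by
  refine ⟨fun h => not_not.1 fun hu => ?_, syb_zero_dvd hp h3⟩
  exact cb_ne_zero.2 ⟨h3, (hp.coprime_iff_not_dvd.2 hu).symm⟩ h

theorem syb_cop_cj {a b : O} : IsCoprime (cj a) (cj b) ↔ IsCoprime a b :=
  ⟨fun h => by simpa only [cj_cj] using h.map cj, fun h => h.map cj⟩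

theorem cb_cj (u n : O) : cb (cj u) (cj n) = conj (cb u n) := by
  induction n using UniqueFactorizationMonoid.induction_on_prime with
  | h₁ => simp
  | h₂ x hx => rw [cb_unit_right _ hx, cb_unit_right _ (hx.map cj), map_one]
  | h₃ a p _ hp ih =>
    rw [map_mul, cb_mul_right, cb_mul_right, ih, map_mul]
    congr 1
    have e3 : IsCoprime (cj p) 3 ↔ IsCoprime p 3 := by rw [← syb_cop_cj (a := p), map_ofNat]
    by_cases h : cb u p = 0
    · rw [h, map_zero]
      refine not_not.1 fun h' => ?_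
      rw [← ne_eq, cb_ne_zero, e3, syb_cop_cj, ← cb_ne_zero] at h'
      exact h' h
    · obtain ⟨h1, h2⟩ := cb_ne_zero.1 h
      obtain ⟨j, -, a1, a2⟩ := exists_cb_dvd hp h1 (hp.coprime_iff_not_dvd.1 h2.symm)
      rw [← cj_dvd_cj, map_sub, map_pow, map_pow, cj_om, ← pow_mul, ← nN_cj p] at a1
      rw [cb_eq_of_dvd (prime_cj hp) (e3.2 h1) a1, a2, map_pow, ← sg_cj, cj_om, map_pow, pow_mul]

theorem sx_sq (u : O) {n : O} (h : IsCoprime n 2) : sx u n ^ 2 = cb u n := by
  induction n using UniqueFactorizationMonoid.induction_on_prime with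
  | h₁ => simp
  | h₂ x hx => rw [cb_unit_right _ hx, sx_unit_right _ hx, one_pow]
  | h₃ a p _ hp ih =>
    rw [cb_mul_right, sx_mul_right, mul_pow, ih h.of_mul_left_right]
    congr 1
    by_cases h3 : IsCoprime p 3
    swap
    · rw [syb_zero_lam hp h3, sx_eq_zero_of_not_six (fun h6 => h3 (coprime_six_iff.1 h6).2),
        zero_pow two_ne_zero]
    have h6 := coprime_six_iff.2 ⟨h.of_mul_left_left, h3⟩
    by_cases hu : p ∣ u
    · rw [syb_zero_dvd hp h3 hu, (sx_prime_eq_zero hp h6).2 hu, zero_pow two_ne_zero]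
    obtain ⟨j, -, a1, a2⟩ := exists_sx_dvd hp h6 hu
    have a3 := a1.trans (sub_dvd_pow_sub_pow _ _ 2)
    have a4 := nN_mod_six h6
    rw [← pow_mul, ← pow_mul, mul_comm j, pow_mul zt, zt_sq,
      show (nN p - 1) / 6 * 2 = (nN p - 1) / 3 by omega] at a3
    rw [cb_eq_of_dvd hp h3 a3, a2, ← pow_mul, mul_comm j, pow_mul, ← map_pow, zt_sq]

/-- `χ = χ³ · conj χ²` -/
theorem sx_eq_mul (u : O) {n : O} (h : IsCoprime n 2) : sx u n = sx u n ^ 3 * cb u n ^ 2 := by
  rw [← sx_sq u h, ← pow_mul, ← pow_add, show 3 + 2 * 2 = 1 + 6 from rfl,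
    sx_pow_add_six u n one_ne_zero, pow_one]

theorem cb_om_eq {n : O} (h : IsCoprime n 3) : cb om n = sg om ^ ((nN n - 1) / 3) := by
  induction n using UniqueFactorizationMonoid.induction_on_prime with
  | h₁ => exact absurd h syb_not_cop
  | h₂ x hx => rw [cb_unit_right _ hx, nN_eq_one.2 hx, pow_zero]
  | h₃ a p _ hp ih =>
    have h1 := nN_mod_three h.of_mul_left_left
    have h2 := nN_mod_three h.of_mul_left_right
    rw [cb_mul_right, ih h.of_mul_left_right,
      cb_eq_of_dvd hp h.of_mul_left_left (j := (nN p - 1) / 3) (by simp), nN_mul]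
    obtain ⟨s, hs⟩ : ∃ s, nN p = 3 * s + 1 := ⟨nN p / 3, by omega⟩
    obtain ⟨t, ht⟩ : ∃ t, nN a = 3 * t + 1 := ⟨nN a / 3, by omega⟩
    rw [hs, ht, show (3 * s + 1) * (3 * t + 1) = 3 * (3 * (s * t) + s + t) + 1 by ring]
    simp only [Nat.add_sub_cancel, Nat.mul_div_cancel_left _ (show 0 < 3 by norm_num)]
    rw [pow_add, pow_add, pow_mul, isPrimitiveRoot_sg_om.pow_eq_one, one_pow, one_mul]

theorem syb_exists_ne {p : O} (hp : Prime p) (h3 : IsCoprime p 3) :
    ∃ u, ¬ p ∣ u ∧ ¬ p ∣ u ^ ((nN p - 1) / 3) - 1 := by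
  by_contra hc
  push Not at hc
  have : (Ideal.span {p}).IsMaximal := PrincipalIdealRing.isMaximal_of_irreducible hp.irreducible
  let _ : Field (O ⧸ Ideal.span {p}) := Ideal.Quotient.field _
  have := finite_quot hp.ne_zero
  let _ := Fintype.ofFinite (O ⧸ Ideal.span {p})
  have h1 := (FiniteField.forall_pow_eq_one_iff (O ⧸ Ideal.span {p}) ((nN p - 1) / 3)).1 fun x => by
    obtain ⟨u, hu⟩ := Ideal.Quotient.mk_surjective (x : O ⧸ Ideal.span {p})
    have h2 : ¬ p ∣ u := fun h => x.ne_zero (by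
      rw [← hu]; exact Ideal.Quotient.eq_zero_iff_mem.2 (Ideal.mem_span_singleton.2 h))
    refine Units.ext ?_
    rw [Units.val_pow_eq_pow_val, ← hu, ← map_pow]
    exact Ideal.Quotient.eq.2 (Ideal.mem_span_singleton.2 (hc u h2))
  rw [← Nat.card_eq_fintype_card, card_quot] at h1
  have h4 := syb_exp_ne hp h3
  have := Nat.le_of_dvd (Nat.pos_of_ne_zero h4) h1
  omega

theorem syb_exists_om {p : O} (hp : Prime p) (h3 : IsCoprime p 3) : ∃ u, cb u p = sg om := by
  obtain ⟨u, h1, h2⟩ := syb_exists_ne hp h3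
  obtain ⟨j, hj, h4, h5⟩ := exists_cb_dvd hp h3 h1
  interval_cases j
  · exact absurd h4 (by rwa [pow_zero])
  · exact ⟨u, by rw [h5, pow_one]⟩
  · refine ⟨u ^ 2, ?_⟩
    rw [cb_pow_left u p two_ne_zero, h5, ← pow_mul, show 2 * 2 = 3 + 1 from rfl, pow_succ,
      isPrimitiveRoot_sg_om.pow_eq_one, one_mul]

/-- the cubic symbol modulo a prime as a character with values in `O` -/
theorem exists_cbChar {p : O} (hp : Prime p) (h3 : IsCoprime p 3) :
    ∃ χ : MulChar (O ⧸ Ideal.span {p}) O, orderOf χ = 3 ∧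
      (∀ u : O, sg (χ (Ideal.Quotient.mk _ u)) = cb u p) ∧
      ∀ u : O, p ∣ u ^ ((nN p - 1) / 3) - χ (Ideal.Quotient.mk _ u) := by
  classical
  let f : O ⧸ Ideal.span {p} → O := fun x =>
    ∑ j ∈ Finset.range 3, if p ∣ (Quotient.out x : O) ^ ((nN p - 1) / 3) - om ^ j then om ^ j else 0
  have key : ∀ u : O, sg (f (Ideal.Quotient.mk _ u)) = cb u p := fun u => by
    rw [← cb_congr (Ideal.mem_span_singleton.1 (Ideal.Quotient.eq.1
      (Ideal.Quotient.mk_out (Ideal.Quotient.mk (Ideal.span {p}) u)))), cb_prime hp]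
    simp only [f, cbp, map_sum, apply_ite sg, map_zero]
  let χ : MulChar (O ⧸ Ideal.span {p}) O :=
    { toFun := f
      map_one' := sg_injective (by rw [← map_one (Ideal.Quotient.mk _), key, syb_one h3, map_one])
      map_mul' := fun x y => sg_injective (by
        obtain ⟨u, rfl⟩ := Ideal.Quotient.mk_surjective x
        obtain ⟨v, rfl⟩ := Ideal.Quotient.mk_surjective y
        rw [← map_mul, map_mul sg, key, key, key, cb_mul_left])
      map_nonunit' := fun x hx => by
        obtain ⟨u, rfl⟩ := Ideal.Quotient.mk_surjective x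
        refine sg_eq_zero.1 ((key u).trans (cb_eq_zero_of_not_coprime fun h => hx ?_))
        have := h.map (Ideal.Quotient.mk (Ideal.span {p}))
        rwa [Ideal.Quotient.eq_zero_iff_mem.2 (Ideal.mem_span_singleton_self p),
          isCoprime_zero_right] at this }
  have key' : ∀ u : O, sg (χ (Ideal.Quotient.mk _ u)) = cb u p := key
  refine ⟨χ, ?_, key', fun u => ?_⟩
  · have : Fact (Nat.Prime 3) := ⟨Nat.prime_three⟩
    refine orderOf_eq_prime (MulChar.ext fun x => ?_) fun h => ?_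
    · obtain ⟨u, hu⟩ := Ideal.Quotient.mk_surjective (x : O ⧸ Ideal.span {p})
      have h1 : sg (χ x) ≠ 0 := mt sg_eq_zero.1 (x.isUnit.map χ).ne_zero
      rw [MulChar.pow_apply_coe, MulChar.one_apply_coe]
      refine sg_injective ?_
      rw [← hu, key'] at h1
      rw [map_pow, ← hu, key', cb_pow_three, if_pos (cb_ne_zero.1 h1), map_one]
    · obtain ⟨u, hu⟩ := syb_exists_om hp h3
      have h1 : χ (Ideal.Quotient.mk _ u) = om := sg_injective ((key' u).trans hu)
      have h2 : IsUnit (Ideal.Quotient.mk (Ideal.span {p}) u) := not_not.1 fun h2 =>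
        isUnit_om.ne_zero (h1.symm.trans (χ.map_nonunit h2))
      rw [h, MulChar.one_apply h2] at h1
      exact isPrimitiveRoot_sg_om.ne_one (by norm_num) (by rw [← h1, map_one])
  · by_cases hu : p ∣ u
    · rw [sg_eq_zero.1 ((key' u).trans (syb_zero_dvd hp h3 hu)), sub_zero]
      exact dvd_pow hu (syb_exp_ne hp h3)
    · obtain ⟨j, -, a1, a2⟩ := exists_cb_dvd hp h3 hu
      rwa [sg_injective ((key' u).trans (a2.trans (map_pow sg om j).symm))]

theorem exists_cb_eq_om {p : O} (hp : Prime p) (h3 : IsCoprime p 3) : ∃ u, cb u p = sg om := by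
  exact syb_exists_om hp h3

theorem rsum_cb_pow {p : O} (hp : Prime p) {j : ℕ} (hj : ¬ 3 ∣ j) :
    rsum p (fun y => cb y p ^ j) = 0 := by
  have hj0 : j ≠ 0 := fun h => hj (h ▸ dvd_zero 3)
  by_cases h3 : IsCoprime p 3
  swap
  · simp only [cb_eq_zero_of_not_three h3, zero_pow hj0, rsum_zero]
  obtain ⟨u, hu⟩ := exists_cb_eq_om hp h3
  have h1 : IsCoprime u p := (cb_ne_zero.1 (by rw [hu, ← pow_one (sg om)]; exact syb_sg_ne 1)).2
  have h2 := rsum_mul_arg hp.ne_zero h1 ((per_cb p).comp fun z => z ^ j)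
  simp only [cb_mul_left, mul_pow, hu] at h2
  rw [rsum_mul_left] at h2
  by_contra h0
  exact hj ((isPrimitiveRoot_sg_om.pow_eq_one_iff_dvd j).1 ((mul_eq_right₀ h0).1 h2))

end Crest.Agent.R17
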