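import Crest.Agent.R17.A.Poisson
import Crest.Agent.R17.A.Sym

/-!
Row 17, block A3: quadratic Gauss sums, `gam`, `eps`, quadratic reciprocity.
-/

set_option autoImplicit false

namespace Crest.Agent.R17

open scoped ComplexConjugate

theorem gaa_eC_sub (x y : ℂ) : ‖eC x - eC y‖ ≤ 16 * ‖x - y‖ := by
  have h1 : eC x - eC y = eC y * (eC (x - y) - 1) := by
    rw [mul_sub, ← eC_add, add_sub_cancel, mul_one]
  rw [h1, norm_mul, norm_eC, one_mul]
  have h2 : eC (x - y) =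
      Complex.exp (Complex.I * ((2 * Real.pi * (2 * (x - y).im / Real.sqrt 3) : ℝ) : ℂ)) := by
    rw [eC]; congr 1; push_cast; ring
  rw [h2]
  refine Real.norm_exp_I_mul_ofReal_sub_one_le.trans ?_
  have h3 : 1 ≤ Real.sqrt 3 := Real.one_le_sqrt.2 (by norm_num)
  have h4 := Complex.abs_im_le_norm (x - y)
  have h5 := Real.pi_le_four
  have h6 := Real.pi_pos
  rw [Real.norm_eq_abs, abs_mul, abs_div, abs_mul, abs_mul, abs_two, abs_of_pos h6,
    abs_of_pos (by linarith : 0 < Real.sqrt 3)]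
  have h7 : 2 * |(x - y).im| / Real.sqrt 3 ≤ 2 * ‖x - y‖ :=
    (div_le_self (by positivity) h3).trans (by linarith)
  calc 2 * Real.pi * (2 * |(x - y).im| / Real.sqrt 3) ≤ (2 * 4) * (2 * ‖x - y‖) :=
        mul_le_mul (by linarith) h7 (by positivity) (by norm_num)
    _ = 16 * ‖x - y‖ := by ring

theorem gaa_nm_gw {K : ℝ} (hK : 0 < K) (h : O) : gw K h * nm h ≤ 2 * K * gw (2 * K) h := by
  have h3 : 0 < Real.sqrt 3 := Real.sqrt_pos.2 (by norm_num)
  have h4 : Real.sqrt 3 ≤ 2 := Real.sqrt_le_iff.2 (by norm_num)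
  have h5 := Real.pi_gt_three
  have hn := nm_nonneg h
  set u : ℝ := 2 * Real.pi * nm h / (Real.sqrt 3 * (2 * K)) with hu
  have e1 : gw K h = Real.exp (-u) * Real.exp (-u) := by
    rw [gw, ← Real.exp_add, hu]; congr 1; field_simp; ring
  have e2 : gw (2 * K) h = Real.exp (-u) := rfl
  have h6 : nm h ≤ 2 * K * u := by
    have : 2 * K * u = (2 * Real.pi / Real.sqrt 3) * nm h := by rw [hu]; field_simp
    rw [this]
    refine le_mul_of_one_le_left hn ?_
    rw [le_div_iff₀ h3]; linarith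
  have h7 : Real.exp (-u) * u ≤ 1 := by
    have := Real.add_one_le_exp u
    rw [Real.exp_neg, inv_mul_le_iff₀ (Real.exp_pos u)]; linarith
  have h8 := (Real.exp_pos (-u)).le
  rw [e1, e2]
  calc Real.exp (-u) * Real.exp (-u) * nm h ≤ Real.exp (-u) * Real.exp (-u) * (2 * K * u) :=
        mul_le_mul_of_nonneg_left h6 (by positivity)
    _ = 2 * K * Real.exp (-u) * (Real.exp (-u) * u) := by ring
    _ ≤ 2 * K * Real.exp (-u) := mul_le_of_le_one_right (by positivity) h7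

theorem gaa_summable {K : ℝ} (hK : 0 < K) (z : O → ℂ) :
    Summable fun h : O => eC (z h) * gw K h := by
  refine Summable.of_norm_bounded (summable_gw hK) fun h => ?_
  rw [norm_mul, norm_eC, one_mul, Complex.norm_real, Real.norm_of_nonneg (gw_pos K h).le]

theorem gaa_err (ν ν' : ℂ) {K : ℝ} (hK : 0 < K) :
    ‖∑' h : O, eC (-(ν * sg h ^ 2)) * gw K h - ∑' h : O, eC (-(ν' * sg h ^ 2)) * gw K h‖ ≤
      16 * ‖ν - ν'‖ * (2 * K * (1 + 22 * K)) := by
  rw [← (gaa_summable hK _).tsum_sub (gaa_summable hK _)]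
  have h2K : 0 < 2 * K := by positivity
  refine (tsum_of_norm_bounded
    ((summable_gw h2K).hasSum.mul_left (16 * ‖ν - ν'‖ * (2 * K))) fun h => ?_).trans ?_
  · rw [← sub_mul, norm_mul, Complex.norm_real, Real.norm_of_nonneg (gw_pos K h).le]
    have h1 := gaa_eC_sub (-(ν * sg h ^ 2)) (-(ν' * sg h ^ 2))
    have h2 : -(ν * sg h ^ 2) - -(ν' * sg h ^ 2) = -((ν - ν') * sg h ^ 2) := by ring
    rw [h2, norm_neg, norm_mul, norm_pow, ← nm_eq] at h1
    calc _ ≤ 16 * (‖ν - ν'‖ * nm h) * gw K h := mul_le_mul_of_nonneg_right h1 (gw_pos K h).le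
      _ = 16 * ‖ν - ν'‖ * (gw K h * nm h) := by ring
      _ ≤ 16 * ‖ν - ν'‖ * (2 * K * gw (2 * K) h) :=
          mul_le_mul_of_nonneg_left (gaa_nm_gw hK h) (by positivity)
      _ = _ := by ring
  · have := tsum_gw_le h2K
    calc _ ≤ 16 * ‖ν - ν'‖ * (2 * K) * (1 + 11 * (2 * K)) :=
          mul_le_mul_of_nonneg_left this (by positivity)
      _ = _ := by ring

theorem gaa_poisson (μ : ℂ) {K : ℝ} (hK : 0 < K) :
    ∑' k : O, eC (μ * sg k ^ 2) * gw K k =
      ((Real.sqrt (K⁻¹ ^ 2 + 4 * ‖μ‖ ^ 2) : ℂ))⁻¹ * ∑' h : O,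
        eC (-(conj μ / ((K⁻¹ ^ 2 + 4 * ‖μ‖ ^ 2 : ℝ) : ℂ) * sg h ^ 2)) *
          gw ((K⁻¹ ^ 2 + 4 * ‖μ‖ ^ 2) * K) h := by
  have h3 : 0 < Real.sqrt 3 := Real.sqrt_pos.2 (by norm_num)
  have hD : 0 < K⁻¹ ^ 2 + 4 * ‖μ‖ ^ 2 := by positivity
  have := poisson_gen (inv_pos.2 hK) μ 0
  simp only [add_zero, mul_zero, eC_zero, one_mul] at this
  refine Eq.trans (tsum_congr fun k => ?_) (this.trans (congrArg _ (tsum_congr fun h => ?_)))
  · rw [mul_comm, gw, ← nm_eq]
    congr 4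
    field_simp
  · rw [mul_comm, gw, div_mul_eq_mul_div (conj μ)]
    congr 4
    generalize K⁻¹ ^ 2 + 4 * ‖μ‖ ^ 2 = D at hD
    field_simp

open Filter Topology in
theorem gaa_limit {μ L : ℂ} (hμ : μ ≠ 0)
    (h : Tendsto (fun K : ℝ => (K : ℂ)⁻¹ * ∑' h : O,
      eC (-(conj μ * sg h ^ 2 / ((4 * ‖μ‖ ^ 2 : ℝ) : ℂ))) * gw K h) atTop (𝓝 L)) :
    Tendsto (fun K : ℝ => (K : ℂ)⁻¹ * ∑' k : O, eC (μ * sg k ^ 2) * gw K k) atTop
      (𝓝 (((2 * ‖μ‖ : ℝ) : ℂ) * L)) := by
  have hm : 0 < ‖μ‖ := norm_pos_iff.2 hμ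
  set D₀ : ℝ := 4 * ‖μ‖ ^ 2 with hD₀
  have hD0 : 0 < D₀ := by positivity
  let D : ℝ → ℝ := fun K => K⁻¹ ^ 2 + D₀
  have hDpos : ∀ K, 0 < D K := fun K => by positivity
  have hD : Tendsto D atTop (𝓝 D₀) := by
    have := (tendsto_inv_atTop_zero (𝕜 := ℝ)).pow 2
    simpa [D] using this.add_const D₀
  have hK' : Tendsto (fun K => D K * K) atTop atTop := hD.pos_mul_atTop hD0 tendsto_id
  have hs : Tendsto (fun K => ((Real.sqrt (D K) : ℝ) : ℂ)) atTop (𝓝 ((2 * ‖μ‖ : ℝ) : ℂ)) := by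
    have h1 : Real.sqrt D₀ = 2 * ‖μ‖ := by
      rw [hD₀, show 4 * ‖μ‖ ^ 2 = (2 * ‖μ‖) ^ 2 by ring, Real.sqrt_sq (by positivity)]
    rw [← h1]
    exact (Complex.continuous_ofReal.tendsto _).comp hD.sqrt
  let S : ℂ → ℝ → ℂ := fun ν K => ∑' h : O, eC (-(ν * sg h ^ 2)) * gw K h
  have h' : Tendsto (fun K : ℝ => (K : ℂ)⁻¹ * S (conj μ / (D₀ : ℂ)) K) atTop (𝓝 L) := by
    simpa only [S, div_mul_eq_mul_div] using h
  have hE : Tendsto (fun K : ℝ => ((D K * K : ℝ) : ℂ)⁻¹ *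
      (S (conj μ / (D K : ℂ)) (D K * K) - S (conj μ / (D₀ : ℂ)) (D K * K))) atTop (𝓝 0) := by
    refine squeeze_zero_norm' (a := fun K : ℝ => (32 * ‖μ‖ / D₀ ^ 2 * (1 + 22 * (1 + D₀))) * K⁻¹)
      ?_ ?_
    · filter_upwards [eventually_ge_atTop (1 : ℝ)] with K hK
      have hK0 : 0 < K := by linarith
      have hDK := hDpos K
      have h1 := gaa_err (conj μ / (D K : ℂ)) (conj μ / (D₀ : ℂ)) (mul_pos hDK hK0)
      have hi : K⁻¹ ≤ 1 := inv_le_one_of_one_le₀ hK
      have hi0 : 0 < K⁻¹ := inv_pos.2 hK0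
      have h2 : ‖conj μ / (D K : ℂ) - conj μ / (D₀ : ℂ)‖ ≤ ‖μ‖ / D₀ ^ 2 * K⁻¹ ^ 2 := by
        have e : conj μ / (D K : ℂ) - conj μ / (D₀ : ℂ) =
            conj μ * ((-(K⁻¹ ^ 2 / (D K * D₀)) : ℝ) : ℂ) := by
          have a1 : (D K : ℂ) ≠ 0 := Complex.ofReal_ne_zero.2 hDK.ne'
          have a2 : (D₀ : ℂ) ≠ 0 := Complex.ofReal_ne_zero.2 hD0.ne'
          have a3 : ((K⁻¹ ^ 2 : ℝ) : ℂ) = D K - D₀ := by simp [D]
          rw [Complex.ofReal_neg, Complex.ofReal_div, a3, Complex.ofReal_mul (D K) D₀]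
          generalize (D K : ℂ) = x at a1
          generalize (D₀ : ℂ) = y at a2
          field_simp
          ring
        rw [e, norm_mul, Complex.norm_conj, Complex.norm_real, norm_neg,
          Real.norm_of_nonneg (by positivity)]
        have a4 : D₀ ≤ D K := le_add_of_nonneg_left (by positivity)
        have a5 : K⁻¹ ^ 2 / (D K * D₀) ≤ K⁻¹ ^ 2 / D₀ ^ 2 :=
          div_le_div_of_nonneg_left (by positivity) (by positivity) (by nlinarith)
        calc _ ≤ ‖μ‖ * (K⁻¹ ^ 2 / D₀ ^ 2) := mul_le_mul_of_nonneg_left a5 hm.le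
          _ = _ := by ring
      have h3 : D K ≤ 1 + D₀ := add_le_add_left (pow_le_one₀ hi0.le hi) _
      have h4 : K⁻¹ * (1 + 22 * (D K * K)) ≤ 1 + 22 * (1 + D₀) := by
        have : K⁻¹ * (1 + 22 * (D K * K)) = K⁻¹ + 22 * D K := by field_simp
        rw [this]; linarith
      rw [norm_mul, norm_inv, Complex.norm_real, Real.norm_of_nonneg (mul_pos hDK hK0).le,
        inv_mul_le_iff₀ (mul_pos hDK hK0)]
      refine h1.trans ?_
      calc 16 * ‖conj μ / (D K : ℂ) - conj μ / (D₀ : ℂ)‖ * (2 * (D K * K) * (1 + 22 * (D K * K)))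
          ≤ 16 * (‖μ‖ / D₀ ^ 2 * K⁻¹ ^ 2) * (2 * (D K * K) * (1 + 22 * (D K * K))) := by
            gcongr
        _ = D K * K * (32 * ‖μ‖ / D₀ ^ 2 * (K⁻¹ * (1 + 22 * (D K * K))) * K⁻¹) := by ring
        _ ≤ _ := by gcongr
    · simpa using (tendsto_inv_atTop_zero (𝕜 := ℝ)).const_mul
        (32 * ‖μ‖ / D₀ ^ 2 * (1 + 22 * (1 + D₀)))
  have hfin := hs.mul ((h'.comp hK').add hE)
  rw [add_zero] at hfin
  refine hfin.congr' ?_
  filter_upwards [eventually_gt_atTop (0 : ℝ)] with K hK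
  rw [gaa_poisson μ hK]
  have a1 : ((Real.sqrt (D K) : ℝ) : ℂ) ≠ 0 :=
    Complex.ofReal_ne_zero.2 (Real.sqrt_pos.2 (hDpos K)).ne'
  have a2 : (K : ℂ) ≠ 0 := Complex.ofReal_ne_zero.2 hK.ne'
  have a3 : ((D K * K : ℝ) : ℂ) = ((Real.sqrt (D K) : ℝ) : ℂ) ^ 2 * K := by
    rw [← Complex.ofReal_pow, Real.sq_sqrt (hDpos K).le, Complex.ofReal_mul]
  change _ = (K : ℂ)⁻¹ * (((Real.sqrt (D K) : ℝ) : ℂ)⁻¹ * S (conj μ / (D K : ℂ)) (D K * K))
  simp only [Function.comp_apply]
  rw [a3]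
  field_simp
  ring

/-- Landsberg–Schaar reciprocity over `O` -/
theorem landsberg {a c : O} (ha : a ≠ 0) (hc : c ≠ 0) :
    rsum c (fun y => eQ (a * y ^ 2) c) / (Real.sqrt (nm c) : ℂ) =
      rsum (4 * a) (fun h => eQ (-(c * h ^ 2)) (4 * a)) / (8 * (Real.sqrt (nm a) : ℂ)) := by
  have ha' : sg a ≠ 0 := fun h => ha (sg_eq_zero.1 h)
  have hc' : sg c ≠ 0 := fun h => hc (sg_eq_zero.1 h)
  have h4 : (4 : O) * a ≠ 0 := mul_ne_zero (by norm_num) ha
  set μ : ℂ := sg a / sg c with hμ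
  have hμ0 : μ ≠ 0 := div_ne_zero ha' hc'
  have hP1 : Per c fun y => eQ (a * y ^ 2) c := fun x y h =>
    eQ_congr (by
      have : a * x ^ 2 - a * y ^ 2 = (x - y) * (a * (x + y)) := by ring
      rw [this]; exact h.mul_right _)
  have hP2 : Per (4 * a) fun h => eQ (-(c * h ^ 2)) (4 * a) := fun x y h =>
    eQ_congr (by
      have : -(c * x ^ 2) - -(c * y ^ 2) = (x - y) * (-(c * (x + y))) := by ring
      rw [this]; exact h.mul_right _)
  have e1 : ∀ y, eQ (a * y ^ 2) c = eC (μ * sg y ^ 2) := by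
    intro y
    rw [eQ, map_mul, map_pow, hμ]
    congr 1
    ring
  have e2 : ∀ h, eQ (-(c * h ^ 2)) (4 * a) =
      eC (-(conj μ * sg h ^ 2 / ((4 * ‖μ‖ ^ 2 : ℝ) : ℂ))) := by
    intro h
    have h1 : ((4 * ‖μ‖ ^ 2 : ℝ) : ℂ) = 4 * (μ * conj μ) := by
      rw [Complex.mul_conj, Complex.normSq_eq_norm_sq]; push_cast; ring
    have h2 : conj μ ≠ 0 := (map_ne_zero _).2 hμ0
    have h3 : sg 4 = 4 := map_ofNat sg 4
    rw [eQ, map_neg, map_mul, map_pow, map_mul, h3, h1]
    congr 1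
    generalize conj μ = ν at h2
    rw [hμ]
    field_simp
  have t1 := tendsto_mean hc hP1
  have t2 := tendsto_mean h4 hP2
  generalize rsum c (fun y => eQ (a * y ^ 2) c) = R₁ at t1 ⊢
  generalize rsum (4 * a) (fun h => eQ (-(c * h ^ 2)) (4 * a)) = R₂ at t2 ⊢
  simp only [e1] at t1
  simp only [e2] at t2
  have key := tendsto_nhds_unique t1 (gaa_limit hμ0 t2)
  have hA : 0 < Real.sqrt (nm a) := Real.sqrt_pos.2 (nm_pos ha)
  have hC : 0 < Real.sqrt (nm c) := Real.sqrt_pos.2 (nm_pos hc)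
  have n4 : nm (4 * a) = 16 * nm a := by
    have : nm (4 : O) = 16 := by
      have := nm_natCast 4
      norm_num at this
      exact this
    rw [nm_mul, this]
  have nμ : ‖μ‖ = Real.sqrt (nm a) / Real.sqrt (nm c) := by rw [hμ, norm_div, norm_sg, norm_sg]
  have sA : (nm a : ℂ) = (Real.sqrt (nm a) : ℂ) ^ 2 := by
    rw [← Complex.ofReal_pow, Real.sq_sqrt (nm_nonneg a)]
  have sC : (nm c : ℂ) = (Real.sqrt (nm c) : ℂ) ^ 2 := by
    rw [← Complex.ofReal_pow, Real.sq_sqrt (nm_nonneg c)]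
  rw [n4, nμ] at key
  push_cast at key
  rw [sA, sC] at key
  have hA' : (Real.sqrt (nm a) : ℂ) ≠ 0 := Complex.ofReal_ne_zero.2 hA.ne'
  have hC' : (Real.sqrt (nm c) : ℂ) ≠ 0 := Complex.ofReal_ne_zero.2 hC.ne'
  generalize (Real.sqrt (nm a) : ℂ) = A at key hA' ⊢
  generalize (Real.sqrt (nm c) : ℂ) = C at key hC' ⊢
  field_simp at key ⊢
  linear_combination key / 2

theorem gam_eq {c : O} (hc : c ≠ 0) :
    gam c = (1 + eQ (-c) 4 + eQ (-(c * om)) 4 + eQ (-(c * om ^ 2)) 4) / 2 := by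
  have h := landsberg (a := 1) one_ne_zero hc
  simp only [one_mul, mul_one, nm_one, Real.sqrt_one, Complex.ofReal_one] at h
  have hper : Per 2 fun h : O => eQ (-(c * h ^ 2)) 4 := by
    rintro a b ⟨k, hk⟩
    refine eQ_congr ⟨-(c * (k * (k + b))), ?_⟩
    have : a = b + 2 * k := by rw [← hk]; ring
    rw [this]; ring
  have h1 := rsum_lift (Q := 2) (R := 2) two_ne_zero two_ne_zero hper
  have h2 := rsum_nat (m := 2) two_ne_zero (f := fun h : O => eQ (-(c * h ^ 2)) 4)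
    (by simpa using hper)
  have h3 : nm 2 = 4 := by
    have := nm_natCast 2
    norm_num at this
    exact this
  have h4 : ((1 : O) + om) ^ 2 = om := by linear_combination om_sq
  rw [show (2 : O) * 2 = 4 by norm_num, h3] at h1
  simp only [Finset.sum_range_succ, Finset.range_zero, Finset.sum_empty, Nat.cast_ofNat,
    Nat.cast_zero, Nat.cast_one, zero_mul, one_mul, zero_add, add_zero, h4] at h2
  unfold gam
  rw [h, h1, h2]
  simp only [ne_eq, OfNat.ofNat_ne_zero, not_false_eq_true, zero_pow, mul_zero, neg_zero,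
    eQ_zero, one_pow, mul_one]
  push_cast
  ring

/-- the character `z ↦ i ^ z` of `ZMod 4` -/
noncomputable def gab_psi : AddChar (ZMod 4) ℂ := ZMod.stdAddChar

/-- the same with values in the Gaussian integers -/
def gab_gi (z : ZMod 4) : GaussianInt := (⟨0, 1⟩ : GaussianInt) ^ z.val

theorem gab_psi_one : gab_psi 1 = Complex.I := by
  have := ZMod.stdAddChar_coe (N := 4) 1
  rw [Int.cast_one] at this
  rw [gab_psi, this]
  refine Eq.trans ?_ Complex.exp_pi_div_two_mul_I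
  congr 1
  push_cast
  ring

theorem gab_psi_eq (z : ZMod 4) : gab_psi z = (gab_gi z : ℂ) := by
  have h1 : z = z.val • (1 : ZMod 4) := by simp
  conv_lhs => rw [h1]
  rw [AddChar.map_nsmul_eq_pow, gab_psi_one, gab_gi, map_pow, GaussianInt.toComplex_def']
  simp

theorem gab_psi_two : gab_psi 2 = -1 := by
  rw [show (2 : ZMod 4) = 1 + 1 by decide, AddChar.map_add_eq_mul, gab_psi_one, Complex.I_mul_I]

theorem gab_psi_inj {a b : ZMod 4} (h : gab_psi a = gab_psi b) : a = b :=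
  ZMod.injective_stdAddChar h

theorem gab_norm_psi (a : ZMod 4) : ‖gab_psi a‖ = 1 := AddChar.norm_apply _ _

theorem gab_conj_psi (a : ZMod 4) : conj (gab_psi a) = gab_psi (-a) :=
  (AddChar.map_neg_eq_conj _ _).symm

/-- coordinates modulo `4` -/
noncomputable def gab_red (c : O) : ZMod 4 × ZMod 4 := ((crd.symm c).1, (crd.symm c).2)

def gab_mul (p q : ZMod 4 × ZMod 4) : ZMod 4 × ZMod 4 :=
  (p.1 * q.1 - p.2 * q.2, p.1 * q.2 + p.2 * q.1 - p.2 * q.2)

def gab_odd (p : ZMod 4 × ZMod 4) : Bool := !(2 * p.1 == 0 && 2 * p.2 == 0)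

def gab_E (p : ZMod 4 × ZMod 4) : ZMod 4 :=
  if p = (1, 2) ∨ p = (1, 3) ∨ p = (2, 3) then 1
  else if p = (2, 1) ∨ p = (3, 1) ∨ p = (3, 2) then 3 else 0

def gab_e (p q : ZMod 4 × ZMod 4) : ZMod 4 := gab_E (gab_mul p q) + -gab_E p + -gab_E q

theorem gab_red_coord (x y : ℤ) : gab_red ((x : O) + y * om) = ((x : ZMod 4), (y : ZMod 4)) := by
  rw [gab_red, ← crd_apply (x, y), Equiv.symm_apply_apply]

theorem gab_red_mul (a b : O) : gab_red (a * b) = gab_mul (gab_red a) (gab_red b) := by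
  obtain ⟨x, y, rfl⟩ := exists_coord a
  obtain ⟨u, v, rfl⟩ := exists_coord b
  have : ((x : O) + y * om) * (u + v * om) =
      ((x * u - y * v : ℤ) : O) + ((x * v + y * u - y * v : ℤ) : O) * om := by
    push_cast
    linear_combination (y * v : O) * om_sq
  rw [this, gab_red_coord, gab_red_coord, gab_red_coord, gab_mul]
  push_cast
  rfl

theorem gab_red_one : gab_red 1 = (1, 0) := by
  have := gab_red_coord 1 0
  simpa using this

theorem gab_two_mul (x : ℤ) : 2 * (x : ZMod 4) = 0 ↔ 2 ∣ x := by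
  have h : (2 * (x : ZMod 4)) = ((2 * x : ℤ) : ZMod 4) := by push_cast; rfl
  rw [h, ZMod.intCast_zmod_eq_zero_iff_dvd]
  push_cast
  omega

theorem gab_odd_red {c : O} (hc : IsCoprime c 2) : gab_odd (gab_red c) = true := by
  obtain ⟨x, y, rfl⟩ := exists_coord c
  rw [coprime_two_iff, show (2 : O) = ((2 : ℤ) : O) by norm_num, int_dvd_coord] at hc
  rw [gab_red_coord, gab_odd]
  simp only [Bool.not_eq_true', Bool.and_eq_false_iff, beq_eq_false_iff_ne, ne_eq, gab_two_mul]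
  tauto

theorem gab_eQ (x y : ℤ) : eQ ((x : O) + y * om) 4 = gab_psi (y : ZMod 4) := by
  have := eQ_coord_nat x y (m := 4) (by norm_num)
  rw [gab_psi, ZMod.stdAddChar_coe]
  simp only [Nat.cast_ofNat] at this ⊢
  rw [this]
  congr 1
  ring

theorem gab_table : ∀ x y : ZMod 4, gab_odd (x, y) = true →
    1 + gab_gi (-y) + gab_gi (y - x) + gab_gi x = 2 * gab_gi (gab_E (x, y)) := by
  decide

theorem gab_ne_zero {c : O} (hc : IsCoprime c 2) : c ≠ 0 := by
  rintro rfl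
  exact coprime_two_iff.mp hc (dvd_zero _)

theorem gab_gam {c : O} (hc : IsCoprime c 2) : gam c = gab_psi (gab_E (gab_red c)) := by
  have hodd := gab_odd_red hc
  rw [gam_eq (gab_ne_zero hc)]
  obtain ⟨x, y, rfl⟩ := exists_coord c
  rw [gab_red_coord] at hodd ⊢
  have h1 : -((x : O) + y * om) = ((-x : ℤ) : O) + ((-y : ℤ) : O) * om := by
    push_cast; ring
  have h2 : -(((x : O) + y * om) * om) = ((y : ℤ) : O) + ((y - x : ℤ) : O) * om := by
    push_cast; linear_combination (-y : O) * om_sq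
  have h3 : -(((x : O) + y * om) * om ^ 2) = ((x - y : ℤ) : O) + ((x : ℤ) : O) * om := by
    push_cast; linear_combination (-x : O) * om_sq - (y : O) * om_cube
  rw [h2, h3, h1, gab_eQ, gab_eQ, gab_eQ]
  have h4 := congrArg GaussianInt.toComplex (gab_table _ _ hodd)
  simp only [map_add, map_mul, map_one, map_ofNat, ← gab_psi_eq] at h4
  push_cast
  rw [h4]
  ring

theorem gab_eps {a b : O} (ha : IsCoprime a 2) (hb : IsCoprime b 2) :
    eps a b = gab_psi (gab_e (gab_red a) (gab_red b)) := by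
  rw [eps, gab_gam ha, gab_gam hb, gab_gam (ha.mul_left hb), gab_conj_psi, gab_conj_psi, gab_e,
    AddChar.map_add_eq_mul, AddChar.map_add_eq_mul, gab_red_mul]

theorem gab_sq : ∀ x y : ZMod 4, gab_odd (x, y) = true →
    2 * gab_E (x, y) = x ^ 2 - x * y + y ^ 2 - 1 := by
  decide

theorem gab_E_zero : ∀ p, 2 * gab_E p = 0 → gab_E p = 0 := by
  decide

theorem gab_mul_sq : ∀ p q, gab_odd p = true → gab_odd q = true →
    gab_E (gab_mul p (gab_mul q q)) = gab_E p := by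
  decide +kernel

theorem gab_e_or : ∀ p q, gab_odd p = true → gab_odd q = true →
    gab_e p q = 0 ∨ gab_e p q = 2 := by
  decide +kernel

theorem gab_e_mul : ∀ p p' q, gab_odd p = true → gab_odd p' = true → gab_odd q = true →
    gab_e (gab_mul p p') q = gab_e p q + gab_e p' q := by
  decide +kernel

theorem gab_e_self : ∀ p, gab_odd p = true → gab_e p p = 2 * gab_E p := by
  decide

theorem gab_psi_sq (a : ZMod 4) : gab_psi a ^ 2 = gab_psi (2 * a) := by
  rw [sq, two_mul, AddChar.map_add_eq_mul]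

theorem gam_congr {c c' : O} (hc : IsCoprime c 2) (h : (4 : O) ∣ c - c') : gam c = gam c' := by
  have hc' : c' ≠ 0 := by
    rintro rfl
    rw [sub_zero] at h
    exact coprime_two_iff.mp hc (Dvd.dvd.trans ⟨2, by norm_num⟩ h)
  obtain ⟨k, hk⟩ := h
  rw [gam_eq (gab_ne_zero hc), gam_eq hc',
    eQ_congr (y := -c) (y' := -c') ⟨-k, by linear_combination -hk⟩,
    eQ_congr (y := -(c * om)) (y' := -(c' * om)) ⟨-k * om, by linear_combination -om * hk⟩,
    eQ_congr (y := -(c * om ^ 2)) (y' := -(c' * om ^ 2))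
      ⟨-k * om ^ 2, by linear_combination -om ^ 2 * hk⟩]

@[simp] theorem gam_one : gam 1 = 1 := by
  rw [gab_gam isCoprime_one_left, gab_red_one, show gab_E (1, 0) = 0 by decide,
    AddChar.map_zero_eq_one]

theorem gam_unit {u : O} (h : IsUnit u) : gam u = 1 := by
  have hper : Per u fun y => eQ (y ^ 2) u := fun a b _ => eQ_congr h.dvd
  rw [gam, rsum_unit h hper, nm_unit h]
  simp

theorem norm_gam {c : O} (hc : IsCoprime c 2) : ‖gam c‖ = 1 := by
  rw [gab_gam hc, gab_norm_psi]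

theorem norm_gam_le (c : O) : ‖gam c‖ ≤ 2 := by
  by_cases hc : c = 0
  · subst hc
    simp [gam]
  rw [gam_eq hc, norm_div, Complex.norm_ofNat, div_le_iff₀ (by norm_num)]
  have h1 := norm_add_le (1 + eQ (-c) 4 + eQ (-(c * om)) 4) (eQ (-(c * om ^ 2)) 4)
  have h2 := norm_add_le (1 + eQ (-c) 4) (eQ (-(c * om)) 4)
  have h3 := norm_add_le 1 (eQ (-c) 4)
  simp only [norm_eQ, norm_one] at h1 h2 h3
  linarith

theorem gam_mul_conj {c : O} (hc : IsCoprime c 2) : gam c * conj (gam c) = 1 := by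
  rw [Complex.mul_conj', norm_gam hc]
  simp

theorem gam_sq {c : O} (hc : IsCoprime c 2) : gam c ^ 2 = (-1) ^ ((nN c - 1) / 2) := by
  have hodd := gab_odd_red hc
  have hN := nN_mod_two hc
  rw [gab_gam hc, gab_psi_sq]
  obtain ⟨x, y, rfl⟩ := exists_coord c
  rw [gab_red_coord] at hodd ⊢
  have h1 := congrArg (fun z : ℤ => (z : ZMod 4)) (nN_coord x y)
  simp only [Int.cast_natCast, Int.cast_add, Int.cast_sub, Int.cast_mul, Int.cast_pow] at h1
  rw [gab_sq _ _ hodd, ← h1]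
  generalize nN ((x : O) + y * om) = N at hN
  obtain ⟨k, rfl⟩ : ∃ k, N = 2 * k + 1 := ⟨N / 2, by omega⟩
  rw [show (2 * k + 1 - 1) / 2 = k by omega, ← gab_psi_two, ← AddChar.map_nsmul_eq_pow]
  congr 1
  push_cast
  ring

theorem gam_sq' {c : O} (hc : IsCoprime c 6) : gam c ^ 2 = sx (-1) c := by
  rw [gam_sq (coprime_six_iff.mp hc).1, sx_neg_one hc]

/-- the values are `1`, `i`, `-i` -/
theorem gam_eq_one {c : O} (hc : IsCoprime c 2) (h : gam c ^ 2 = 1) : gam c = 1 := by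
  rw [gab_gam hc] at h ⊢
  rw [gab_psi_sq, ← gab_psi.map_zero_eq_one] at h
  rw [gab_E_zero _ (gab_psi_inj h), AddChar.map_zero_eq_one]

theorem gam_mul_sq {c b : O} (hc : IsCoprime c 2) (hb : IsCoprime b 2) :
    gam (c * b ^ 2) = gam c := by
  rw [gab_gam (hc.mul_left hb.pow_left), gab_gam hc, gab_red_mul, sq, gab_red_mul,
    gab_mul_sq _ _ (gab_odd_red hc) (gab_odd_red hb)]

theorem gam_neg (c : O) : gam (-c) = conj (gam c) := by
  rw [gam, gam, rsum_assoc (Associated.refl c).neg_left, nm_neg, map_div₀, conj_rsum,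
    Complex.conj_ofReal]
  simp only [eQ_neg_right, eQ_neg]

theorem gam_mul {a b : O} (ha : IsCoprime a 2) (hb : IsCoprime b 2) :
    gam (a * b) = eps a b * gam a * gam b := by
  have h1 := gam_mul_conj ha
  have h2 := gam_mul_conj hb
  rw [eps]
  linear_combination (-gam (a * b)) * h1 - gam (a * b) * (gam a * conj (gam a)) * h2

theorem eps_comm (a b : O) : eps a b = eps b a := by
  rw [eps, eps, mul_comm a b]
  ring

theorem eps_eq_or {a b : O} (ha : IsCoprime a 2) (hb : IsCoprime b 2) :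
    eps a b = 1 ∨ eps a b = -1 := by
  rw [gab_eps ha hb]
  rcases gab_e_or _ _ (gab_odd_red ha) (gab_odd_red hb) with h | h
  · left; rw [h, AddChar.map_zero_eq_one]
  · right; rw [h, gab_psi_two]

theorem eps_mul_self {a b : O} (ha : IsCoprime a 2) (hb : IsCoprime b 2) :
    eps a b * eps a b = 1 := by
  rcases eps_eq_or ha hb with h | h <;> rw [h] <;> norm_num

theorem norm_eps {a b : O} (ha : IsCoprime a 2) (hb : IsCoprime b 2) : ‖eps a b‖ = 1 := by
  rw [gab_eps ha hb, gab_norm_psi]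

theorem norm_eps_le (a b : O) : ‖eps a b‖ ≤ 8 := by
  rw [eps, norm_mul, norm_mul, Complex.norm_conj, Complex.norm_conj]
  calc ‖gam (a * b)‖ * ‖gam a‖ * ‖gam b‖ ≤ 2 * 2 * 2 := by
        gcongr <;> exact norm_gam_le _
    _ = 8 := by norm_num

theorem conj_eps {a b : O} (ha : IsCoprime a 2) (hb : IsCoprime b 2) :
    conj (eps a b) = eps a b := by
  rcases eps_eq_or ha hb with h | h <;> rw [h] <;> simp

theorem eps_congr {a a' b b' : O} (ha : IsCoprime a 2) (hb : IsCoprime b 2)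
    (h₁ : (4 : O) ∣ a - a') (h₂ : (4 : O) ∣ b - b') : eps a b = eps a' b' := by
  have h₃ : (4 : O) ∣ a * b - a' * b' := by
    have : a * b - a' * b' = (a - a') * b + a' * (b - b') := by ring
    rw [this]
    exact dvd_add (h₁.mul_right _) (h₂.mul_left _)
  rw [eps, eps, gam_congr ha h₁, gam_congr hb h₂, gam_congr (ha.mul_left hb) h₃]

theorem eps_mul_left {a a' b : O} (ha : IsCoprime a 2) (ha' : IsCoprime a' 2) (hb : IsCoprime b 2) :
    eps (a * a') b = eps a b * eps a' b := by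
  rw [gab_eps (ha.mul_left ha') hb, gab_eps ha hb, gab_eps ha' hb, gab_red_mul,
    gab_e_mul _ _ _ (gab_odd_red ha) (gab_odd_red ha') (gab_odd_red hb), AddChar.map_add_eq_mul]

theorem eps_mul_right {a b b' : O} (ha : IsCoprime a 2) (hb : IsCoprime b 2) (hb' : IsCoprime b' 2) :
    eps a (b * b') = eps a b * eps a b' := by
  rw [eps_comm, eps_mul_left hb hb' ha, eps_comm b, eps_comm b']

theorem eps_one_left {b : O} (hb : IsCoprime b 2) : eps 1 b = 1 := by
  rw [eps, one_mul, gam_one, map_one, mul_one, gam_mul_conj hb]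

theorem eps_one_right {a : O} (ha : IsCoprime a 2) : eps a 1 = 1 := by
  rw [eps_comm, eps_one_left ha]

theorem eps_pow_left {a b : O} (ha : IsCoprime a 2) (hb : IsCoprime b 2) (k : ℕ) :
    eps (a ^ k) b = eps a b ^ k := by
  induction k with
  | zero => rw [pow_zero, pow_zero, eps_one_left hb]
  | succ k ih => rw [pow_succ, pow_succ, eps_mul_left ha.pow_left ha hb, ih]

theorem eps_pow_right {a b : O} (ha : IsCoprime a 2) (hb : IsCoprime b 2) (k : ℕ) :
    eps a (b ^ k) = eps a b ^ k := by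
  rw [eps_comm, eps_pow_left hb ha, eps_comm]

theorem eps_self {a : O} (ha : IsCoprime a 2) : eps a a = gam a ^ 2 := by
  rw [gab_eps ha ha, gab_gam ha, gab_psi_sq, gab_e_self _ (gab_odd_red ha)]

/-- the quadratic Gauss sum `G(a; c)` -/
noncomputable def gac_G (a c : O) : ℂ := rsum c fun y => eQ (a * y ^ 2) c

theorem gac_per (a c : O) : Per c fun y => eQ (a * y ^ 2) c := by
  intro y y' h
  apply eQ_congr
  have : a * y ^ 2 - a * y' ^ 2 = (y - y') * (a * (y + y')) := by ring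
  rw [this]
  exact h.mul_right _

theorem gac_ne_zero {c : O} (hc : IsCoprime c 6) : c ≠ 0 := by
  rintro rfl
  have h2 : IsCoprime (0 : O) 2 := (coprime_six_iff.1 hc).1
  exact coprime_two_iff.1 h2 (dvd_zero _)

theorem gac_sqrt_ne {c : O} (hc : c ≠ 0) : (Real.sqrt (nm c) : ℂ) ≠ 0 :=
  Complex.ofReal_ne_zero.2 (Real.sqrt_pos.2 (nm_pos hc)).ne'

theorem gac_G_one {c : O} (hc : c ≠ 0) : gac_G 1 c = gam c * (Real.sqrt (nm c) : ℂ) := by
  rw [gam, div_mul_cancel₀ _ (gac_sqrt_ne hc), gac_G]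
  simp only [one_mul]

theorem gac_mul {c₁ c₂ : O} (h₁ : c₁ ≠ 0) (h₂ : c₂ ≠ 0) (h : IsCoprime c₁ c₂) (a : O) :
    gac_G a (c₁ * c₂) = gac_G (a * c₂) c₁ * gac_G (a * c₁) c₂ := by
  rw [gac_G, rsum_crt h₁ h₂ h (gac_per a _), gac_G, gac_G, ← rsum_mul_right]
  congr 1
  funext y
  rw [← rsum_mul_left]
  congr 1
  funext z
  rw [← eQ_split h₁ h₂]
  apply eQ_congr
  exact ⟨2 * a * y * z, by ring⟩

theorem gac_sq {p c a : O} (hp : Prime p) (hc : c ≠ 0) (h2 : ¬ p ∣ 2) (ha : ¬ p ∣ a) :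
    gac_G a (p * c * p) = nm p * gac_G a c := by
  classical
  have hp0 := hp.ne_zero
  have hpc : p * c ≠ 0 := mul_ne_zero hp0 hc
  set f : O → ℂ := fun y => if p ∣ y then eQ (a * y ^ 2) (p * c * p) else 0 with hf
  have hper : Per (p * c) f := by
    intro y y' hyy
    obtain ⟨t, ht⟩ := hyy
    have hy : y = y' + p * c * t := by rw [← ht]; ring
    by_cases hd : p ∣ y'
    · have hd' : p ∣ y := by rw [hy]; exact dvd_add hd ⟨c * t, by ring⟩
      simp only [hf, if_pos hd, if_pos hd']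
      apply eQ_congr
      obtain ⟨s, rfl⟩ := hd
      rw [hy]
      exact ⟨a * t * (2 * s + c * t), by ring⟩
    · have hd' : ¬ p ∣ y := by
        intro h
        apply hd
        have : y' = y - p * (c * t) := by rw [hy]; ring
        rw [this]
        exact dvd_sub h (dvd_mul_right _ _)
      simp only [hf, if_neg hd, if_neg hd']
  have hin : ∀ y, (rsum p fun z => eQ (a * (y + p * c * z) ^ 2) (p * c * p)) =
      nm p * (if p ∣ y then f y else 0) := by
    intro y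
    have e : ∀ z, eQ (a * (y + p * c * z) ^ 2) (p * c * p) =
        eQ (a * y ^ 2) (p * c * p) * eQ (2 * a * y * z) p := by
      intro z
      rw [← eQ_mul_cancel hpc (2 * a * y * z) p, ← eQ_add]
      apply eQ_congr
      exact ⟨a * c * z ^ 2, by ring⟩
    simp only [e]
    rw [rsum_mul_left, rsum_eQ hp0]
    by_cases hd : p ∣ y
    · rw [if_pos (hd.mul_left _), if_pos hd]
      simp only [hf, if_pos hd]
      ring
    · have : ¬ p ∣ 2 * a * y := by
        intro h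
        rcases hp.dvd_or_dvd h with h | h
        · rcases hp.dvd_or_dvd h with h | h
          · exact h2 h
          · exact ha h
        · exact hd h
      rw [if_neg this, if_neg hd]
      simp
  rw [gac_G, rsum_tower hpc hp0 (gac_per a _)]
  simp only [hin]
  rw [rsum_mul_left, rsum_dvd hp0 hc hper, gac_G]
  congr 2
  funext z
  simp only [hf, if_pos (dvd_mul_right p z)]
  rw [← eQ_mul_cancel (mul_ne_zero hp0 hp0) (a * z ^ 2) c]
  congr 1 <;> ring

theorem gac_cube_sq {a c : O} (hc : IsCoprime c 6) (h : IsCoprime a c) :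
    sx a c ^ 3 * sx a c ^ 3 = 1 := by
  classical
  have := sx_pow_six a c
  rw [if_pos ⟨hc, h⟩] at this
  rw [← this]; ring

theorem gac_prime_aux {p a : O} (hp : Prime p) (h6 : IsCoprime p 6) (ha : ¬ p ∣ a) :
    gac_G a p = rsum p fun y => sx y p ^ 3 * eQ (a * y) p := by
  classical
  have h := rsum_sq hp h6 (per_eQ a p)
  rw [gac_G, h]
  simp only [add_mul, one_mul]
  rw [rsum_add hp.ne_zero, rsum_eQ hp.ne_zero, if_neg ha, zero_add]

theorem gac_prime {p a : O} (hp : Prime p) (h6 : IsCoprime p 6) (ha : IsCoprime a p) :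
    gac_G a p = sx a p ^ 3 * gac_G 1 p := by
  have ha' : ¬ p ∣ a := fun h => hp.not_isUnit (ha.isUnit_of_dvd' h dvd_rfl)
  have hper : Per p fun y => sx y p ^ 3 * eQ (1 * y) p :=
    ((per_sx p).comp fun z => z ^ 3).mul (per_eQ 1 p)
  have h1 := rsum_mul_arg hp.ne_zero ha hper
  rw [gac_prime_aux hp h6 ha', gac_prime_aux hp h6 hp.not_dvd_one, ← h1, ← rsum_mul_left]
  congr 1
  funext y
  rw [sx_mul_left, mul_pow, one_mul]
  linear_combination (-(sx y p ^ 3 * eQ (a * y) p)) * gac_cube_sq h6 ha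

theorem gac_main (N : ℕ) : ∀ c : O, nN c = N → IsCoprime c 6 → ∀ a : O, IsCoprime a c →
    gac_G a c = sx a c ^ 3 * gac_G 1 c := by
  induction N using Nat.strong_induction_on with
  | _ N ih =>
  intro c hN hc a ha
  have hc0 := gac_ne_zero hc
  by_cases hu : IsUnit c
  · rw [gac_G, gac_G, rsum_unit hu (gac_per a c), rsum_unit hu (gac_per 1 c), sx_unit_right _ hu]
    simp
  obtain ⟨p, hp, c', rfl⟩ := WfDvdMonoid.exists_irreducible_factor hu hc0
  have hp : Prime p := hp.prime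
  have hc'0 : c' ≠ 0 := right_ne_zero_of_mul hc0
  have hp6 : IsCoprime p 6 := hc.of_mul_left_left
  have hc'6 : IsCoprime c' 6 := hc.of_mul_left_right
  have hap : IsCoprime a p := ha.of_mul_right_left
  have hac' : IsCoprime a c' := ha.of_mul_right_right
  have hp2 : 2 ≤ nN p := by
    have := two_le_nm hp
    rw [nm] at this
    exact_mod_cast this
  have hlt : ∀ d : O, d ≠ 0 → nN d < nN (p * d) := by
    intro d hd
    have h1 : 0 < nN d := Nat.pos_of_ne_zero fun h => hd (nN_eq_zero.1 h)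
    rw [nN_mul]
    nlinarith
  by_cases hd : p ∣ c'
  · obtain ⟨d, rfl⟩ := hd
    have hd0 : d ≠ 0 := right_ne_zero_of_mul hc'0
    have h2 : ¬ p ∣ 2 := fun h =>
      hp.not_isUnit ((coprime_six_iff.1 hp6).1.isUnit_of_dvd' dvd_rfl h)
    have ha' : ¬ p ∣ a := fun h => hp.not_isUnit (hap.isUnit_of_dvd' h dvd_rfl)
    have e : p * (p * d) = p * d * p := by ring
    have hI := ih (nN d) (by rw [← hN]; exact (hlt d hd0).trans (hlt _ hc'0)) d rfl
      hc'6.of_mul_left_right a hac'.of_mul_right_right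
    rw [e, gac_sq hp hd0 h2 ha', gac_sq hp hd0 h2 hp.not_dvd_one, hI, sx_mul_right, sx_mul_right]
    linear_combination (-(nm p * sx a d ^ 3 * gac_G 1 d)) * gac_cube_sq hp6 hap
  · have hpc : IsCoprime p c' := (Prime.coprime_iff_not_dvd hp).2 hd
    have hI := ih (nN c') (by rw [← hN]; exact hlt c' hc'0) c' rfl hc'6
    rw [gac_mul hp.ne_zero hc'0 hpc, gac_mul hp.ne_zero hc'0 hpc,
      gac_prime hp hp6 (hap.mul_left hpc.symm), hI _ (hac'.mul_left hpc), one_mul, one_mul,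
      gac_prime hp hp6 hpc.symm, hI _ hpc, sx_mul_left, sx_mul_left, sx_mul_right]
    ring

/-- twisting the quadratic Gauss sum -/
theorem rsum_eQ_sq {a c : O} (hc : IsCoprime c 6) (h : IsCoprime a c) :
    rsum c (fun y => eQ (a * y ^ 2) c) = sx a c ^ 3 * (gam c * (Real.sqrt (nm c) : ℂ)) := by
  have h0 := gac_ne_zero hc
  have h1 : gam c * (Real.sqrt (nm c) : ℂ) = gac_G 1 c := (gac_G_one h0).symm
  rw [h1]
  exact gac_main (nN c) c rfl hc a h

/-- quadratic reciprocity -/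
theorem sx_cube_recip {a b : O} (ha : IsCoprime a 6) (hb : IsCoprime b 6) :
    sx a b ^ 3 = sx b a ^ 3 * eps a b := by
  by_cases h : IsCoprime a b
  · have ha0 := gac_ne_zero ha
    have hb0 := gac_ne_zero hb
    have ha2 := (coprime_six_iff.1 ha).1
    have hb2 := (coprime_six_iff.1 hb).1
    have h1 := gac_mul ha0 hb0 h 1
    rw [one_mul, one_mul, gac_main _ a rfl ha b h.symm, gac_main _ b rfl hb a h,
      gac_G_one (mul_ne_zero ha0 hb0), gac_G_one ha0, gac_G_one hb0, gam_mul ha2 hb2, nm_mul,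
      Real.sqrt_mul (nm_nonneg a), Complex.ofReal_mul] at h1
    have hga : gam a ≠ 0 := fun e => by simpa [e] using norm_gam ha2
    have hgb : gam b ≠ 0 := fun e => by simpa [e] using norm_gam hb2
    have hne : gam a * gam b * ((Real.sqrt (nm a) : ℂ) * (Real.sqrt (nm b) : ℂ)) ≠ 0 :=
      mul_ne_zero (mul_ne_zero hga hgb) (mul_ne_zero (gac_sqrt_ne ha0) (gac_sqrt_ne hb0))
    have h2 : eps a b = sx b a ^ 3 * sx a b ^ 3 := by
      apply mul_right_cancel₀ hne
      linear_combination h1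
    rw [h2, ← mul_assoc, gac_cube_sq ha h.symm, one_mul]
  · rw [sx_eq_zero_of_not_coprime h, sx_eq_zero_of_not_coprime fun h' => h h'.symm]
    simp

/-- the quadratic symbol is periodic modulo `4 a` on elements prime to `6` -/
theorem sx_cube_per {a n n' : O} (hn : IsCoprime n 6) (hn' : IsCoprime n' 6)
    (h : 4 * a ∣ n - n') : sx a n ^ 3 = sx a n' ^ 3 := by
  by_cases ha : a = 0
  · subst ha
    rw [mul_zero, zero_dvd_iff, sub_eq_zero] at h
    rw [h]
  obtain ⟨t, ht⟩ := h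
  have hnn : n = n' + a * (4 * t) := by linear_combination ht
  have hco : IsCoprime a n ↔ IsCoprime a n' := by
    rw [hnn]; exact IsCoprime.add_mul_left_right_iff
  by_cases hc : IsCoprime a n
  · have hc' := hco.1 hc
    have h0 := gac_ne_zero hn
    have h0' := gac_ne_zero hn'
    have hn2 := (coprime_six_iff.1 hn).1
    have h1 := landsberg ha h0
    have h2 := landsberg ha h0'
    rw [rsum_eQ_sq hn hc, ← mul_assoc, mul_div_cancel_right₀ _ (gac_sqrt_ne h0)] at h1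
    rw [rsum_eQ_sq hn' hc', ← mul_assoc, mul_div_cancel_right₀ _ (gac_sqrt_ne h0')] at h2
    have h3 : (fun y => eQ (-(n * y ^ 2)) (4 * a)) = fun y => eQ (-(n' * y ^ 2)) (4 * a) := by
      funext y
      apply eQ_congr
      exact ⟨-(t * y ^ 2), by linear_combination (-y ^ 2) * ht⟩
    have h4 : gam n = gam n' := gam_congr hn2 ⟨a * t, by linear_combination ht⟩
    have hg : gam n ≠ 0 := fun e => by simpa [e] using norm_gam hn2
    rw [h3, ← h2, ← h4] at h1
    exact mul_right_cancel₀ hg h1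
  · rw [sx_eq_zero_of_not_coprime hc, sx_eq_zero_of_not_coprime fun h' => hc (hco.2 h')]

end Crest.Agent.R17
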