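import Crest.Agent.R17.A.Tw

/-!
Row 17, block A4: sextic and cubic Gauss sums.
-/

set_option autoImplicit false

namespace Crest.Agent.R17

open scoped ComplexConjugate

/-! ### Sextic Gauss sums -/

theorem per_gs (j : ℕ) (c : O) : Per c fun m => gs j m c := per_FT _ _

theorem gsa_per (j : ℕ) (c : O) : Per c fun y => sx y c ^ j := (per_sx c).comp (· ^ j)

theorem gsa_FT_const_mul (Q : O) (a : ℂ) (Ψ : O → ℂ) (k : O) :
    FT Q (fun y => a * Ψ y) k = a * FT Q Ψ k := by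
  rw [FT, FT, ← rsum_mul_left]
  simp only [mul_assoc]

theorem gsa_sqfree_ind {P : O → Prop} {c : O} (hs : Squarefree c) (h1 : ∀ u, IsUnit u → P u)
    (hm : ∀ p a, Prime p → a ≠ 0 → Squarefree a → IsCoprime p a → P a → P (p * a)) : P c := by
  induction c using UniqueFactorizationMonoid.induction_on_prime with
  | h₁ => exact absurd hs not_squarefree_zero
  | h₂ u hu => exact h1 u hu
  | h₃ a p ha hp ih =>
    obtain ⟨h2, -, h3⟩ := squarefree_mul_iff.1 hs
    exact hm p a hp ha h3 (isRelPrime_iff_isCoprime.1 h2) (ih h3)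

theorem gsa_mul_conj {a c : O} (h6 : IsCoprime c 6) (h : IsCoprime a c) :
    sx a c * conj (sx a c) = 1 := by
  rw [sx_mul_conj, if_pos ⟨h6, h⟩]

theorem gsa_sqrt_ne {c : O} (hc : c ≠ 0) : (Real.sqrt (nm c) : ℂ) ≠ 0 := by
  exact_mod_cast (Real.sqrt_pos.2 (nm_pos hc)).ne'

theorem gs_unit (j : ℕ) (m : O) {c : O} (h : IsUnit c) : gs j m c = 1 := by
  rw [gs, FT, rsum_unit h (((per_sx c).comp (· ^ j)).mul (per_eQ m c))]
  simp [sx_unit_right _ h]

theorem gs_eq_zero_of_not_six {j : ℕ} (hj : j ≠ 0) (m : O) {c : O} (h : ¬ IsCoprime c 6) :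
    gs j m c = 0 := by
  simp [gs, FT, sx_eq_zero_of_not_six h, hj]

theorem gs_add_six {j : ℕ} (hj : j ≠ 0) (m c : O) : gs (j + 6) m c = gs j m c := by
  simp only [gs, sx_pow_add_six _ _ hj]

theorem gs_congr_mod {j j' : ℕ} (hj : j ≠ 0) (hj' : j' ≠ 0) (h : j % 6 = j' % 6) (m c : O) :
    gs j m c = gs j' m c := by
  have key : ∀ y, sx y c ^ j = sx y c ^ j' := by
    intro y
    by_cases h0 : sx y c = 0
    · rw [h0, zero_pow hj, zero_pow hj']
    · obtain ⟨h6, hy⟩ := sx_ne_zero.1 h0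
      rw [sx_pow_mod h6 hy j, sx_pow_mod h6 hy j', h]
  simp only [gs, key]

theorem norm_gs_le (j : ℕ) (m : O) {c : O} (hc : c ≠ 0) : ‖gs j m c‖ ≤ nm c := by
  have := norm_FT_le (Ψ := fun y => sx y c ^ j) (B := 1) hc
    (fun y => by rw [norm_pow]; exact pow_le_one₀ (norm_nonneg _) (norm_sx_le _ _)) m
  rwa [mul_one] at this

theorem gs_unit_mul (j : ℕ) {u : O} (hu : IsUnit u) (m c : O) :
    gs j (u * m) (u * c) = gs j m c := by
  simp only [gs, sx_mul_right, sx_unit_right _ hu, one_mul]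
  exact FT_unit_mul hu _ _ _

theorem gs_mul_arg (j : ℕ) {a c : O} (hc : c ≠ 0) (h : IsCoprime a c) (m : O) :
    gs j (a * m) c = conj (sx a c) ^ j * gs j m c := by
  have key : sx a c ^ j * gs j (a * m) c = gs j m c := by
    rw [gs, gs, ← FT_mul_arg hc h (gsa_per j c) m, ← gsa_FT_const_mul]
    simp only [sx_mul_left, mul_pow]
  by_cases h6 : IsCoprime c 6
  · rw [← key, ← mul_assoc, ← mul_pow, mul_comm (conj _), gsa_mul_conj h6 h, one_pow, one_mul]
  · rcases eq_or_ne j 0 with rfl | hj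
    · simpa using key
    · rw [gs_eq_zero_of_not_six hj _ h6, gs_eq_zero_of_not_six hj _ h6, mul_zero]

theorem conj_gs (j : ℕ) (m : O) {c : O} (hc : c ≠ 0) :
    conj (gs j m c) = sx (-1) c ^ j * gs (5 * j) m c := by
  have h1 : conj (gs j m c) = gs (5 * j) (-1 * m) c := by
    rw [gs, conj_FT, gs, neg_one_mul]
    simp only [map_pow, conj_sx, pow_mul]
  have h5 : sx (-1) c ^ 5 = sx (-1) c := by
    have h3 := sx_neg_one_cube c
    calc sx (-1) c ^ 5 = sx (-1) c ^ 3 * sx (-1) c ^ 2 := by ring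
      _ = sx (-1) c ^ 3 := by rw [h3, ← pow_succ', h3]
      _ = _ := h3
  rw [h1, gs_mul_arg _ hc (isCoprime_one_left.neg_left) m, conj_sx_neg_one, pow_mul, h5]

/-- mixed Gauss sums -/
theorem FT_sx_mul (j₁ j₂ : ℕ) {c₁ c₂ : O} (h₁ : c₁ ≠ 0) (h₂ : c₂ ≠ 0) (h : IsCoprime c₁ c₂) (m : O) :
    FT (c₁ * c₂) (fun y => sx y c₁ ^ j₁ * sx y c₂ ^ j₂) m =
      sx c₂ c₁ ^ j₁ * sx c₁ c₂ ^ j₂ * gs j₁ m c₁ * gs j₂ m c₂ := by
  rw [FT_crt h₁ h₂ h (gsa_per j₁ c₁) (gsa_per j₂ c₂)]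
  simp only [sx_mul_left, mul_pow, gsa_FT_const_mul, gs]
  ring

/-- twisted multiplicativity -/
theorem gs_mul (j : ℕ) {c₁ c₂ : O} (h₁ : c₁ ≠ 0) (h₂ : c₂ ≠ 0) (h : IsCoprime c₁ c₂) (m : O) :
    gs j m (c₁ * c₂) = sx c₂ c₁ ^ j * sx c₁ c₂ ^ j * gs j m c₁ * gs j m c₂ := by
  rw [← FT_sx_mul j j h₁ h₂ h m, gs]
  simp only [sx_mul_right, mul_pow]

open Classical in
theorem gs_prime_six {p : O} (hp : Prime p) (h6 : IsCoprime p 6) {j : ℕ} (hj : j ≠ 0) (h : 6 ∣ j)
    (m : O) : gs j m p = if p ∣ m then (nm p : ℂ) - 1 else -1 := by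
  obtain ⟨k, rfl⟩ := h
  have hk : k ≠ 0 := by rintro rfl; exact hj rfl
  have key : ∀ y, sx y p ^ (6 * k) * eQ (m * y) p =
      eQ (m * y) p - if p ∣ y - 0 then eQ (m * y) p else 0 := by
    intro y
    rw [pow_mul, sx_pow_six, sub_zero]
    by_cases hy : p ∣ y
    · rw [if_neg (fun hh => (hp.coprime_iff_not_dvd.1 hh.2.symm) hy), if_pos hy, zero_pow hk]
      ring
    · rw [if_pos ⟨h6, (hp.coprime_iff_not_dvd.2 hy).symm⟩, if_neg hy]
      ring
  rw [gs, FT]
  simp only [key]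
  rw [rsum_sub hp.ne_zero, rsum_eQ hp.ne_zero, rsum_ite hp.ne_zero (per_eQ m p), mul_zero, eQ_zero]
  split_ifs <;> ring

/-- separability for squarefree moduli -/
theorem gs_sqfree {c : O} (hs : Squarefree c) {j : ℕ} (hj : ¬ 6 ∣ j) (m : O) :
    gs j m c = conj (sx m c) ^ j * gs j 1 c := by
  have hj0 : j ≠ 0 := by rintro rfl; exact hj (dvd_zero 6)
  have hprime : ∀ p, Prime p → gs j m p = conj (sx m p) ^ j * gs j 1 p := by
    intro p hp
    by_cases hm : p ∣ m
    · have h0 : sx m p = 0 :=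
        sx_eq_zero_of_not_coprime fun hh => (hp.coprime_iff_not_dvd.1 hh.symm) hm
      rw [h0, map_zero, zero_pow hj0, zero_mul, gs, FT, ← rsum_sx_pow hp hj]
      congr 1
      funext y
      rw [eQ_of_dvd (hm.mul_right y), mul_one]
    · have := gs_mul_arg j hp.ne_zero (hp.coprime_iff_not_dvd.2 hm).symm 1
      rwa [mul_one] at this
  refine gsa_sqfree_ind (P := fun c => gs j m c = conj (sx m c) ^ j * gs j 1 c) hs
    (fun u hu => ?_) fun p a hp ha _ hpa ih => ?_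
  · simp [gs_unit _ _ hu, sx_unit_right _ hu]
  · rw [gs_mul j hp.ne_zero ha hpa, gs_mul j hp.ne_zero ha hpa, hprime p hp, ih, sx_mul_right,
      map_mul, mul_pow]
    ring

theorem norm_gs {c : O} (hs : Squarefree c) (h6 : IsCoprime c 6) {j : ℕ} (hj : ¬ 6 ∣ j) :
    ‖gs j 1 c‖ = Real.sqrt (nm c) := by
  have hj0 : j ≠ 0 := by rintro rfl; exact hj (dvd_zero 6)
  have hprime : ∀ p, Prime p → IsCoprime p 6 → ‖gs j 1 p‖ = Real.sqrt (nm p) := by
    intro p hp h6
    have hW : ∀ y, sx y p ^ j * conj (sx y p ^ j) = sx y p ^ 6 := by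
      intro y
      rw [map_pow, ← mul_pow, sx_mul_conj, sx_pow_six]
      split_ifs
      · exact one_pow _
      · exact zero_pow hj0
    have hS : rsum p (fun y => sx y p ^ 6) = (nm p : ℂ) - 1 := by
      have := gs_prime_six hp h6 (j := 6) (by norm_num) dvd_rfl 0
      rwa [if_pos (dvd_zero p), gs, FT_zero] at this
    have h1 := FT_parseval hp.ne_zero (gsa_per j p) (gsa_per j p)
    have h2 : ∀ k, FT p (fun y => sx y p ^ j) k * conj (FT p (fun y => sx y p ^ j) k) =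
        sx k p ^ 6 * (gs j 1 p * conj (gs j 1 p)) := by
      intro k
      have h3 : FT p (fun y => sx y p ^ j) k = conj (sx k p) ^ j * gs j 1 p :=
        gs_sqfree hp.squarefree hj k
      rw [h3, ← hW k]
      simp only [map_mul, map_pow, Complex.conj_conj]
      ring
    simp only [h2, hW] at h1
    rw [rsum_mul_right, hS] at h1
    have hne : (nm p : ℂ) - 1 ≠ 0 := by
      have := two_le_nm hp
      have h4 : nm p - 1 ≠ 0 := by linarith
      exact_mod_cast h4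
    have h4 : gs j 1 p * conj (gs j 1 p) = nm p := mul_left_cancel₀ hne (by rw [h1]; ring)
    rw [Complex.mul_conj, Complex.normSq_eq_norm_sq] at h4
    have h5 : ‖gs j 1 p‖ ^ 2 = nm p := by exact_mod_cast h4
    rw [← h5, Real.sqrt_sq (norm_nonneg _)]
  refine gsa_sqfree_ind (P := fun c => IsCoprime c 6 → ‖gs j 1 c‖ = Real.sqrt (nm c)) hs
    (fun u hu _ => ?_) (fun p a hp ha _ hpa ih h6 => ?_) h6
  · simp [gs_unit _ _ hu, nm_unit hu]
  · have hp6 := h6.of_mul_left_left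
    have ha6 := h6.of_mul_left_right
    rw [gs_mul j hp.ne_zero ha hpa, norm_mul, norm_mul, norm_mul, norm_pow, norm_pow,
      norm_sx hp6 hpa.symm, norm_sx ha6 hpa, hprime p hp hp6, ih ha6, nm_mul,
      Real.sqrt_mul (nm_nonneg _)]
    ring

theorem gs_pow_succ (j k : ℕ) (m : O) {p : O} (hp : p ≠ 0) :
    gs j (p ^ k * m) (p ^ (k + 1)) = (nm p : ℂ) ^ k * gs (j * (k + 1)) m p := by
  have h1 : (fun y => sx y (p ^ (k + 1)) ^ j) = fun y => sx y p ^ (j * (k + 1)) := by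
    funext y
    rw [sx_pow_right, ← pow_mul, mul_comm]
  rw [gs, h1, pow_succ' p k, FT_lift hp (pow_ne_zero k hp) (gsa_per _ p), nm_pow, gs]
  push_cast
  ring

theorem gs_pow_succ_zero (j k : ℕ) {m p : O} (hp : p ≠ 0) (h : ¬ p ^ k ∣ m) :
    gs j m (p ^ (k + 1)) = 0 := by
  have h1 : (fun y => sx y (p ^ (k + 1)) ^ j) = fun y => sx y p ^ (j * (k + 1)) := by
    funext y
    rw [sx_pow_right, ← pow_mul, mul_comm]
  rw [gs, h1, pow_succ' p k, FT_lift_zero hp (pow_ne_zero k hp) (gsa_per _ p) h]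

theorem gsa_per_rad (j : ℕ) {r f : O} {k : ℕ} (hf : f ∣ r ^ k) :
    Per r fun y => sx y (r * f) ^ j := by
  intro a b hab
  have : sx a (r * f) = sx b (r * f) := by
    refine sx_congr_rad fun q hq hd => ?_
    rcases hq.dvd_or_dvd hd with h1 | h1
    · exact h1.trans hab
    · exact (hq.dvd_of_dvd_pow (h1.trans hf)).trans hab
  simp only [this]

/-- moduli `r f` with `f ∣ r ^ k` -/
theorem gs_eq_zero_of_not_dvd (j : ℕ) {r f m : O} {k : ℕ} (hr : r ≠ 0) (hf : f ∣ r ^ k)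
    (h : ¬ f ∣ m) : gs j m (r * f) = 0 := by
  exact FT_lift_zero hr (ne_zero_of_dvd_ne_zero (pow_ne_zero k hr) hf) (gsa_per_rad j hf) h

theorem gs_lift (j : ℕ) {r f : O} {k : ℕ} (hr : r ≠ 0) (hf : f ∣ r ^ k) (m : O) :
    gs j (f * m) (r * f) = nm f * FT r (fun y => sx y (r * f) ^ j) m := by
  exact FT_lift hr (ne_zero_of_dvd_ne_zero (pow_ne_zero k hr) hf) (gsa_per_rad j hf) m

theorem gs_three {c : O} (hs : Squarefree c) (h6 : IsCoprime c 6) :
    gs 3 1 c = gam c * (Real.sqrt (nm c) : ℂ) := by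
  have hprime : ∀ p, Prime p → IsCoprime p 6 → gs 3 1 p = gam p * (Real.sqrt (nm p) : ℂ) := by
    intro p hp h6
    have hper : Per p fun y => eQ y p := fun a b hab => eQ_congr hab
    have h0 : rsum p (fun y => eQ y p) = 0 := by
      have := rsum_eQ hp.ne_zero 1
      rw [if_neg hp.not_dvd_one] at this
      simpa only [one_mul] using this
    rw [gam, div_mul_cancel₀ _ (gsa_sqrt_ne hp.ne_zero), rsum_sq hp h6 hper]
    simp only [add_mul, one_mul]
    rw [rsum_add hp.ne_zero, h0, zero_add, gs, FT]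
    simp only [one_mul]
  refine gsa_sqfree_ind
    (P := fun c => IsCoprime c 6 → gs 3 1 c = gam c * (Real.sqrt (nm c) : ℂ)) hs
    (fun u hu _ => ?_) (fun p a hp ha _ hpa ih h6 => ?_) h6
  · simp [gs_unit _ _ hu, nm_unit hu, gam_unit hu]
  · have hp6 := h6.of_mul_left_left
    have ha6 := h6.of_mul_left_right
    have h1 : sx a p ^ 6 = 1 := by rw [sx_pow_six, if_pos ⟨hp6, hpa.symm⟩]
    rw [gs_mul 3 hp.ne_zero ha hpa, hprime p hp hp6, ih ha6, nm_mul, Real.sqrt_mul (nm_nonneg _),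
      gam_mul (coprime_six_iff.1 hp6).1 (coprime_six_iff.1 ha6).1, sx_cube_recip hp6 ha6]
    push_cast
    linear_combination
      (eps p a * gam p * gam a * (Real.sqrt (nm p) : ℂ) * (Real.sqrt (nm a) : ℂ)) * h1

theorem gs_two {c : O} (h2 : IsCoprime c 2) : gs 2 1 c = g3 c * (Real.sqrt (nm c) : ℂ) := by
  have hc : c ≠ 0 := by
    rintro rfl
    exact coprime_two_iff.1 h2 (dvd_zero 2)
  rw [g3, div_mul_cancel₀ _ (gsa_sqrt_ne hc), gs]
  simp only [sx_sq _ h2]

theorem gs_five (m : O) {c : O} (hc : c ≠ 0) : gs 5 m c = sx (-1) c * conj (gs 1 m c) := by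
  rw [conj_gs 1 m hc, pow_one, mul_one]
  by_cases h6 : IsCoprime c 6
  · have h1 := gsa_mul_conj h6 (a := -1) isCoprime_one_left.neg_left
    rw [conj_sx_neg_one] at h1
    rw [← mul_assoc, h1, one_mul]
  · rw [gs_eq_zero_of_not_six (by norm_num) _ h6, mul_zero, mul_zero]

theorem gsa_addChar (p : O) : ∃ ψ : AddChar (O ⧸ Ideal.span {p}) ℂ,
    ∀ y : O, ψ (Ideal.Quotient.mk _ y) = eQ y p := by
  have h : ∀ y : O, eQ (Quotient.out (Ideal.Quotient.mk (Ideal.span {p}) y)) p = eQ y p := by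
    intro y
    refine eQ_congr (Ideal.mem_span_singleton.1 (Ideal.Quotient.eq.1 ?_))
    exact Ideal.Quotient.mk_out _
  refine ⟨⟨fun x => eQ (Quotient.out x) p, ?_, fun a b => ?_⟩, h⟩
  · have := h 0
    rwa [map_zero, eQ_zero] at this
  · obtain ⟨a, rfl⟩ := Ideal.Quotient.mk_surjective a
    obtain ⟨b, rfl⟩ := Ideal.Quotient.mk_surjective b
    rw [← map_add, h, h, h, eQ_add]

theorem gsa_jacobi {p : O} (hp : Prime p) (h6 : IsCoprime p 6) :
    cb 2 p * rsum p (fun y => sx y p ^ 1 * sx (1 - y) p) =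
      rsum p fun y => sx y p ^ 3 * sx (1 - y) p := by
  have hp2 := (coprime_six_iff.1 h6).1
  have hper : Per p fun y => sx (1 - y) p := fun a b hab =>
    sx_congr (by rw [show 1 - a - (1 - b) = -(a - b) by ring]; exact hab.neg_right)
  have hper2 : Per p fun y => sx (1 - y ^ 2) p := fun a b hab =>
    sx_congr (by
      rw [show 1 - a ^ 2 - (1 - b ^ 2) = (a - b) * -(a + b) by ring]; exact hab.mul_right _)
  have h0 : rsum p (fun y => sx (1 - y) p) = 0 := by
    have h1 := rsum_affine hp.ne_zero (a := -1) isCoprime_one_left.neg_left (gsa_per 1 p) 1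
    rw [rsum_sx_pow hp (by norm_num)] at h1
    rw [← h1]
    congr 1
    funext y
    rw [pow_one, show -1 * y + 1 = 1 - y by ring]
  have h1 := rsum_sq hp h6 hper
  simp only [add_mul, one_mul] at h1
  rw [rsum_add hp.ne_zero, h0, zero_add] at h1
  rw [← h1, ← rsum_affine hp.ne_zero (a := -2) hp2.symm.neg_left hper2 1, ← rsum_mul_left]
  congr 1
  funext y
  rw [show 1 - (-2 * y + 1) ^ 2 = 2 * (2 * (y * (1 - y))) by ring, sx_mul_left, sx_mul_left,
    sx_mul_left, ← sx_sq _ hp2]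
  ring

/-- Hasse–Davenport duplication -/
theorem gs_dup {p : O} (hp : Prime p) (h6 : IsCoprime p 6) :
    gs 1 1 p * gs 4 1 p = conj (cb 2 p) * gs 2 1 p * gs 3 1 p := by
  have hp2 := (coprime_six_iff.1 h6).1
  have h2p : IsCoprime 2 p := hp2.symm
  obtain ⟨χ, hord, hχ⟩ := exists_sxChar hp h6
  have hmax : (Ideal.span {p}).IsMaximal :=
    PrincipalIdealRing.isMaximal_of_irreducible hp.irreducible
  have := finite_quot hp.ne_zero
  let := Fintype.ofFinite (O ⧸ Ideal.span {p})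
  let := Ideal.Quotient.field (Ideal.span {p})
  obtain ⟨ψ, hψ⟩ := gsa_addChar p
  have hg : ∀ j : ℕ, j ≠ 0 → gaussSum (χ ^ j) ψ = gs j 1 p := by
    intro j hj
    rw [gaussSum, ← rsum_eq_quot, gs, FT]
    simp only [MulChar.pow_apply' _ hj, hχ, hψ, one_mul]
  have hJ : ∀ j : ℕ, j ≠ 0 →
      jacobiSum (χ ^ j) (χ ^ 1) = rsum p fun y => sx y p ^ j * sx (1 - y) p := by
    intro j hj
    rw [jacobiSum, ← rsum_eq_quot]
    congr 1
    funext y
    rw [MulChar.pow_apply' _ hj, pow_one, hχ, ← hχ (1 - y), map_sub (Ideal.Quotient.mk _), map_one]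
  have hne : ∀ j : ℕ, j + 1 < 6 → χ ^ j * χ ^ 1 ≠ 1 := by
    intro j hj
    rw [← pow_add]
    exact pow_ne_one_of_lt_orderOf (Nat.succ_ne_zero j) (hord ▸ hj)
  have e1 := jacobiSum_mul_nontrivial (hne 1 (by norm_num)) ψ
  have e3 := jacobiSum_mul_nontrivial (hne 3 (by norm_num)) ψ
  rw [← pow_add, hg _ (by norm_num), hg _ (by norm_num), hJ _ (by norm_num)] at e1
  rw [← pow_add, hg _ (by norm_num), hg _ (by norm_num), hg _ (by norm_num),
    hJ _ (by norm_num)] at e3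
  have e4 := gsa_jacobi hp h6
  have h1 : gs 1 1 p ≠ 0 := by
    rw [← norm_ne_zero_iff, norm_gs hp.squarefree h6 (by norm_num)]
    exact (Real.sqrt_pos.2 (nm_pos hp.ne_zero)).ne'
  have h3 : cb 2 p * conj (cb 2 p) = 1 := by
    rw [cb_mul_conj, if_pos ⟨(coprime_six_iff.1 h6).2, h2p⟩]
  apply mul_left_cancel₀ h1
  norm_num only at e1 e3
  linear_combination (-gs 4 1 p) * e1 + conj (cb 2 p) * gs 2 1 p * e3
    + conj (cb 2 p) * gs 2 1 p * gs 4 1 p * e4
    - gs 4 1 p * gs 2 1 p * (rsum p fun y => sx y p ^ 1 * sx (1 - y) p) * h3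

/-- twisted multiplicativity after reciprocity -/
theorem gs_one_mul {a b : O} (ha : Prim a) (hb : Prim b) (ha2 : IsCoprime a 2) (hb2 : IsCoprime b 2)
    (h : IsCoprime a b) (m : O) :
    gs 1 m (a * b) = sx a b ^ 2 * eps a b * gs 1 m a * gs 1 m b := by
  have h1 := eps_mul_self ha2 hb2
  rw [gs_mul 1 ha.ne_zero hb.ne_zero h, sx_recip ha hb ha2 hb2]
  linear_combination (-(sx b a ^ 2 * eps a b * gs 1 m a * gs 1 m b)) * h1

theorem gs_five_mul {a b : O} (ha : Prim a) (hb : Prim b) (ha2 : IsCoprime a 2) (hb2 : IsCoprime b 2)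
    (h : IsCoprime a b) (m : O) :
    gs 5 m (a * b) = conj (sx a b) ^ 2 * eps a b * gs 5 m a * gs 5 m b := by
  have h1 := eps_mul_self ha2 hb2
  rw [gs_mul 5 ha.ne_zero hb.ne_zero h, ← conj_sx, ← conj_sx, sx_recip ha hb ha2 hb2, map_mul,
    conj_eps ha2 hb2]
  linear_combination (-(conj (sx b a) ^ 2 * eps a b * gs 5 m a * gs 5 m b)) * h1

/-! ### Cubic Gauss sums -/

/-- `∑_{y mod c} (y/c)₃^j e(m y / c)` -/
noncomputable def gc (j : ℕ) (m c : O) : ℂ := FT c (fun y => cb y c ^ j) m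

theorem per_gc (j : ℕ) (c : O) : Per c fun m => gc j m c := per_FT _ _

theorem gsb_per (j : ℕ) (c : O) : Per c fun y => cb y c ^ j := (per_cb c).comp (· ^ j)

theorem gsb_sqrt_ne {c : O} (hc : c ≠ 0) : (Real.sqrt (nm c) : ℂ) ≠ 0 := by
  exact_mod_cast (Real.sqrt_pos.2 (nm_pos hc)).ne'

theorem gsb_sqrt_sq (c : O) : (Real.sqrt (nm c) : ℂ) ^ 2 = nm c := by
  exact_mod_cast Real.sq_sqrt (nm_nonneg c)

theorem gsb_sqrt_mul (a b : O) :
    (Real.sqrt (nm (a * b)) : ℂ) = Real.sqrt (nm a) * Real.sqrt (nm b) := by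
  rw [nm_mul, Real.sqrt_mul (nm_nonneg a)]; push_cast; rfl

theorem gsb_FT_const (Q : O) (a : ℂ) (Ψ : O → ℂ) (k : O) :
    FT Q (fun y => a * Ψ y) k = a * FT Q Ψ k := by
  simp only [FT, mul_assoc, rsum_mul_left]

theorem gc_one {c : O} (hc : c ≠ 0) : gc 1 1 c = g3 c * (Real.sqrt (nm c) : ℂ) := by
  simp only [gc, g3, pow_one]
  rw [div_mul_cancel₀ _ (gsb_sqrt_ne hc)]

theorem gc_unit (j : ℕ) (m : O) {c : O} (h : IsUnit c) : gc j m c = 1 := by
  rw [gc, FT, rsum_unit h ((gsb_per j c).mul (per_eQ m c))]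
  simp [cb_unit_right _ h]

theorem gc_add_three {j : ℕ} (hj : j ≠ 0) (m c : O) : gc (j + 3) m c = gc j m c := by
  simp only [gc, cb_pow_add_three _ _ hj]

theorem norm_gc_le (j : ℕ) (m : O) {c : O} (hc : c ≠ 0) : ‖gc j m c‖ ≤ nm c := by
  have := norm_FT_le hc (Ψ := fun y => cb y c ^ j) (B := 1)
    (fun y => by rw [norm_pow]; exact pow_le_one₀ (norm_nonneg _) (norm_cb_le y c)) m
  rwa [mul_one] at this

theorem gc_unit_mul (j : ℕ) {u : O} (hu : IsUnit u) (m c : O) :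
    gc j (u * m) (u * c) = gc j m c := by
  rw [gc, FT_unit_mul hu, gc]
  simp only [cb_mul_right, cb_unit_right _ hu, one_mul]

theorem gsb_zero {j : ℕ} (hj : j ≠ 0) (m : O) {c : O} (h3 : ¬ IsCoprime c 3) : gc j m c = 0 := by
  simp [gc, FT, cb_eq_zero_of_not_three h3, hj]

theorem gc_mul_arg (j : ℕ) {a c : O} (hc : c ≠ 0) (h : IsCoprime a c) (m : O) :
    gc j (a * m) c = conj (cb a c) ^ j * gc j m c := by
  have key : cb a c ^ j * gc j (a * m) c = gc j m c := by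
    rw [gc, gc, ← FT_mul_arg hc h (gsb_per j c) m, ← gsb_FT_const]
    simp only [cb_mul_left, mul_pow]
  by_cases h3 : IsCoprime c 3
  · have h1 : cb a c * conj (cb a c) = 1 := by rw [cb_mul_conj, if_pos ⟨h3, h⟩]
    rw [← key, ← mul_assoc, ← mul_pow, mul_comm (conj _), h1, one_pow, one_mul]
  · rcases eq_or_ne j 0 with rfl | hj
    · simpa using key
    · rw [gsb_zero hj _ h3, gsb_zero hj _ h3, mul_zero]

theorem conj_gc (j : ℕ) (m : O) {c : O} (hc : c ≠ 0) : conj (gc j m c) = gc (2 * j) m c := by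
  rw [gc, conj_FT, gc, ← FT_mul_arg hc (a := -1) isCoprime_one_left.neg_left (gsb_per (2 * j) c) m]
  simp only [map_pow, conj_cb, neg_mul, one_mul, cb_neg_left, pow_mul]

theorem gc_mul (j : ℕ) {c₁ c₂ : O} (h₁ : c₁ ≠ 0) (h₂ : c₂ ≠ 0) (h : IsCoprime c₁ c₂) (m : O) :
    gc j m (c₁ * c₂) = cb c₂ c₁ ^ j * cb c₁ c₂ ^ j * gc j m c₁ * gc j m c₂ := by
  have := FT_crt h₁ h₂ h (gsb_per j c₁) (gsb_per j c₂) m
  simp only [cb_mul_left, mul_pow, gsb_FT_const] at this
  simp only [gc, cb_mul_right, mul_pow, this]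
  ring

open Classical in
theorem gc_prime_three {p : O} (hp : Prime p) (h3 : IsCoprime p 3) {j : ℕ} (hj : j ≠ 0) (h : 3 ∣ j)
    (m : O) : gc j m p = if p ∣ m then (nm p : ℂ) - 1 else -1 := by
  obtain ⟨i, rfl⟩ := h
  have hi : i ≠ 0 := by rintro rfl; simp at hj
  have e : (fun y => cb y p ^ (3 * i) * eQ (m * y) p) =
      fun y => eQ (m * y) p - if p ∣ y - 0 then eQ (m * y) p else 0 := by
    funext y
    rw [pow_mul, cb_pow_three, sub_zero]
    by_cases hy : p ∣ y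
    · rw [if_pos hy, if_neg (fun h' => hp.not_isUnit (h'.2.symm.isUnit_of_dvd hy))]
      simp [hi]
    · rw [if_neg hy, if_pos ⟨h3, (hp.coprime_iff_not_dvd.2 hy).symm⟩]
      simp
  rw [gc, FT, e, rsum_sub hp.ne_zero, rsum_eQ hp.ne_zero, rsum_ite hp.ne_zero (per_eQ m p)]
  split_ifs <;> simp

theorem gc_sqfree {c : O} (hs : Squarefree c) {j : ℕ} (hj : ¬ 3 ∣ j) (m : O) :
    gc j m c = conj (cb m c) ^ j * gc j 1 c := by
  have hc : c ≠ 0 := hs.ne_zero
  have hj0 : j ≠ 0 := by rintro rfl; simp at hj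
  by_cases h : IsCoprime m c
  · rw [← gc_mul_arg j hc h, mul_one]
  · rw [cb_eq_zero_of_not_coprime h, map_zero, zero_pow hj0, zero_mul]
    obtain ⟨p, hp, hpm, c', rfl⟩ : ∃ p, Prime p ∧ p ∣ m ∧ p ∣ c := by
      by_contra hcon
      push Not at hcon
      exact h (isCoprime_of_prime_dvd (fun h' => hc h'.2) hcon)
    have hc' : c' ≠ 0 := right_ne_zero_of_mul hc
    have hcop : IsCoprime p c' := hp.coprime_iff_not_dvd.2 fun hd =>
      hp.not_isUnit (hs p (mul_dvd_mul_left p hd))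
    have h0 : gc j m p = 0 := by
      rw [gc, FT, ← rsum_cb_pow hp hj]
      congr 1
      funext y
      rw [eQ_of_dvd (hpm.mul_right y), mul_one]
    rw [gc_mul j hp.ne_zero hc' hcop, h0]
    simp

theorem norm_gc {c : O} (hs : Squarefree c) (h3 : IsCoprime c 3) {j : ℕ} (hj : ¬ 3 ∣ j) :
    ‖gc j 1 c‖ = Real.sqrt (nm c) := by
  have hc : c ≠ 0 := hs.ne_zero
  have h1 := FT_parseval hc (gsb_per j c) (gsb_per j c)
  have h2 : (fun k => FT c (fun y => cb y c ^ j) k * conj (FT c (fun y => cb y c ^ j) k)) =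
      fun k => (gc j 1 c * conj (gc j 1 c)) * (cb k c ^ j * conj (cb k c ^ j)) := by
    funext k
    rw [← gc, gc_sqfree hs hj k]
    simp only [map_mul, map_pow, Complex.conj_conj]
    ring
  have h4 : rsum c (fun y => cb y c ^ j * conj (cb y c ^ j)) ≠ 0 := by
    rw [rsum_eq_sum hc]
    simp only [Complex.mul_conj']
    obtain ⟨y, hy, hy1⟩ := exists_res hc 1
    have hpos : 0 < ∑ y ∈ res c, ‖cb y c ^ j‖ ^ 2 := by
      refine Finset.sum_pos' (fun _ _ => by positivity) ⟨y, hy, ?_⟩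
      rw [← cb_congr hy1, cb_one_left, if_pos h3]
      simp
    exact_mod_cast hpos.ne'
  rw [h2, rsum_mul_left] at h1
  have h5 := mul_right_cancel₀ h4 h1
  rw [Complex.mul_conj'] at h5
  have h6 : ‖gc j 1 c‖ ^ 2 = nm c := by exact_mod_cast h5
  rw [← h6, Real.sqrt_sq (norm_nonneg _)]

theorem gc_pow_succ (j k : ℕ) (m : O) {p : O} (hp : p ≠ 0) :
    gc j (p ^ k * m) (p ^ (k + 1)) = (nm p : ℂ) ^ k * gc (j * (k + 1)) m p := by
  have := FT_lift hp (pow_ne_zero k hp) (gsb_per (j * (k + 1)) p) m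
  rw [nm_pow, ← pow_succ'] at this
  simp only [gc, cb_pow_right, ← pow_mul, mul_comm (k + 1) j, this]
  push_cast
  rfl

theorem gc_pow_succ_zero (j k : ℕ) {m p : O} (hp : p ≠ 0) (h : ¬ p ^ k ∣ m) :
    gc j m (p ^ (k + 1)) = 0 := by
  have := FT_lift_zero hp (pow_ne_zero k hp) (gsb_per (j * (k + 1)) p) h
  rw [← pow_succ'] at this
  simp only [gc, cb_pow_right, ← pow_mul, mul_comm (k + 1) j, this]

theorem gs_two_mul (j : ℕ) (m : O) {c : O} (h2 : IsCoprime c 2) : gs (2 * j) m c = gc j m c := by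
  simp only [gs, gc, pow_mul, sx_sq _ h2]

@[simp] theorem g3_one : g3 1 = 1 := by
  have := gc_one (c := 1) one_ne_zero
  rw [gc_unit _ _ isUnit_one] at this
  simpa using this.symm

theorem g3_mul {a b : O} (ha : a ≠ 0) (hb : b ≠ 0) (h : IsCoprime a b) :
    g3 (a * b) = cb a b * cb b a * g3 a * g3 b := by
  have := gc_mul 1 ha hb h 1
  rw [gc_one ha, gc_one hb, gc_one (mul_ne_zero ha hb), gsb_sqrt_mul] at this
  refine mul_right_cancel₀ (mul_ne_zero (gsb_sqrt_ne ha) (gsb_sqrt_ne hb)) ?_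
  rw [this]
  ring

theorem g3_mul_prim {a b : O} (ha : Prim a) (hb : Prim b) (h : IsCoprime a b) :
    g3 (a * b) = conj (cb a b) * g3 a * g3 b := by
  rw [g3_mul ha.ne_zero hb.ne_zero h, cb_recip hb ha, conj_cb, sq]

theorem norm_g3 {c : O} (hs : Squarefree c) (h3 : IsCoprime c 3) : ‖g3 c‖ = 1 := by
  have h1 := norm_gc hs h3 (j := 1) (by norm_num)
  have h2 : 0 < Real.sqrt (nm c) := Real.sqrt_pos.2 (nm_pos hs.ne_zero)
  rw [gc_one hs.ne_zero, norm_mul, Complex.norm_real, Real.norm_of_nonneg h2.le] at h1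
  exact mul_right_cancel₀ h2.ne' (by rw [h1, one_mul])

theorem gsb_g3_conj {c : O} (hs : Squarefree c) (h3 : IsCoprime c 3) : g3 c * conj (g3 c) = 1 := by
  rw [Complex.mul_conj', norm_g3 hs h3]; simp

theorem gsb_conj_gc {c : O} (hc : c ≠ 0) : gc 2 1 c = conj (g3 c) * (Real.sqrt (nm c) : ℂ) := by
  rw [← mul_one 2, ← conj_gc 1 1 hc, gc_one hc, map_mul, Complex.conj_ofReal]

/-- `g² = J g(χ²)` -/
theorem gsb_sq {p : O} (hp : Prime p) (h : Prim p) : gc 1 1 p ^ 2 = -sg p * gc 2 1 p := by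
  have h0 := hp.ne_zero
  have hper : ∀ s, Per p fun x => cb x p * cb (s - x) p := fun s a b hab => by
    have : p ∣ (s - a) - (s - b) := by
      have e : (s - a) - (s - b) = -(a - b) := by ring
      rw [e]; exact hab.neg_right
    simp only [cb_congr hab, cb_congr this]
  have hin : ∀ s, rsum p (fun x => cb x p * cb (s - x) p) = -sg p * cb s p ^ 2 := by
    intro s
    by_cases hs : p ∣ s
    · rw [(cb_prime_eq_zero hp h.coprime_three).2 hs, zero_pow two_ne_zero, mul_zero,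
        ← rsum_cb_pow hp (j := 2) (by norm_num)]
      congr 1
      funext x
      have : p ∣ (s - x) - (-x) := by simpa using hs
      rw [cb_congr this, cb_neg_left, sq]
    · rw [← rsum_mul_arg h0 (hp.coprime_iff_not_dvd.2 hs).symm (hper s), ← jacobi_cb hp h,
        ← rsum_mul_right]
      congr 1
      funext x
      have e : s - s * x = s * (1 - x) := by ring
      rw [e, cb_mul_left, cb_mul_left]
      ring
  have h1 : ∀ x, rsum p (fun y => cb y p ^ 1 * eQ (1 * y) p) =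
      rsum p fun s => cb (s - x) p * eQ (s - x) p := fun x => by
    rw [← rsum_shift h0 ((gsb_per 1 p).mul (per_eQ 1 p)) (-x)]
    simp only [pow_one, one_mul, sub_eq_add_neg]
  calc gc 1 1 p ^ 2 = rsum p (fun x => cb x p ^ 1 * eQ (1 * x) p *
        rsum p (fun y => cb y p ^ 1 * eQ (1 * y) p)) := by rw [rsum_mul_right, sq]; rfl
    _ = rsum p (fun x => rsum p fun s => cb x p * cb (s - x) p * eQ s p) := by
        congr 1
        funext x
        rw [h1 x, ← rsum_mul_left]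
        congr 1
        funext s
        have e : eQ s p = eQ x p * eQ (s - x) p := by rw [← eQ_add, add_sub_cancel]
        rw [e, pow_one, one_mul]
        ring
    _ = rsum p (fun s => -sg p * (cb s p ^ 2 * eQ (1 * s) p)) := by
        rw [rsum_comm h0 h0]
        congr 1
        funext s
        rw [rsum_mul_right, hin, one_mul, mul_assoc]
    _ = -sg p * gc 2 1 p := by rw [rsum_mul_left]; rfl

theorem gsb_cube_prime {p : O} (hp : Prime p) (h : Prim p) : g3 p ^ 3 = -al p := by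
  have h0 := hp.ne_zero
  have h1 := gsb_sq hp h
  have h2 := gsb_g3_conj hp.squarefree h.coprime_three
  rw [gc_one h0, gsb_conj_gc h0, sg_eq_al] at h1
  have h3 : g3 p ^ 2 = -al p * conj (g3 p) :=
    mul_right_cancel₀ (pow_ne_zero 2 (gsb_sqrt_ne h0)) (by linear_combination h1)
  linear_combination g3 p * h3 - al p * h2

theorem g3_cube {c : O} (hc : Prim c) (hs : Squarefree c) : g3 c ^ 3 = mu c * al c := by
  refine hc.induction_sqfree (P := fun c => g3 c ^ 3 = mu c * al c) hs (by simp)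
    fun p m hp hpp hm _ hpm ih => ?_
  have hcop : IsCoprime p m := hp.coprime_iff_not_dvd.2 hpm
  have h1 : conj (cb p m) ^ 3 = 1 := by
    rw [← map_pow, cb_pow_three, if_pos ⟨hm.coprime_three, hcop⟩, map_one]
  rw [g3_mul_prim hpp hm hcop, mul_pow, mul_pow, h1, gsb_cube_prime hp hpp, ih, mu_mul hcop,
    mu_prime hp, al_mul]
  ring

theorem gsb_mu_prime {p : O} (hp : Prime p) (h : Prim p) (h2 : IsCoprime p 2) :
    mu p * gs 1 1 p / (Real.sqrt (nm p) : ℂ) = conj (cb 2 p) * gam p * al p * conj (g3 p) := by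
  have h0 := hp.ne_zero
  have h1 := gs_dup hp (h.coprime_six h2)
  have h4 : gs 4 1 p = conj (g3 p) * (Real.sqrt (nm p) : ℂ) := by
    rw [← gsb_conj_gc h0, ← gs_two_mul 2 1 h2]
  rw [h4, gs_two h2, gs_three hp.squarefree (h.coprime_six h2)] at h1
  have h5 := gsb_g3_conj hp.squarefree h.coprime_three
  have h6 := gsb_cube_prime hp h
  have h7 : gs 1 1 p * conj (g3 p) = conj (cb 2 p) * g3 p * gam p * (Real.sqrt (nm p) : ℂ) :=
    mul_right_cancel₀ (gsb_sqrt_ne h0) (by linear_combination h1)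
  have h8 : g3 p ^ 2 = -al p * conj (g3 p) := by
    linear_combination conj (g3 p) * h6 - g3 p ^ 2 * h5
  rw [mu_prime hp, div_eq_iff (gsb_sqrt_ne h0)]
  linear_combination (-g3 p) * h7 + gs 1 1 p * h5 -
    conj (cb 2 p) * gam p * (Real.sqrt (nm p) : ℂ) * h8

/-- the Möbius function is a quotient of Gauss sums -/
theorem mu_mul_gs_one {c : O} (hc : Prim c) (hs : Squarefree c) (h2 : IsCoprime c 2) :
    mu c * gs 1 1 c / (Real.sqrt (nm c) : ℂ) = conj (cb 2 c) * gam c * al c * conj (g3 c) := by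
  revert h2
  refine hc.induction_sqfree (P := fun c => IsCoprime c 2 →
    mu c * gs 1 1 c / (Real.sqrt (nm c) : ℂ) = conj (cb 2 c) * gam c * al c * conj (g3 c)) hs
    (fun _ => by simp [gs_unit _ _ isUnit_one]) fun p m hp hpp hm _ hpm ih h2 => ?_
  have hcop : IsCoprime p m := hp.coprime_iff_not_dvd.2 hpm
  have hp2 : IsCoprime p 2 := h2.of_mul_left_left
  have hm2 : IsCoprime m 2 := h2.of_mul_left_right
  have e1 := gsb_mu_prime hp hpp hp2
  have e2 := ih hm2
  rw [mu_mul hcop, gs_one_mul hpp hm hp2 hm2 hcop, sx_sq _ hm2, gsb_sqrt_mul, cb_mul_right,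
    gam_mul hp2 hm2, al_mul, g3_mul_prim hpp hm hcop]
  simp only [map_mul, Complex.conj_conj]
  calc _ = cb p m * eps p m * (mu p * gs 1 1 p / (Real.sqrt (nm p) : ℂ)) *
        (mu m * gs 1 1 m / (Real.sqrt (nm m) : ℂ)) := by ring
    _ = _ := by rw [e1, e2]; ring

end Crest.Agent.R17
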