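import Crest.Agent.R17.A.Rsum
import Crest.Agent.R17.A.Count

/-!
Row 17, block A0: Poisson summation for Gaussians on the self-dual lattice `O`.
-/

set_option autoImplicit false

namespace Crest.Agent.R17

open scoped ComplexConjugate

theorem gw_pos (K : ℝ) (k : O) : 0 < gw K k := Real.exp_pos _

theorem poa_c_bounds : 2 ≤ 2 * Real.pi / Real.sqrt 3 ∧ 2 * Real.pi / Real.sqrt 3 ≤ 4 := by
  have h3 : (0 : ℝ) < Real.sqrt 3 := by positivity
  have h1 : Real.sqrt 3 ≤ 2 := Real.sqrt_le_iff.2 ⟨by norm_num, by norm_num⟩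
  have h2 : (1.6 : ℝ) ≤ Real.sqrt 3 := Real.le_sqrt_of_sq_le (by norm_num)
  constructor
  · rw [le_div_iff₀ h3]
    linarith [Real.pi_gt_three]
  · rw [div_le_iff₀ h3]
    linarith [Real.pi_lt_d2]

theorem poa_gw_eq (K : ℝ) (k : O) :
    gw K k = Real.exp (-(2 * Real.pi / Real.sqrt 3 / K * nm k)) := by
  unfold gw
  congr 2
  ring

@[simp] theorem gw_zero (K : ℝ) : gw K 0 = 1 := by
  simp [gw]

theorem gw_le_one {K : ℝ} (hK : 0 < K) (k : O) : gw K k ≤ 1 := by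
  rw [poa_gw_eq, Real.exp_le_one_iff, neg_nonpos]
  have := nm_nonneg k
  positivity

/-- `exp (-4) ≤ gw K k` on `N(k) ≤ K` -/
theorem le_gw {K : ℝ} (hK : 0 < K) {k : O} (h : nm k ≤ K) : Real.exp (-4) ≤ gw K k := by
  rw [poa_gw_eq, Real.exp_le_exp, neg_le_neg_iff]
  have h1 := poa_c_bounds
  calc 2 * Real.pi / Real.sqrt 3 / K * nm k ≤ 2 * Real.pi / Real.sqrt 3 / K * K := by
        gcongr
    _ = 2 * Real.pi / Real.sqrt 3 := by field_simp
    _ ≤ 4 := h1.2

theorem gw_mul {K : ℝ} {d : O} (hd : d ≠ 0) (k : O) : gw K (d * k) = gw (K / nm d) k := by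
  rw [poa_gw_eq, poa_gw_eq, nm_mul, div_div_eq_mul_div]
  congr 2
  ring

theorem gw_mono {K K' : ℝ} (hK : 0 < K) (h : K ≤ K') (k : O) : gw K k ≤ gw K' k := by
  rw [poa_gw_eq, poa_gw_eq, Real.exp_le_exp, neg_le_neg_iff]
  have := nm_nonneg k
  gcongr

theorem poa_hasSum {q : ℝ} (h0 : 0 ≤ q) (h1 : q < 1) (m : ℕ) :
    HasSum (fun j : ℕ => if m ≤ j then (1 - q) * q ^ j else 0) (q ^ m) := by
  refine (hasSum_nat_add_iff' m).1 ?_
  have h2 : ∑ i ∈ Finset.range m, (if m ≤ i then (1 - q) * q ^ i else 0) = 0 :=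
    Finset.sum_eq_zero fun i hi => if_neg (by simpa using hi)
  rw [h2, sub_zero]
  have h3 := (hasSum_geometric_of_lt_one h0 h1).mul_left ((1 - q) * q ^ m)
  have h4 : (1 - q) ≠ 0 := by linarith
  have h5 : (1 - q) * q ^ m * (1 - q)⁻¹ = q ^ m := by field_simp
  rw [h5] at h3
  refine h3.congr_fun fun n => ?_
  rw [if_pos (by omega), pow_add]
  ring

theorem sum_exp_neg_nm_le {x : ℝ} (hx : 0 < x) {A : Finset O} (h : ∀ k ∈ A, k ≠ 0) :
    ∑ k ∈ A, Real.exp (-(x * nm k)) ≤ 11 / x := by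
  classical
  set q := Real.exp (-x) with hq
  have h0 : 0 < q := Real.exp_pos _
  have h1 : q < 1 := by
    rw [hq, Real.exp_lt_one_iff]
    linarith
  have h2 : ∀ k : O, Real.exp (-(x * nm k)) = q ^ nN k := by
    intro k
    rw [hq, ← Real.exp_nat_mul, nm]
    congr 1
    ring
  simp_rw [h2]
  have h3 := hasSum_sum (s := A) fun k _ => poa_hasSum h0.le h1 (nN k)
  have h4 := (hasSum_coe_mul_geometric_of_norm_lt_one (r := q)
    (by rwa [Real.norm_of_nonneg h0.le])).mul_left (11 * (1 - q))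
  have h5 : ∑ k ∈ A, q ^ nN k ≤ 11 * (1 - q) * (q / (1 - q) ^ 2) := by
    refine hasSum_le (fun j => ?_) h3 h4
    rw [← Finset.sum_filter, Finset.sum_const, nsmul_eq_mul]
    have h6 : ((A.filter fun k => nN k ≤ j).card : ℝ) ≤ 11 * j := by
      refine card_le_of_nm_le (Nat.cast_nonneg j) fun n hn => ?_
      rw [Finset.mem_filter] at hn
      exact ⟨h n hn.1, by unfold nm; exact_mod_cast hn.2⟩
    have h7 : 0 ≤ (1 - q) * q ^ j := mul_nonneg (by linarith) (by positivity)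
    calc _ ≤ 11 * j * ((1 - q) * q ^ j) := mul_le_mul_of_nonneg_right h6 h7
      _ = _ := by ring
  refine h5.trans ?_
  have h8 : 0 < 1 - q := by linarith
  have h9 : (x + 1) * q ≤ 1 := by
    have := Real.add_one_le_exp x
    calc (x + 1) * q ≤ Real.exp x * q := by gcongr
      _ = 1 := by rw [hq, ← Real.exp_add, add_neg_cancel, Real.exp_zero]
  have h10 : 11 * (1 - q) * (q / (1 - q) ^ 2) = 11 * q / (1 - q) := by field_simp
  rw [h10, div_le_div_iff₀ h8 hx]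
  nlinarith

theorem sum_gw_le {K : ℝ} (hK : 0 < K) {A : Finset O} (h : ∀ k ∈ A, k ≠ 0) :
    ∑ k ∈ A, gw K k ≤ 11 * K := by
  have h1 := poa_c_bounds
  simp_rw [poa_gw_eq]
  refine (sum_exp_neg_nm_le (by positivity) h).trans ?_
  rw [div_div_eq_mul_div, div_le_iff₀ (by positivity)]
  nlinarith [h1.1]

theorem poa_sum_le {K : ℝ} (hK : 0 < K) (A : Finset O) : ∑ k ∈ A, gw K k ≤ 1 + 11 * K := by
  classical
  have h1 : ∑ k ∈ A.erase 0, gw K k ≤ 11 * K := sum_gw_le hK fun k hk => Finset.ne_of_mem_erase hk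
  by_cases h : (0 : O) ∈ A
  · rw [← Finset.add_sum_erase _ _ h, gw_zero]
    linarith
  · rw [Finset.erase_eq_of_notMem h] at h1
    linarith

theorem summable_gw {K : ℝ} (hK : 0 < K) : Summable (gw K) := by
  exact summable_of_sum_le (fun k => (gw_pos K k).le) (poa_sum_le hK)

theorem summable_rpow_mul_gw {K : ℝ} (hK : 0 < K) (A : ℝ) :
    Summable fun k : O => nm k ^ A * gw K k := by
  set c : ℝ := 2 * Real.pi / Real.sqrt 3 / (2 * K) with hc
  have hc0 : 0 < c := by positivity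
  set n := ⌈A⌉₊ with hn
  set C : ℝ := (n.factorial : ℝ) / c ^ n with hC
  have hC0 : 0 ≤ C := by positivity
  refine Summable.of_nonneg_of_le
    (fun k => mul_nonneg (Real.rpow_nonneg (nm_nonneg k) _) (gw_pos K k).le) (fun k => ?_)
    ((summable_gw (K := 2 * K) (by positivity)).mul_left (C + 1))
  by_cases hk : k = 0
  · subst hk
    rw [nm_zero, gw_zero, gw_zero, mul_one, mul_one]
    linarith [Real.zero_rpow_le_one A]
  · have h1 := one_le_nm hk
    have h2 : nm k ^ A ≤ nm k ^ n := by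
      rw [← Real.rpow_natCast]
      exact Real.rpow_le_rpow_of_exponent_le h1 (Nat.le_ceil A)
    have h3 := Real.pow_div_factorial_le_exp (c * nm k) (by positivity) n
    have h4 : nm k ^ n ≤ C * Real.exp (c * nm k) := by
      rw [div_le_iff₀ (by positivity), mul_pow] at h3
      rw [hC, div_mul_eq_mul_div, le_div_iff₀ (by positivity)]
      linarith
    have h5 : Real.exp (c * nm k) * gw K k = gw (2 * K) k := by
      rw [poa_gw_eq, poa_gw_eq, ← Real.exp_add, hc]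
      congr 1
      field_simp
      ring
    have h6 := gw_pos K k
    have h7 := gw_pos (2 * K) k
    calc nm k ^ A * gw K k ≤ C * Real.exp (c * nm k) * gw K k := by
          gcongr
          exact h2.trans h4
      _ = C * gw (2 * K) k := by rw [mul_assoc, h5]
      _ ≤ (C + 1) * gw (2 * K) k := by gcongr; linarith

open Classical in
theorem tsum_gw_ne_zero_le {K : ℝ} (hK : 0 < K) :
    ∑' k : O, (if k = 0 then 0 else gw K k) ≤ 11 * K := by
  refine Real.tsum_le_of_sum_le (fun k => ?_) fun A => ?_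
  · dsimp only
    split_ifs
    · exact le_rfl
    · exact (gw_pos K k).le
  · have h1 : ∑ k ∈ A, (if k = 0 then 0 else gw K k) = ∑ k ∈ A.filter (· ≠ 0), gw K k := by
      rw [Finset.sum_filter]
      refine Finset.sum_congr rfl fun k _ => ?_
      by_cases hk : k = 0 <;> simp [hk]
    rw [h1]
    exact sum_gw_le hK fun k hk => (Finset.mem_filter.1 hk).2

theorem tsum_gw_le {K : ℝ} (hK : 0 < K) : ∑' k, gw K k ≤ 1 + 11 * K := by
  exact Real.tsum_le_of_sum_le (fun k => (gw_pos K k).le) (poa_sum_le hK)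

theorem sum_gw_tail {K X : ℝ} (hK : 0 < K) {A : Finset O} (h : ∀ k ∈ A, k ≠ 0 ∧ X ≤ nm k) :
    ∑ k ∈ A, gw K k ≤ 22 * K * Real.exp (-(X / K)) := by
  have h1 : ∀ k ∈ A, gw K k ≤ Real.exp (-(X / K)) * gw (2 * K) k := by
    intro k hk
    rw [poa_gw_eq, poa_gw_eq, ← Real.exp_add, Real.exp_le_exp]
    have h2 := poa_c_bounds.1
    have h3 := nm_nonneg k
    have h4 := (h k hk).2
    set c := 2 * Real.pi / Real.sqrt 3
    have h5 : X / K ≤ c / (2 * K) * nm k := by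
      rw [div_mul_eq_mul_div, div_le_div_iff₀ hK (by positivity)]
      have : 2 * X ≤ c * nm k := by nlinarith
      nlinarith
    have h6 : c / K * nm k = 2 * (c / (2 * K) * nm k) := by field_simp
    linarith
  calc ∑ k ∈ A, gw K k ≤ ∑ k ∈ A, Real.exp (-(X / K)) * gw (2 * K) k := Finset.sum_le_sum h1
    _ = Real.exp (-(X / K)) * ∑ k ∈ A, gw (2 * K) k := by rw [Finset.mul_sum]
    _ ≤ Real.exp (-(X / K)) * (11 * (2 * K)) := by
      gcongr
      exact sum_gw_le (by positivity) fun k hk => (h k hk).1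
    _ = 22 * K * Real.exp (-(X / K)) := by ring

theorem pob_summable1 {δ : ℝ} (hδ : 0 < δ) (β : ℝ) :
    Summable fun n : ℤ => Real.exp (-Real.pi * n ^ 2 * δ + 2 * Real.pi * n * β) := by
  have h := ((summable_jacobiTheta₂_term_iff ((-β : ℝ) * Complex.I) (δ * Complex.I)).mpr
    (by simpa using hδ)).norm
  refine h.congr fun n => ?_
  rw [norm_jacobiTheta₂_term]
  congr 1
  simp

/-- the general Gaussian on `ℤ²` -/
noncomputable def pob_F (A B C b₁ b₂ c : ℂ) (p : ℤ × ℤ) : ℂ :=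
  Complex.exp (-Real.pi * (A * p.1 ^ 2 + 2 * B * p.1 * p.2 + C * p.2 ^ 2) +
    2 * Real.pi * (b₁ * p.1 + b₂ * p.2) + c)

theorem pob_summable {A B C : ℂ} (hA : 0 < A.re) (hD : B.re ^ 2 < A.re * C.re) (b₁ b₂ c : ℂ) :
    Summable (pob_F A B C b₁ b₂ c) := by
  have hC : 0 < C.re := by
    by_contra h
    nlinarith [sq_nonneg B.re]
  set δ : ℝ := (A.re * C.re - B.re ^ 2) / (A.re + C.re) with hδ
  have hδ0 : 0 < δ := div_pos (by linarith) (by linarith)
  have hq : ∀ x y : ℝ, δ * (x ^ 2 + y ^ 2) ≤ A.re * x ^ 2 + 2 * B.re * x * y + C.re * y ^ 2 := by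
    intro x y
    rw [hδ, div_mul_eq_mul_div, div_le_iff₀ (by linarith)]
    nlinarith [sq_nonneg (A.re * x + B.re * y), sq_nonneg (B.re * x + C.re * y)]
  have hs := ((pob_summable1 hδ0 b₁.re).mul_of_nonneg (pob_summable1 hδ0 b₂.re)
    (fun _ => (Real.exp_pos _).le) (fun _ => (Real.exp_pos _).le)).mul_right (Real.exp c.re)
  refine Summable.of_norm_bounded hs fun p => ?_
  rw [pob_F, Complex.norm_exp, ← Real.exp_add, ← Real.exp_add, Real.exp_le_exp]
  have e : (-Real.pi * (A * p.1 ^ 2 + 2 * B * p.1 * p.2 + C * p.2 ^ 2) +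
      2 * Real.pi * (b₁ * p.1 + b₂ * p.2) + c : ℂ).re =
      -Real.pi * (A.re * p.1 ^ 2 + 2 * B.re * p.1 * p.2 + C.re * p.2 ^ 2) +
      2 * Real.pi * (b₁.re * p.1 + b₂.re * p.2) + c.re := by
    simp [pow_two]
  rw [e]
  nlinarith [mul_le_mul_of_nonneg_left (hq p.1 p.2) Real.pi_pos.le]

theorem pob_pd {A B C : ℂ} (hA : 0 < A.re) (hD : B.re ^ 2 < A.re * C.re) :
    0 < (C - B ^ 2 / A).re ∧ (-Complex.I * B / A).re ^ 2 < (C - B ^ 2 / A).re * (1 / A).re := by
  have hn : 0 < A.re ^ 2 + A.im ^ 2 := by positivity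
  have h1 : (1 / A).re = A.re / (A.re ^ 2 + A.im ^ 2) := by
    simp [Complex.normSq_apply, pow_two]
  have h2 : (C - B ^ 2 / A).re * (1 / A).re - (-Complex.I * B / A).re ^ 2 =
      (A.re * C.re - B.re ^ 2) / (A.re ^ 2 + A.im ^ 2) := by
    rw [h1]
    simp only [Complex.sub_re, Complex.div_re, Complex.normSq_apply, pow_two, Complex.mul_re,
      Complex.mul_im, Complex.neg_re, Complex.neg_im, Complex.I_re, Complex.I_im]
    have hn' : A.re * A.re + A.im * A.im ≠ 0 := by nlinarith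
    field_simp
    ring
  have h3 : 0 < (A.re * C.re - B.re ^ 2) / (A.re ^ 2 + A.im ^ 2) := div_pos (by linarith) hn
  have h4 : 0 < (1 / A).re := by rw [h1]; exact div_pos hA hn
  refine ⟨?_, by linarith⟩
  by_contra h
  nlinarith [sq_nonneg (-Complex.I * B / A).re]

/-- Poisson summation in the first variable (the variables are swapped afterwards) -/
theorem pob_step {A B C : ℂ} (hA : 0 < A.re) (hD : B.re ^ 2 < A.re * C.re) (b₁ b₂ c : ℂ) :
    ∑' p, pob_F A B C b₁ b₂ c p = 1 / A ^ (1 / 2 : ℂ) *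
      ∑' p, pob_F (C - B ^ 2 / A) (-Complex.I * B / A) (1 / A) (b₂ - B * b₁ / A)
        (-Complex.I * b₁ / A) (c + Real.pi * b₁ ^ 2 / A) p := by
  have hA0 : A ≠ 0 := fun h => by simp [h] at hA
  have h1 := pob_summable hA hD b₁ b₂ c
  have h2 := pob_summable (pob_pd hA hD).1 (pob_pd hA hD).2 (b₂ - B * b₁ / A)
    (-Complex.I * b₁ / A) (c + Real.pi * b₁ ^ 2 / A)
  have h1' : Summable fun p : ℤ × ℤ => pob_F A B C b₁ b₂ c (Equiv.prodComm ℤ ℤ p) :=
    (Equiv.prodComm ℤ ℤ).summable_iff.mpr h1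
  rw [← (Equiv.prodComm ℤ ℤ).tsum_eq, h1'.tsum_prod, h2.tsum_prod, ← tsum_mul_left]
  refine tsum_congr fun y => ?_
  have h3 := Complex.tsum_exp_neg_quadratic hA (b₁ - B * y)
  have h4 : ∀ x : ℤ, pob_F A B C b₁ b₂ c (Equiv.prodComm ℤ ℤ (y, x)) =
      Complex.exp (-Real.pi * C * y ^ 2 + 2 * Real.pi * b₂ * y + c) *
        Complex.exp (-Real.pi * A * x ^ 2 + 2 * Real.pi * (b₁ - B * y) * x) := by
    intro x
    rw [← Complex.exp_add, pob_F]
    congr 1
    simp only [Equiv.prodComm_apply, Prod.swap_prod_mk]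
    ring
  simp only [h4]
  rw [tsum_mul_left, h3, mul_left_comm, ← tsum_mul_left]
  congr 1
  refine tsum_congr fun m => ?_
  rw [← Complex.exp_add, pob_F]
  congr 1
  field_simp
  linear_combination (-Real.pi * (b₁ - B * y) ^ 2) * Complex.I_sq

theorem pob_sqrt {A : ℂ} (hA : 0 < A.re) {D : ℝ} (hD : 0 < D) :
    1 / A ^ (1 / 2 : ℂ) * (1 / (D / A) ^ (1 / 2 : ℂ)) = ((Real.sqrt D : ℝ) : ℂ)⁻¹ := by
  have hA0 : A ≠ 0 := fun h => by simp [h] at hA
  have hD0 : (D : ℂ) ≠ 0 := by exact_mod_cast hD.ne'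
  have harg : A.arg ≠ Real.pi := by
    rw [Ne, Complex.arg_eq_pi_iff]
    exact fun h => absurd h.1 (not_lt.mpr hA.le)
  rw [one_div_mul_one_div, one_div, Complex.cpow_def_of_ne_zero hA0,
    Complex.cpow_def_of_ne_zero (div_ne_zero hD0 hA0), div_eq_mul_inv (D : ℂ),
    Complex.log_ofReal_mul hD (inv_ne_zero hA0), Complex.log_inv _ harg, ← Complex.exp_add,
    Real.sqrt_eq_rpow, Real.rpow_def_of_pos hD, Complex.ofReal_exp]
  congr 2
  push_cast
  ring

/-- Poisson summation on `ℤ²` -/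
theorem pob_two {A B C : ℂ} (hA : 0 < A.re) (hP : B.re ^ 2 < A.re * C.re) {D : ℝ} (hD : 0 < D)
    (h : A * C - B ^ 2 = D) (z₁ z₂ : ℂ) :
    ∑' p : ℤ × ℤ, Complex.exp (-Real.pi * (A * (p.1 + z₁) ^ 2 + 2 * B * (p.1 + z₁) * (p.2 + z₂) +
        C * (p.2 + z₂) ^ 2)) = ((Real.sqrt D : ℝ) : ℂ)⁻¹ *
      ∑' p : ℤ × ℤ, Complex.exp (2 * Real.pi * Complex.I * (p.1 * z₁ + p.2 * z₂)) *
        Complex.exp (-Real.pi * ((C * p.1 ^ 2 - 2 * B * p.1 * p.2 + A * p.2 ^ 2) / D)) := by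
  have hA0 : A ≠ 0 := fun h => by simp [h] at hA
  have hD0 : (D : ℂ) ≠ 0 := by exact_mod_cast hD.ne'
  have e : C - B ^ 2 / A = D / A := by
    rw [← h]; field_simp
  have hC : C = (D + B ^ 2) / A := by
    rw [← h]; field_simp; ring
  have h1 := pob_step hA hP (-(A * z₁ + B * z₂)) (-(B * z₁ + C * z₂))
    (-Real.pi * (A * z₁ ^ 2 + 2 * B * z₁ * z₂ + C * z₂ ^ 2))
  rw [pob_step (pob_pd hA hP).1 (pob_pd hA hP).2, e, ← mul_assoc, pob_sqrt hA hD] at h1
  convert h1 using 2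
  · funext p
    rw [pob_F]
    congr 1
    ring
  · refine tsum_congr fun p => ?_
    rw [pob_F, ← Complex.exp_add]
    congr 1
    rw [hC]
    field_simp
    ring_nf
    simp only [Complex.I_sq]
    ring

/-- Gram matrix of the general Gaussian -/
noncomputable def pob_A (t : ℝ) (μ : ℂ) : ℂ := 2 / Real.sqrt 3 * (t - 2 * Complex.I * μ.im)
noncomputable def pob_B (t : ℝ) (μ : ℂ) : ℂ :=
  -(1 / Real.sqrt 3 * (t - 2 * Complex.I * μ.im)) - 2 * Complex.I * μ.re
noncomputable def pob_C (t : ℝ) (μ : ℂ) : ℂ :=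
  2 / Real.sqrt 3 * (t + Complex.I * μ.im) + 2 * Complex.I * μ.re

theorem pob_term (t : ℝ) (μ : ℂ) (X Y : ℝ) :
    (Real.exp (-(2 * Real.pi / Real.sqrt 3 * t * ‖(X : ℂ) + Y * sg om‖ ^ 2)) : ℂ) *
        eC (μ * ((X : ℂ) + Y * sg om) ^ 2) =
      Complex.exp (-Real.pi * (pob_A t μ * X ^ 2 + 2 * pob_B t μ * X * Y + pob_C t μ * Y ^ 2)) := by
  have hs : Real.sqrt 3 ^ 2 = 3 := Real.sq_sqrt (by norm_num)
  have hs0 : (Real.sqrt 3 : ℂ) ≠ 0 := by
    exact_mod_cast (Real.sqrt_pos.mpr (by norm_num : (0 : ℝ) < 3)).ne'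
  have h1 : ‖(X : ℂ) + Y * sg om‖ ^ 2 = X ^ 2 - X * Y + Y ^ 2 := by
    rw [Complex.sq_norm, Complex.normSq_apply, sg_om']
    simp
    linear_combination (Y ^ 2 / 4) * hs
  have h2 : (μ * ((X : ℂ) + Y * sg om) ^ 2).im =
      μ.im * (X ^ 2 - X * Y - Y ^ 2 / 2) + μ.re * Real.sqrt 3 * (X * Y - Y ^ 2 / 2) := by
    rw [sg_om']
    simp [pow_two]
    linear_combination (-μ.im * Y ^ 2 / 4) * hs
  rw [eC, h1, h2, Complex.ofReal_exp, ← Complex.exp_add, pob_A, pob_B, pob_C]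
  congr 1
  push_cast
  field_simp
  ring

theorem pob_lin (X Y z₁ z₂ : ℝ) : eC (((X : ℂ) + Y * sg om) * (z₁ + z₂ * sg om)) =
    Complex.exp (2 * Real.pi * Complex.I * (Y * z₁ + (X - Y) * z₂)) := by
  have h1 : sg om ^ 2 = -1 - sg om := by
    rw [← map_pow, om_sq]; simp
  have h2 : ((X : ℂ) + Y * sg om) * (z₁ + z₂ * sg om) =
      ((X * z₁ - Y * z₂ : ℝ) : ℂ) + ((Y * z₁ + (X - Y) * z₂ : ℝ) : ℂ) * sg om := by
    push_cast
    linear_combination (Y * z₂ : ℂ) * h1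
  rw [h2, eC_coord]
  push_cast
  rfl

/-- the dual coordinates -/
def pob_E : ℤ × ℤ ≃ ℤ × ℤ where
  toFun p := (p.1 + p.2, p.1)
  invFun p := (p.2, p.1 - p.2)
  left_inv p := by simp
  right_inv p := by simp

/-- The general Gaussian (`t > 0`, quadratic phase `μ`, shift `z`, `D = t² + 4 |μ|²`). -/
theorem poisson_gen {t : ℝ} (ht : 0 < t) (μ z : ℂ) :
    ∑' k : O, (Real.exp (-(2 * Real.pi / Real.sqrt 3 * t * ‖sg k + z‖ ^ 2)) : ℂ) *
        eC (μ * (sg k + z) ^ 2) =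
      ((Real.sqrt (t ^ 2 + 4 * ‖μ‖ ^ 2) : ℂ))⁻¹ * ∑' h : O, eC (sg h * z) *
        (Real.exp (-(2 * Real.pi / Real.sqrt 3 * (t / (t ^ 2 + 4 * ‖μ‖ ^ 2)) * nm h)) : ℂ) *
        eC (-(conj μ * sg h ^ 2 / ((t ^ 2 + 4 * ‖μ‖ ^ 2 : ℝ) : ℂ))) := by
  have hs : Real.sqrt 3 ^ 2 = 3 := Real.sq_sqrt (by norm_num)
  have hs1 : 0 < Real.sqrt 3 := Real.sqrt_pos.mpr (by norm_num)
  have hs0 : (Real.sqrt 3 : ℂ) ≠ 0 := by exact_mod_cast hs1.ne'
  have hs2 : (Real.sqrt 3 : ℂ) ^ 2 = 3 := by exact_mod_cast hs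
  obtain ⟨z₁, z₂, rfl⟩ : ∃ z₁ z₂ : ℝ, z = z₁ + z₂ * sg om := by
    refine ⟨z.re + z.im / Real.sqrt 3, 2 * z.im / Real.sqrt 3, ?_⟩
    rw [sg_om']
    apply Complex.ext
    · simp only [Complex.add_re, Complex.ofReal_re, Complex.re_ofReal_mul]
      ring
    · simp only [Complex.add_im, Complex.ofReal_im, Complex.im_ofReal_mul]
      field_simp
      ring
  set D : ℝ := t ^ 2 + 4 * ‖μ‖ ^ 2 with hDdef
  have hD : 0 < D := by positivity
  have hD0 : (D : ℂ) ≠ 0 := by exact_mod_cast hD.ne'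
  have hAre : (pob_A t μ).re = 2 / Real.sqrt 3 * t := by
    rw [pob_A, show (2 / Real.sqrt 3 : ℂ) = ((2 / Real.sqrt 3 : ℝ) : ℂ) by push_cast; rfl,
      Complex.re_ofReal_mul]
    simp
  have hBre : (pob_B t μ).re = -(1 / Real.sqrt 3 * t) := by
    rw [pob_B, show (1 / Real.sqrt 3 : ℂ) = ((1 / Real.sqrt 3 : ℝ) : ℂ) by push_cast; rfl,
      Complex.sub_re, Complex.neg_re, Complex.re_ofReal_mul]
    simp
  have hCre : (pob_C t μ).re = 2 / Real.sqrt 3 * t := by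
    rw [pob_C, show (2 / Real.sqrt 3 : ℂ) = ((2 / Real.sqrt 3 : ℝ) : ℂ) by push_cast; rfl,
      Complex.add_re, Complex.re_ofReal_mul]
    simp
  have hA : 0 < (pob_A t μ).re := by rw [hAre]; positivity
  have hP : (pob_B t μ).re ^ 2 < (pob_A t μ).re * (pob_C t μ).re := by
    rw [hAre, hBre, hCre]
    have : 0 < 1 / Real.sqrt 3 * t := by positivity
    have e : 2 / Real.sqrt 3 * t = 2 * (1 / Real.sqrt 3 * t) := by ring
    rw [e]
    nlinarith
  have hdet : pob_A t μ * pob_C t μ - pob_B t μ ^ 2 = D := by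
    rw [hDdef, Complex.sq_norm, Complex.normSq_apply, pob_A, pob_B, pob_C]
    push_cast
    field_simp
    ring_nf
    simp only [Complex.I_sq, hs2]
    ring
  have h := pob_two hA hP hD hdet z₁ z₂
  rw [← crd.tsum_eq, ← (pob_E.trans crd).tsum_eq]
  convert h using 2
  · funext p
    have e : sg (crd p) + (z₁ + z₂ * sg om) =
        ((p.1 + z₁ : ℝ) : ℂ) + ((p.2 + z₂ : ℝ) : ℂ) * sg om := by
      rw [crd_apply]
      simp only [map_add, map_mul, map_intCast]
      push_cast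
      ring
    rw [e, pob_term]
    push_cast
    rfl
  · refine tsum_congr fun p => ?_
    have e : sg ((pob_E.trans crd) p) = ((p.1 + p.2 : ℝ) : ℂ) + ((p.1 : ℝ) : ℂ) * sg om := by
      rw [Equiv.trans_apply, crd_apply]
      simp only [map_add, map_mul, map_intCast, pob_E, Equiv.coe_fn_mk]
      push_cast
      ring
    have e2 : ∀ w : ℂ, -(conj μ * w / D) = (-(conj μ) / D) * w := fun w => by ring
    rw [nm_eq, e, e2, mul_assoc, pob_term, pob_lin]
    have hre : (-(conj μ) / D : ℂ).re = -μ.re / D := by simp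
    have him : (-(conj μ) / D : ℂ).im = μ.im / D := by simp
    congr 2
    · push_cast
      ring
    · rw [pob_A, pob_A, pob_B, pob_B, pob_C, pob_C, hre, him]
      push_cast
      field_simp
      ring

theorem poisson_shift {K : ℝ} (hK : 0 < K) (z : ℂ) :
    ∑' k : O, (Real.exp (-(2 * Real.pi * ‖sg k + z‖ ^ 2 / (Real.sqrt 3 * K))) : ℂ) =
      K * ∑' h : O, eC (sg h * z) * gw K⁻¹ h := by
  have h := poisson_gen (t := K⁻¹) (by positivity) 0 z
  simp only [zero_mul, eC_zero, mul_one, norm_zero, map_zero, zero_div, neg_zero] at h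
  have h1 : K⁻¹ ^ 2 + 4 * (0 : ℝ) ^ 2 = K⁻¹ ^ 2 := by ring
  rw [h1, Real.sqrt_sq (by positivity), Complex.ofReal_inv, inv_inv] at h
  convert h using 4 with k h
  · congr 2
    ring
  · rw [poa_gw_eq]
    congr 5
    field_simp

theorem poa_summable {Ψ : O → ℂ} {B : ℝ} (hΨ : ∀ y, ‖Ψ y‖ ≤ B) {K : ℝ} (hK : 0 < K) :
    Summable fun k : O => Ψ k * gw K k := by
  refine Summable.of_norm_bounded ((summable_gw hK).mul_left B) fun k => ?_
  rw [norm_mul, Complex.norm_real, Real.norm_of_nonneg (gw_pos K k).le]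
  exact mul_le_mul_of_nonneg_right (hΨ k) (gw_pos K k).le

/-- Poisson summation for a periodic function -/
theorem poisson {Q : O} (hQ : Q ≠ 0) {Ψ : O → ℂ} (hΨ : Per Q Ψ) {K : ℝ} (hK : 0 < K) :
    ∑' k : O, Ψ k * gw K k = (K / nm Q : ℝ) * ∑' h : O, FT Q Ψ h * gw (nm Q / K) h := by
  obtain ⟨B, hB⟩ := hΨ.bdd hQ
  have hN := nm_pos hQ
  have hsQ : sg Q ≠ 0 := fun h => hQ (sg_eq_zero.1 h)
  rw [tsum_eq_rsum hQ (poa_summable hB hK), rsum_eq_sum hQ]
  have h1 : ∀ y : O, ∑' k, Ψ (y + Q * k) * (gw K (y + Q * k) : ℂ) =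
      (K / nm Q : ℝ) * ∑' h : O, Ψ y * eQ (h * y) Q * gw (nm Q / K) h := by
    intro y
    have h2 : ∀ k, Ψ (y + Q * k) * (gw K (y + Q * k) : ℂ) = Ψ y * (Real.exp
        (-(2 * Real.pi * ‖sg k + sg y / sg Q‖ ^ 2 / (Real.sqrt 3 * (K / nm Q)))) : ℂ) := by
      intro k
      rw [hΨ (y + Q * k) y ⟨k, by ring⟩]
      have h3 : nm (y + Q * k) = nm Q * ‖sg k + sg y / sg Q‖ ^ 2 := by
        rw [nm_eq, nm_eq, ← mul_pow, ← norm_mul, map_add, map_mul]
        congr 2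
        field_simp
        ring
      unfold gw
      rw [h3]
      congr 4
      field_simp
    simp_rw [h2]
    rw [tsum_mul_left, poisson_shift (by positivity), inv_div, mul_left_comm, ← tsum_mul_left]
    congr 2
    ext h
    rw [eQ, map_mul, mul_div_assoc, mul_assoc]
  simp_rw [h1]
  rw [← Finset.mul_sum, ← Summable.tsum_finsetSum]
  · congr 2
    ext h
    rw [FT, rsum_eq_sum hQ, Finset.sum_mul]
  · intro y _
    refine poa_summable (B := B) (fun h => ?_) (by positivity)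
    rw [norm_mul, norm_eQ, mul_one]
    exact hB y

theorem Per.summable_gw {Q : O} (hQ : Q ≠ 0) {Ψ : O → ℂ} (hΨ : Per Q Ψ) {K : ℝ} (hK : 0 < K) :
    Summable fun k : O => Ψ k * gw K k := by
  obtain ⟨B, hB⟩ := hΨ.bdd hQ
  exact poa_summable hB hK

/-- the mean value of a periodic function -/
theorem tendsto_mean {Q : O} (hQ : Q ≠ 0) {Ψ : O → ℂ} (hΨ : Per Q Ψ) :
    Filter.Tendsto (fun K : ℝ => (K : ℂ)⁻¹ * ∑' k : O, Ψ k * gw K k) Filter.atTop
      (nhds (rsum Q Ψ / nm Q)) := by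
  classical
  obtain ⟨B, hB⟩ := hΨ.bdd hQ
  have hB0 : 0 ≤ B := (norm_nonneg _).trans (hB 0)
  have hN := nm_pos hQ
  rw [tendsto_iff_norm_sub_tendsto_zero]
  have hlim : Filter.Tendsto (fun K : ℝ => B * (11 * nm Q) * K⁻¹) Filter.atTop (nhds 0) := by
    simpa using tendsto_inv_atTop_zero.const_mul (B * (11 * nm Q))
  refine squeeze_zero' (Filter.Eventually.of_forall fun _ => norm_nonneg _) ?_ hlim
  filter_upwards [Filter.eventually_gt_atTop 0] with K hK
  have hF := norm_FT_le hQ hB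
  have hK' : 0 < nm Q / K := by positivity
  have hs := poa_summable hF hK'
  rw [poisson hQ hΨ hK, hs.tsum_eq_add_tsum_ite 0, gw_zero, FT_zero]
  set R : ℂ := ∑' h : O, if h = 0 then 0 else FT Q Ψ h * gw (nm Q / K) h with hR
  have hKc : (K : ℂ) ≠ 0 := by exact_mod_cast hK.ne'
  have hNc : (nm Q : ℂ) ≠ 0 := by exact_mod_cast hN.ne'
  have h1 : (K : ℂ)⁻¹ * (((K / nm Q : ℝ) : ℂ) * (rsum Q Ψ * ((1 : ℝ) : ℂ) + R)) -
      rsum Q Ψ / nm Q = R / nm Q := by
    push_cast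
    field_simp
    ring
  have hs2 : Summable fun h : O => if h = 0 then 0 else gw (nm Q / K) h := by
    refine Summable.of_nonneg_of_le (fun h => ?_) (fun h => ?_) (summable_gw hK')
    · split_ifs
      · exact le_rfl
      · exact (gw_pos _ h).le
    · split_ifs
      · exact (gw_pos _ h).le
      · exact le_rfl
  have h2 : ‖R‖ ≤ nm Q * B * (11 * (nm Q / K)) := by
    refine (tsum_of_norm_bounded (hs2.mul_left (nm Q * B)).hasSum fun h => ?_).trans ?_
    · split_ifs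
      · simp
      · rw [norm_mul, Complex.norm_real, Real.norm_of_nonneg (gw_pos _ h).le]
        exact mul_le_mul_of_nonneg_right (hF h) (gw_pos _ h).le
    · rw [tsum_mul_left]
      gcongr
      convert tsum_gw_ne_zero_le hK'
  rw [h1, norm_div, Complex.norm_real, Real.norm_of_nonneg hN.le, div_le_iff₀ hN]
  refine h2.trans (le_of_eq ?_)
  field_simp

end Crest.Agent.R17
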