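import Crest.Agent.R17.A.Basic

/-!
Row 17, block A0: primary elements, primary divisors, decompositions, Möbius function, reindexing of sums.
-/

set_option autoImplicit false

namespace Crest.Agent.R17

open scoped ComplexConjugate

/-! ### Primary elements -/

theorem mem_Pr {n : O} : n ∈ Pr ↔ Prim n := Iff.rfl

theorem Pr_prim (n : Pr) : Prim (n : O) := n.2

theorem prim_one : Prim 1 := Pr.one_mem

theorem Prim.mul {a b : O} (ha : Prim a) (hb : Prim b) : Prim (a * b) := Pr.mul_mem ha hb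

theorem Prim.pow {a : O} (ha : Prim a) (k : ℕ) : Prim (a ^ k) := Pr.pow_mem ha k

theorem prim_prod {ι : Type*} {s : Finset ι} {f : ι → O} (h : ∀ i ∈ s, Prim (f i)) :
    Prim (∏ i ∈ s, f i) := Pr.prod_mem h

theorem Prim.coprime_three {a : O} (ha : Prim a) : IsCoprime a 3 := by
  obtain ⟨w, hw⟩ := ha
  exact ⟨1, -w, by linear_combination hw⟩

theorem Prim.not_lam_dvd {a : O} (ha : Prim a) : ¬ lam ∣ a := by
  exact coprime_three_iff.1 ha.coprime_three

theorem Prim.ne_zero {a : O} (ha : Prim a) : a ≠ 0 := by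
  rintro rfl
  exact ha.not_lam_dvd (dvd_zero _)

theorem Prim.coprime_six {a : O} (ha : Prim a) (h2 : IsCoprime a 2) : IsCoprime a 6 := by
  exact coprime_six_iff.2 ⟨h2, ha.coprime_three⟩

theorem Prim.of_mul {a b : O} (ha : Prim a) (hab : Prim (a * b)) : Prim b := by
  have h : b - 1 = (a * b - 1) - (a - 1) * b := by ring
  show (3 : O) ∣ b - 1
  rw [h]
  exact dvd_sub hab (Dvd.dvd.mul_right ha b)

theorem Prim.congr {a b : O} (ha : Prim a) (h : (3 : O) ∣ a - b) : Prim b := by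
  have h' : b - 1 = (a - 1) - (a - b) := by ring
  show (3 : O) ∣ b - 1
  rw [h']
  exact dvd_sub ha h

theorem Prim.cj {a : O} (ha : Prim a) : Prim (cj a) := by
  obtain ⟨w, hw⟩ := ha
  refine ⟨R17.cj w, ?_⟩
  have h := congrArg R17.cj hw
  rw [map_sub, map_one, map_mul, map_ofNat] at h
  exact h

theorem prim_iff_coord {n : O} : Prim n ↔ ∃ a b : ℤ, n = 1 + 3 * ((a : O) + b * om) := by
  constructor
  · rintro ⟨w, hw⟩
    obtain ⟨a, b, rfl⟩ := exists_coord w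
    exact ⟨a, b, by linear_combination hw⟩
  · rintro ⟨a, b, rfl⟩
    exact ⟨(a : O) + b * om, by ring⟩

theorem prim_neg_two : Prim (-2) := by
  exact ⟨-1, by ring⟩

theorem pra_three_dvd {x y : ℤ} {z : O} (hz : z = (x : O) + y * om) (h : (3 : O) ∣ z) :
    (3 : ℤ) ∣ x ∧ (3 : ℤ) ∣ y := by
  refine int_dvd_coord.1 ?_
  rw [← hz]
  exact_mod_cast h

theorem Prim.eq_one_of_isUnit {a : O} (ha : Prim a) (hu : IsUnit a) : a = 1 := by
  obtain ⟨j, hj, rfl⟩ := isUnit_iff.1 hu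
  have h2 := zt_sq
  have h3 := zt_cube
  have h1 : zt = 1 + om := rfl
  have ha' : (3 : O) ∣ zt ^ j - 1 := ha
  interval_cases j
  · simp
  · exfalso
    have := pra_three_dvd (x := 0) (y := 1) (by push_cast; linear_combination h1) ha'
    omega
  · exfalso
    have := pra_three_dvd (x := -1) (y := 1) (by push_cast; linear_combination h2) ha'
    omega
  · exfalso
    have := pra_three_dvd (x := -2) (y := 0) (by push_cast; linear_combination h3) ha'
    omega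
  · exfalso
    have := pra_three_dvd (x := -2) (y := -1)
      (by push_cast; linear_combination zt * h3 - h1) ha'
    omega
  · exfalso
    have := pra_three_dvd (x := -1) (y := -1)
      (by push_cast; linear_combination zt ^ 2 * h3 - h2) ha'
    omega

theorem Prim.eq_of_associated {a b : O} (ha : Prim a) (hb : Prim b) (h : Associated a b) : a = b := by
  obtain ⟨u, hu⟩ := h
  have h1 : Prim (u : O) := ha.of_mul (hu ▸ hb)
  rw [← hu, h1.eq_one_of_isUnit u.isUnit, mul_one]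

theorem Prim.dvd_antisymm {a b : O} (ha : Prim a) (hb : Prim b) (h₁ : a ∣ b) (h₂ : b ∣ a) : a = b := by
  exact ha.eq_of_associated hb (associated_of_dvd_dvd h₁ h₂)

theorem Prim.exists_mul {d n : O} (hd : Prim d) (hn : Prim n) (h : d ∣ n) :
    ∃ m, Prim m ∧ n = d * m := by
  obtain ⟨m, rfl⟩ := h
  exact ⟨m, hd.of_mul hn, rfl⟩

theorem pra_unit_congr {n : O} (h : ¬ lam ∣ n) : ∃ u : O, IsUnit u ∧ (3 : O) ∣ n - u := by
  obtain ⟨x, y, rfl⟩ := exists_coord n
  rw [lam_dvd_coord] at h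
  have h1 : zt = 1 + om := rfl
  obtain ⟨a, r, hr, rfl⟩ : ∃ a r : ℤ, (r = 0 ∨ r = 1 ∨ r = -1) ∧ x = 3 * a + r := by
    have : x % 3 = 0 ∨ x % 3 = 1 ∨ x % 3 = 2 := by omega
    rcases this with h | h | h
    · exact ⟨x / 3, 0, by simp, by omega⟩
    · exact ⟨x / 3, 1, by simp, by omega⟩
    · exact ⟨x / 3 + 1, -1, by simp, by omega⟩
  obtain ⟨b, s, hs, rfl⟩ : ∃ b s : ℤ, (s = 0 ∨ s = 1 ∨ s = -1) ∧ y = 3 * b + s := by
    have : y % 3 = 0 ∨ y % 3 = 1 ∨ y % 3 = 2 := by omega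
    rcases this with h | h | h
    · exact ⟨y / 3, 0, by simp, by omega⟩
    · exact ⟨y / 3, 1, by simp, by omega⟩
    · exact ⟨y / 3 + 1, -1, by simp, by omega⟩
  refine ⟨(r : O) + s * om, ?_, (a : O) + b * om, by push_cast; ring⟩
  rcases hr with rfl | rfl | rfl <;> rcases hs with rfl | rfl | rfl
  · exfalso; omega
  · simpa using isUnit_om
  · simpa using isUnit_om
  · simp
  · simpa [h1] using isUnit_zt
  · exfalso; omega
  · simp
  · exfalso; omega
  · have : (((-1 : ℤ) : O)) + ((-1 : ℤ) : O) * om = -zt := by push_cast; rw [h1]; ring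
    rw [this]
    exact isUnit_zt.neg

theorem exists_unit_prim {n : O} (h : ¬ lam ∣ n) : ∃ u m : O, IsUnit u ∧ Prim m ∧ n = u * m := by
  obtain ⟨u, hu, w, hw⟩ := pra_unit_congr h
  obtain ⟨v, hv⟩ := hu.exists_right_inv
  refine ⟨u, v * n, hu, ⟨v * w, ?_⟩, ?_⟩
  · linear_combination v * hw + hv
  · linear_combination (-n) * hv

theorem exists_decomp {n : O} (h : n ≠ 0) :
    ∃ (ζ : O) (i : ℕ) (m : O), IsUnit ζ ∧ Prim m ∧ n = ζ * lam ^ i * m := by
  obtain ⟨i, a, ha, rfl⟩ := WfDvdMonoid.max_power_factor h prime_lam.irreducible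
  obtain ⟨u, m, hu, hm, rfl⟩ := exists_unit_prim ha
  exact ⟨u, i, m, hu, hm, by ring⟩

theorem pra_decomp_le {ζ ζ' m m' : O} {i i' : ℕ} (hζ : IsUnit ζ) (hm : Prim m)
    (h : ζ * lam ^ i * m = ζ' * lam ^ i' * m') : i' ≤ i := by
  by_contra hlt
  obtain ⟨k, rfl⟩ := Nat.exists_eq_add_of_lt (not_le.1 hlt)
  have h2 : lam ^ i * (ζ * m) = lam ^ i * (lam * (ζ' * lam ^ k * m')) := by
    linear_combination h
  have h3 : lam ∣ ζ * m := ⟨_, mul_left_cancel₀ (pow_ne_zero i lam_ne_zero) h2⟩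
  exact hm.not_lam_dvd (hζ.dvd_mul_left.1 h3)

theorem decomp_unique {ζ ζ' m m' : O} {i i' : ℕ} (hζ : IsUnit ζ) (hζ' : IsUnit ζ') (hm : Prim m)
    (hm' : Prim m') (h : ζ * lam ^ i * m = ζ' * lam ^ i' * m') : ζ = ζ' ∧ i = i' ∧ m = m' := by
  obtain rfl : i = i' := le_antisymm (pra_decomp_le hζ' hm' h.symm) (pra_decomp_le hζ hm h)
  have h2 : ζ * m = ζ' * m' :=
    mul_left_cancel₀ (pow_ne_zero i lam_ne_zero) (by linear_combination h)
  obtain rfl : m = m' := hm.dvd_antisymm hm'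
    (hζ'.dvd_mul_left.1 ⟨ζ, by linear_combination -h2⟩)
    (hζ.dvd_mul_left.1 ⟨ζ', by linear_combination h2⟩)
  exact ⟨mul_right_cancel₀ hm.ne_zero h2, rfl, rfl⟩

/-- two distinct primary primes are coprime -/
theorem Prim.coprime_of_ne {p p' : O} (h : Prim p) (h' : Prim p') (hp : Prime p) (hp' : Prime p')
    (hne : p ≠ p') : IsCoprime p p' := by
  refine hp.irreducible.coprime_iff_not_dvd.2 fun hd => hne ?_
  exact h.eq_of_associated h' (hp.irreducible.associated_of_dvd hp'.irreducible hd)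

theorem pra_prime_prim {z : O} (hz : Prime z) (h : ¬ lam ∣ z) :
    ∃ p, Prime p ∧ Prim p ∧ Associated p z := by
  obtain ⟨u, p, hu, hp, rfl⟩ := exists_unit_prim h
  have : Associated p (u * p) := (associated_unit_mul_left p u hu).symm
  exact ⟨p, this.symm.prime hz, hp, this⟩

theorem pra_exists_prime_dvd {n : O} (hn : Prim n) (h1 : n ≠ 1) :
    ∃ p, Prime p ∧ Prim p ∧ p ∣ n := by
  obtain ⟨z, hz, hd⟩ := WfDvdMonoid.exists_irreducible_factor
    (fun hu => h1 (hn.eq_one_of_isUnit hu)) hn.ne_zero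
  obtain ⟨p, hp, hp', ha⟩ := pra_prime_prim hz.prime fun h => hn.not_lam_dvd (h.trans hd)
  exact ⟨p, hp, hp', ha.dvd.trans hd⟩

theorem pra_nN_lt {p m : O} (hp : Prime p) (hm : m ≠ 0) (k : ℕ) : nN m < nN (p ^ (k + 1) * m) := by
  have h2 : 2 ≤ nN p := by
    have := two_le_nm hp
    unfold nm at this
    exact_mod_cast this
  have h0 : 0 < nN m := Nat.pos_of_ne_zero fun h => hm (nN_eq_zero.1 h)
  rw [nN_mul, nN_pow]
  have : 1 < nN p ^ (k + 1) := Nat.one_lt_pow (Nat.succ_ne_zero k) h2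
  nlinarith

theorem Prim.induction {P : O → Prop} {n : O} (hn : Prim n) (h1 : P 1)
    (hm : ∀ p m, Prime p → Prim p → Prim m → P m → P (p * m)) : P n := by
  induction hN : nN n using Nat.strong_induction_on generalizing n with
  | _ N ih =>
    by_cases h : n = 1
    · exact h ▸ h1
    obtain ⟨p, hp, hp', hd⟩ := pra_exists_prime_dvd hn h
    obtain ⟨m, hm', rfl⟩ := hp'.exists_mul hn hd
    refine hm p m hp hp' hm' (ih (nN m) ?_ hm' rfl)
    simpa [hN] using pra_nN_lt hp hm'.ne_zero 0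

/-- induction over coprime prime powers -/
theorem Prim.induction_coprime {P : O → Prop} {n : O} (hn : Prim n) (h1 : P 1)
    (hm : ∀ p k m, Prime p → Prim p → Prim m → ¬ p ∣ m → P m → P (p ^ (k + 1) * m)) : P n := by
  induction hN : nN n using Nat.strong_induction_on generalizing n with
  | _ N ih =>
    by_cases h : n = 1
    · exact h ▸ h1
    obtain ⟨p, hp, hp', hd⟩ := pra_exists_prime_dvd hn h
    obtain ⟨k, m, hpm, rfl⟩ := WfDvdMonoid.max_power_factor hn.ne_zero hp.irreducible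
    have hm' : Prim m := (hp'.pow k).of_mul hn
    obtain _ | k := k
    · exact absurd (by simpa using hd) hpm
    exact hm p k m hp hp' hm' hpm (ih (nN m) (hN ▸ pra_nN_lt hp hm'.ne_zero k) hm' rfl)

theorem Prim.induction_sqfree {P : O → Prop} {n : O} (hn : Prim n) (hs : Squarefree n) (h1 : P 1)
    (hm : ∀ p m, Prime p → Prim p → Prim m → Squarefree m → ¬ p ∣ m → P m → P (p * m)) : P n := by
  revert hs
  refine hn.induction (P := fun n => Squarefree n → P n) (fun _ => h1) ?_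
  intro p m hp hp' hm' ih hs
  have hsm : Squarefree m := hs.squarefree_of_dvd (dvd_mul_left m p)
  refine hm p m hp hp' hm' hsm ?_ (ih hsm)
  intro hd
  exact hp.not_isUnit (hs p (mul_dvd_mul_left p hd))

theorem Prim.exists_prime_dvd {n : O} (hn : Prim n) (h1 : n ≠ 1) : ∃ p, Prime p ∧ Prim p ∧ p ∣ n := by
  exact pra_exists_prime_dvd hn h1

theorem Prim.coprime_iff {a : O} (ha : Prim a) (b : O) :
    IsCoprime a b ↔ ∀ p, Prime p → Prim p → p ∣ a → ¬ p ∣ b := by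
  constructor
  · intro h p hp _ h₁ h₂
    exact hp.not_isUnit (h.isUnit_of_dvd' h₁ h₂)
  · intro h
    refine isCoprime_of_prime_dvd (fun h0 => ha.ne_zero h0.1) fun z hz h₁ h₂ => ?_
    obtain ⟨p, hp, hp', hpz⟩ := pra_prime_prim hz fun h => ha.not_lam_dvd (h.trans h₁)
    exact h p hp hp' (hpz.dvd.trans h₁) (hpz.dvd.trans h₂)

/-- primary greatest common divisor -/
theorem Prim.exists_gcd {a : O} (ha : Prim a) (b : O) :
    ∃ g a' b', Prim g ∧ Prim a' ∧ a = g * a' ∧ b = g * b' ∧ IsCoprime a' b' := by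
  obtain ⟨x, y, hxy⟩ := IsBezout.gcd_eq_sum a b
  have h₁ := IsBezout.gcd_dvd_left a b
  have h₂ := IsBezout.gcd_dvd_right a b
  obtain ⟨u, g, hu, hg, hug⟩ := exists_unit_prim fun h => ha.not_lam_dvd (h.trans h₁)
  obtain ⟨v, hv⟩ := hu.exists_right_inv
  rw [hug] at h₁ h₂ hxy
  obtain ⟨a', ha', rfl⟩ := hg.exists_mul ha ((dvd_mul_left g u).trans h₁)
  obtain ⟨b', rfl⟩ := (dvd_mul_left g u).trans h₂
  refine ⟨g, a', b', hg, ha', rfl, rfl, v * x, v * y, ?_⟩
  refine mul_left_cancel₀ hg.ne_zero ?_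
  linear_combination v * hxy + g * hv

theorem gcd_unique {g g' a a' b b' : O} (hg : Prim g) (hg' : Prim g') (ha : g * a = g' * a')
    (hb : g * b = g' * b') (h : IsCoprime a b) (h' : IsCoprime a' b') :
    g = g' ∧ a = a' ∧ b = b' := by
  obtain ⟨x, y, hxy⟩ := h
  obtain ⟨x', y', hxy'⟩ := h'
  obtain rfl : g = g' := hg.dvd_antisymm hg'
    ⟨x' * a + y' * b, by linear_combination -g' * hxy' - x' * ha - y' * hb⟩
    ⟨x * a' + y * b', by linear_combination -g * hxy + x * ha + y * hb⟩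
  exact ⟨rfl, mul_left_cancel₀ hg.ne_zero ha, mul_left_cancel₀ hg.ne_zero hb⟩

/-! ### Primary divisors -/

open Classical in
/-- the primary divisors -/
noncomputable def pdiv (n : O) : Finset O := (ball (nm n)).filter fun d => Prim d ∧ d ∣ n

open Classical in
/-- the primary prime divisors (all prime divisors up to units, except `λ`) -/
noncomputable def pfs (n : O) : Finset O := (pdiv n).filter Prime

/-- the primary radical (the prime `λ` is ignored) -/
noncomputable def rad (n : O) : O := ∏ p ∈ pfs n, p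

open Classical in
/-- factorisations into two primary factors -/
noncomputable def anti (n : O) : Finset (O × O) := (pdiv n ×ˢ pdiv n).filter fun p => p.1 * p.2 = n

theorem mem_pdiv {n d : O} (hn : n ≠ 0) : d ∈ pdiv n ↔ Prim d ∧ d ∣ n := by
  classical
  rw [pdiv, Finset.mem_filter, mem_ball]
  exact ⟨fun h => h.2, fun h => ⟨nm_le_of_dvd h.2 hn, h⟩⟩

theorem mem_pfs {n p : O} (hn : n ≠ 0) : p ∈ pfs n ↔ Prime p ∧ Prim p ∧ p ∣ n := by
  classical
  rw [pfs, Finset.mem_filter, mem_pdiv hn]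
  tauto

theorem pra_of_mem_pdiv {n d : O} (h : d ∈ pdiv n) : Prim d ∧ d ∣ n := by
  classical
  rw [pdiv, Finset.mem_filter] at h
  exact h.2

theorem pra_of_mem_pfs {n p : O} (h : p ∈ pfs n) : Prime p ∧ Prim p ∧ p ∣ n := by
  classical
  rw [pfs, Finset.mem_filter] at h
  exact ⟨h.2, pra_of_mem_pdiv h.1⟩

theorem mem_anti {n : O} {p : O × O} : p ∈ anti n ↔ Prim p.1 ∧ Prim p.2 ∧ p.1 * p.2 = n := by
  classical
  rw [anti, Finset.mem_filter, Finset.mem_product]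
  constructor
  · rintro ⟨⟨h₁, h₂⟩, h⟩
    exact ⟨(pra_of_mem_pdiv h₁).1, (pra_of_mem_pdiv h₂).1, h⟩
  · rintro ⟨h₁, h₂, h⟩
    have hn : n ≠ 0 := h ▸ (h₁.mul h₂).ne_zero
    exact ⟨⟨(mem_pdiv hn).2 ⟨h₁, h ▸ dvd_mul_right _ _⟩,
      (mem_pdiv hn).2 ⟨h₂, h ▸ dvd_mul_left _ _⟩⟩, h⟩

theorem card_anti {n : O} (hn : Prim n) : (anti n).card = (pdiv n).card := by
  refine Finset.card_bij (fun p _ => p.1) ?_ ?_ ?_
  · intro p hp
    obtain ⟨h₁, -, h⟩ := mem_anti.1 hp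
    exact (mem_pdiv hn.ne_zero).2 ⟨h₁, h ▸ dvd_mul_right _ _⟩
  · intro p hp q hq h
    obtain ⟨h₁, -, h₃⟩ := mem_anti.1 hp
    obtain ⟨-, -, h₄⟩ := mem_anti.1 hq
    refine Prod.ext h (mul_left_cancel₀ h₁.ne_zero ?_)
    rw [h₃, ← h₄]
    exact congrArg (· * q.2) h.symm
  · intro d hd
    obtain ⟨h₁, h₂⟩ := (mem_pdiv hn.ne_zero).1 hd
    obtain ⟨m, hm, h⟩ := h₁.exists_mul hn h₂
    exact ⟨(d, m), mem_anti.2 ⟨h₁, hm, h.symm⟩, rfl⟩

open Classical in
theorem pfs_mul {a b : O} (ha : a ≠ 0) (hb : b ≠ 0) : pfs (a * b) = pfs a ∪ pfs b := by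
  ext p
  rw [Finset.mem_union, mem_pfs ha, mem_pfs hb, mem_pfs (mul_ne_zero ha hb)]
  constructor
  · rintro ⟨h₁, h₂, h₃⟩
    exact (h₁.dvd_or_dvd h₃).imp (fun h => ⟨h₁, h₂, h⟩) fun h => ⟨h₁, h₂, h⟩
  · rintro (⟨h₁, h₂, h₃⟩ | ⟨h₁, h₂, h₃⟩)
    · exact ⟨h₁, h₂, h₃.mul_right _⟩
    · exact ⟨h₁, h₂, h₃.mul_left _⟩

theorem pfs_disjoint {a b : O} (h : IsCoprime a b) : Disjoint (pfs a) (pfs b) := by
  refine Finset.disjoint_left.2 fun p h₁ h₂ => ?_
  exact (pra_of_mem_pfs h₁).1.not_isUnit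
    (h.isUnit_of_dvd' (pra_of_mem_pfs h₁).2.2 (pra_of_mem_pfs h₂).2.2)

theorem pfs_prime {p : O} (hp : Prime p) (h : Prim p) : pfs p = {p} := by
  ext q
  rw [mem_pfs hp.ne_zero, Finset.mem_singleton]
  constructor
  · rintro ⟨h₁, h₂, h₃⟩
    exact h₂.eq_of_associated h (h₁.irreducible.associated_of_dvd hp.irreducible h₃)
  · rintro rfl
    exact ⟨hp, h, dvd_rfl⟩

theorem pfs_prod {S : Finset O} (h : ∀ p ∈ S, Prime p ∧ Prim p) : pfs (∏ p ∈ S, p) = S := by
  ext q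
  rw [mem_pfs (prim_prod fun p hp => (h p hp).2).ne_zero]
  constructor
  · rintro ⟨h₁, h₂, h₃⟩
    obtain ⟨p, hp, hd⟩ := (h₁.dvd_finsetProd_iff _).1 h₃
    rwa [h₂.eq_of_associated (h p hp).2
      (h₁.irreducible.associated_of_dvd (h p hp).1.irreducible hd)]
  · intro hq
    exact ⟨(h q hq).1, (h q hq).2, Finset.dvd_prod_of_mem _ hq⟩

theorem squarefree_prod {S : Finset O} (h : ∀ p ∈ S, Prime p ∧ Prim p) :
    Squarefree (∏ p ∈ S, p) := by
  refine Finset.squarefree_prod_of_pairwise_isCoprime ?_ fun p hp => (h p hp).1.squarefree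
  intro p hp q hq hne
  exact ((h p hp).2.coprime_of_ne (h q hq).2 (h p hp).1 (h q hq).1 hne).isRelPrime

theorem prim_rad (n : O) : Prim (rad n) := by
  exact prim_prod fun p hp => (pra_of_mem_pfs hp).2.1

theorem squarefree_rad (n : O) : Squarefree (rad n) := by
  exact squarefree_prod fun p hp => ⟨(pra_of_mem_pfs hp).1, (pra_of_mem_pfs hp).2.1⟩

theorem rad_dvd (n : O) : rad n ∣ n := by
  refine Finset.prod_dvd_of_coprime ?_ fun p hp => (pra_of_mem_pfs hp).2.2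
  intro p hp q hq hne
  exact (pra_of_mem_pfs hp).2.1.coprime_of_ne (pra_of_mem_pfs hq).2.1 (pra_of_mem_pfs hp).1
    (pra_of_mem_pfs hq).1 hne

theorem pfs_rad (n : O) : pfs (rad n) = pfs n := by
  exact pfs_prod fun p hp => ⟨(pra_of_mem_pfs hp).1, (pra_of_mem_pfs hp).2.1⟩

theorem pra_pfs_one : pfs 1 = ∅ := by
  simpa using pfs_prod (S := ∅) (by simp)

theorem Prim.rad_eq {n : O} (hn : Prim n) (hs : Squarefree n) : rad n = n := by
  classical
  refine hn.induction_sqfree (P := fun n => rad n = n) hs ?_ ?_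
  · simp [rad, pra_pfs_one]
  · intro p m hp hp' hm _ hpm ih
    have hnot : p ∉ pfs m := fun h => hpm (pra_of_mem_pfs h).2.2
    unfold rad at ih ⊢
    rw [pfs_mul hp.ne_zero hm.ne_zero, pfs_prime hp hp', ← Finset.insert_eq,
      Finset.prod_insert hnot, ih]

theorem Prim.dvd_rad_pow {n : O} (hn : Prim n) : ∃ k, n ∣ rad n ^ k := by
  refine hn.induction (P := fun m => m ∣ n → ∃ k, m ∣ rad n ^ k) (fun _ => ⟨0, one_dvd _⟩) ?_ dvd_rfl
  intro p m hp hp' _ ih hd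
  obtain ⟨k, hk⟩ := ih ((dvd_mul_left m p).trans hd)
  refine ⟨k + 1, ?_⟩
  rw [pow_succ']
  exact mul_dvd_mul (Finset.dvd_prod_of_mem _
    ((mem_pfs hn.ne_zero).2 ⟨hp, hp', (dvd_mul_right p m).trans hd⟩)) hk

theorem Prim.eq_prod {n : O} (hn : Prim n) : n = ∏ p ∈ pfs n, p ^ multiplicity p n := by
  classical
  refine hn.induction_coprime (P := fun n => n = ∏ p ∈ pfs n, p ^ multiplicity p n) ?_ ?_
  · simp [pra_pfs_one]
  · intro p k m hp hp' hm hpm ih
    have hnot : p ∉ pfs m := fun h => hpm (pra_of_mem_pfs h).2.2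
    have hne : p ^ (k + 1) * m ≠ 0 := mul_ne_zero (pow_ne_zero _ hp.ne_zero) hm.ne_zero
    have hpfs : pfs (p ^ (k + 1) * m) = insert p (pfs m) := by
      ext q
      rw [Finset.mem_insert, mem_pfs hne, mem_pfs hm.ne_zero]
      constructor
      · rintro ⟨h₁, h₂, h₃⟩
        rcases h₁.dvd_or_dvd h₃ with h | h
        · exact Or.inl (h₂.eq_of_associated hp'
            (h₁.irreducible.associated_of_dvd hp.irreducible (h₁.dvd_of_dvd_pow h)))
        · exact Or.inr ⟨h₁, h₂, h⟩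
      · rintro (rfl | ⟨h₁, h₂, h₃⟩)
        · exact ⟨hp, hp', (dvd_pow_self _ (Nat.succ_ne_zero k)).mul_right _⟩
        · exact ⟨h₁, h₂, h₃.mul_left _⟩
    have hmul : ∀ q, Prime q → multiplicity q (p ^ (k + 1) * m) =
        multiplicity q (p ^ (k + 1)) + multiplicity q m := fun q hq =>
      multiplicity_mul hq (FiniteMultiplicity.of_prime_left hq hne)
    rw [hpfs, Finset.prod_insert hnot, hmul p hp, multiplicity_pow_self_of_prime hp,
      multiplicity_eq_zero.2 hpm, add_zero]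
    congr 1
    refine ih.trans (Finset.prod_congr rfl fun q hq => ?_)
    obtain ⟨h₁, h₂, h₃⟩ := pra_of_mem_pfs hq
    have : ¬ q ∣ p ^ (k + 1) := fun h => hpm ((h₂.eq_of_associated hp'
      (h₁.irreducible.associated_of_dvd hp.irreducible (h₁.dvd_of_dvd_pow h))) ▸ h₃)
    rw [hmul q h₁, multiplicity_eq_zero.2 this, zero_add]

/-- primary divisors of a product of coprime elements -/
theorem sum_pdiv_mul {M : Type*} [AddCommMonoid M] {a b : O} (ha : a ≠ 0) (hb : b ≠ 0)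
    (h : IsCoprime a b) (f : O → M) :
    ∑ d ∈ pdiv (a * b), f d = ∑ d₁ ∈ pdiv a, ∑ d₂ ∈ pdiv b, f (d₁ * d₂) := by
  rw [← Finset.sum_product']
  symm
  refine Finset.sum_bij (fun p _ => p.1 * p.2) ?_ ?_ ?_ fun _ _ => rfl
  · intro p hp
    obtain ⟨h₁, h₂⟩ := Finset.mem_product.1 hp
    exact (mem_pdiv (mul_ne_zero ha hb)).2 ⟨(pra_of_mem_pdiv h₁).1.mul (pra_of_mem_pdiv h₂).1,
      mul_dvd_mul (pra_of_mem_pdiv h₁).2 (pra_of_mem_pdiv h₂).2⟩
  · intro p hp q hq hpq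
    obtain ⟨h₁, h₂⟩ := Finset.mem_product.1 hp
    obtain ⟨h₃, h₄⟩ := Finset.mem_product.1 hq
    obtain ⟨a₁, b₁⟩ := pra_of_mem_pdiv h₁
    obtain ⟨-, b₂⟩ := pra_of_mem_pdiv h₂
    obtain ⟨a₃, b₃⟩ := pra_of_mem_pdiv h₃
    obtain ⟨-, b₄⟩ := pra_of_mem_pdiv h₄
    have hpq' : p.1 * p.2 = q.1 * q.2 := hpq
    have e : p.1 = q.1 := a₁.dvd_antisymm a₃
      (((h.of_isCoprime_of_dvd_left b₁).of_isCoprime_of_dvd_right b₄).dvd_of_dvd_mul_right
        (hpq' ▸ dvd_mul_right _ _))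
      (((h.of_isCoprime_of_dvd_left b₃).of_isCoprime_of_dvd_right b₂).dvd_of_dvd_mul_right
        (hpq' ▸ dvd_mul_right _ _))
    refine Prod.ext e (mul_left_cancel₀ a₁.ne_zero ?_)
    rw [hpq', e]
  · intro d hd
    obtain ⟨h₁, h₂⟩ := pra_of_mem_pdiv hd
    obtain ⟨d₁, d₂, e₁, e₂, rfl⟩ := exists_dvd_and_dvd_of_dvd_mul h₂
    obtain ⟨u, m, hu, hm, rfl⟩ := exists_unit_prim
      fun hl => h₁.not_lam_dvd (hl.trans (dvd_mul_right d₁ d₂))
    have e : m * (u * d₂) = u * m * d₂ := by ring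
    refine ⟨(m, u * d₂), Finset.mem_product.2 ⟨(mem_pdiv ha).2 ⟨hm, (dvd_mul_left m u).trans e₁⟩,
      (mem_pdiv hb).2 ⟨hm.of_mul (e ▸ h₁), hu.mul_left_dvd.2 e₂⟩⟩, e⟩

/-- primary divisors of a squarefree element are products of subsets of its primes -/
theorem sum_pdiv_sqfree {M : Type*} [AddCommMonoid M] {n : O} (hs : Squarefree n) (f : O → M) :
    ∑ d ∈ pdiv n, f d = ∑ S ∈ (pfs n).powerset, f (∏ p ∈ S, p) := by
  have hn : n ≠ 0 := hs.ne_zero
  symm
  refine Finset.sum_bij (fun S _ => ∏ p ∈ S, p) ?_ ?_ ?_ fun _ _ => rfl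
  · intro S hS
    have hS' := Finset.mem_powerset.1 hS
    exact (mem_pdiv hn).2 ⟨prim_prod fun p hp => (pra_of_mem_pfs (hS' hp)).2.1,
      (Finset.prod_dvd_prod_of_subset _ _ _ hS').trans (rad_dvd n)⟩
  · intro S hS T hT h
    have hS' := Finset.mem_powerset.1 hS
    have hT' := Finset.mem_powerset.1 hT
    have h' : ∏ p ∈ S, p = ∏ p ∈ T, p := h
    rw [← pfs_prod (S := S) fun p hp => ⟨(pra_of_mem_pfs (hS' hp)).1, (pra_of_mem_pfs (hS' hp)).2.1⟩,
      h', pfs_prod fun p hp => ⟨(pra_of_mem_pfs (hT' hp)).1, (pra_of_mem_pfs (hT' hp)).2.1⟩]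
  · intro d hd
    obtain ⟨h₁, h₂⟩ := pra_of_mem_pdiv hd
    refine ⟨pfs d, Finset.mem_powerset.2 fun p hp => ?_, h₁.rad_eq (hs.squarefree_of_dvd h₂)⟩
    obtain ⟨a₁, a₂, a₃⟩ := pra_of_mem_pfs hp
    exact (mem_pfs hn).2 ⟨a₁, a₂, a₃.trans h₂⟩

/-! ### Decompositions -/

/-- squarefull -/
def Sqfull (f : O) : Prop := ∀ p : O, Prime p → p ∣ f → p ^ 2 ∣ f

theorem Prim.exists_sqfull {n : O} (hn : Prim n) :
    ∃ f m, Prim f ∧ Prim m ∧ Sqfull f ∧ Squarefree m ∧ IsCoprime f m ∧ n = f * m := by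
  refine hn.induction_coprime (P := fun n => ∃ f m, Prim f ∧ Prim m ∧ Sqfull f ∧ Squarefree m ∧
    IsCoprime f m ∧ n = f * m) ⟨1, 1, prim_one, prim_one, fun p hp h => absurd h hp.not_dvd_one,
      squarefree_one, isCoprime_one_left, (mul_one _).symm⟩ ?_
  rintro p k _ hp hpp - hnd ⟨f, m, hf, hm, h1, h2, h3, rfl⟩
  have c1 : IsCoprime p f := hp.coprime_iff_not_dvd.2 fun h => hnd (h.mul_right _)
  have c2 : IsCoprime p m := hp.coprime_iff_not_dvd.2 fun h => hnd (h.mul_left _)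
  rcases k with _ | k
  · refine ⟨f, p * m, hf, hpp.mul hm, h1, squarefree_mul_iff.2 ⟨c2.isRelPrime, hp.squarefree, h2⟩,
      c1.symm.mul_right h3, by ring⟩
  · refine ⟨p ^ (k + 2) * f, m, (hpp.pow _).mul hf, hm, fun r hr h => ?_, h2,
      c2.pow_left.mul_left h3, by ring⟩
    rcases hr.dvd_or_dvd h with h | h
    · exact ((pow_dvd_pow_of_dvd (hr.dvd_of_dvd_pow h) 2).trans
        (pow_dvd_pow p (by omega))).mul_right _
    · exact (h1 r hr h).mul_left _

theorem prb_sqfull_coprime {f f' m m' : O} (hf : Prim f) (h₁ : Sqfull f) (h₂' : Squarefree m')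
    (h₃' : IsCoprime f' m') (h : f * m = f' * m') : IsCoprime f m' := by
  refine (hf.coprime_iff _).2 fun p hp _ hpf hpm => ?_
  have c : IsCoprime (p ^ 2) f' := (h₃'.symm.of_isCoprime_of_dvd_left hpm).pow_left
  have : p ^ 2 ∣ m' := c.dvd_of_dvd_mul_left (h ▸ (h₁ p hp hpf).mul_right m)
  exact hp.not_isUnit (h₂' p (by rwa [← pow_two]))

theorem sqfull_unique {f f' m m' : O} (hf : Prim f) (hf' : Prim f') (hm : Prim m)
    (h₁ : Sqfull f) (h₁' : Sqfull f') (h₂ : Squarefree m) (h₂' : Squarefree m')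
    (h₃ : IsCoprime f m) (h₃' : IsCoprime f' m') (h : f * m = f' * m') : f = f' ∧ m = m' := by
  have e : f = f' := hf.dvd_antisymm hf'
    ((prb_sqfull_coprime hf h₁ h₂' h₃' h).dvd_of_dvd_mul_right (h ▸ dvd_mul_right f m))
    ((prb_sqfull_coprime hf' h₁' h₂ h₃ h.symm).dvd_of_dvd_mul_right (h ▸ dvd_mul_right f' m'))
  subst e
  have := hm
  exact ⟨rfl, mul_left_cancel₀ hf.ne_zero h⟩

theorem Sqfull.rad_sq_dvd {f : O} (h : Sqfull f) : rad f ^ 2 ∣ f := by
  by_cases h0 : f = 0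
  · rw [h0]; exact dvd_zero _
  rw [rad, ← Finset.prod_pow]
  refine Finset.prod_dvd_of_coprime (fun p hp p' hp' hne => ?_) fun p hp => ?_
  · obtain ⟨a1, a2, -⟩ := (mem_pfs h0).1 hp
    obtain ⟨b1, b2, -⟩ := (mem_pfs h0).1 hp'
    exact (a2.coprime_of_ne b2 a1 b1 hne).pow
  · obtain ⟨a1, -, a3⟩ := (mem_pfs h0).1 hp
    exact h p a1 a3

/-- `k`-th power free -/
def PowFree (k : ℕ) (c : O) : Prop := ∀ p : O, Prime p → ¬ p ^ k ∣ c

theorem powFree_two {c : O} (hc : c ≠ 0) : PowFree 2 c ↔ Squarefree c := by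
  rw [squarefree_iff_no_irreducibles hc]
  exact forall_congr' fun p => by rw [irreducible_iff_prime, pow_two]

theorem Prim.exists_powFree {n : O} (hn : Prim n) {k : ℕ} (hk : 0 < k) :
    ∃ c b, Prim c ∧ Prim b ∧ PowFree k c ∧ n = c * b ^ k := by
  refine hn.induction_coprime (P := fun n => ∃ c b, Prim c ∧ Prim b ∧ PowFree k c ∧ n = c * b ^ k)
    ⟨1, 1, prim_one, prim_one, fun p hp h => hp.not_dvd_one ((dvd_pow_self p hk.ne').trans h),
      by simp⟩ ?_
  rintro p j _ hp hpp - hnd ⟨c, b, hc, hb, h1, rfl⟩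
  refine ⟨p ^ ((j + 1) % k) * c, p ^ ((j + 1) / k) * b, (hpp.pow _).mul hc, (hpp.pow _).mul hb,
    fun r hr h => ?_, ?_⟩
  · by_cases hrp : r ∣ p
    · have ha : Associated r p := hr.associated_of_dvd hp hrp
      have c1 : IsCoprime p c := hp.coprime_iff_not_dvd.2 fun h => hnd (h.mul_right _)
      have h2 : p ^ k ∣ p ^ ((j + 1) % k) :=
        c1.pow_left.dvd_of_dvd_mul_right ((ha.pow_pow.dvd_iff_dvd_left).1 h)
      exact absurd ((pow_dvd_pow_iff hp.ne_zero hp.not_isUnit).1 h2) (not_le.2 (Nat.mod_lt _ hk))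
    · exact h1 r hr ((hr.coprime_iff_not_dvd.2 hrp).pow.dvd_of_dvd_mul_left h)
  · conv_lhs => rw [← Nat.mod_add_div' (j + 1) k]
    rw [pow_add, pow_mul]
    ring

theorem powFree_unique {k : ℕ} (hk : 0 < k) {c c' b b' : O} (hb : Prim b) (hb' : Prim b')
    (h₁ : PowFree k c) (h₁' : PowFree k c') (h : c * b ^ k = c' * b' ^ k) : c = c' ∧ b = b' := by
  obtain ⟨g, a, a', hg, ha, rfl, rfl, hco⟩ := hb.exists_gcd b'
  have ha' : Prim a' := hg.of_mul hb'
  have e : c * a ^ k = c' * a' ^ k :=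
    mul_left_cancel₀ (pow_ne_zero k hg.ne_zero) (by linear_combination h)
  have key : ∀ {c c' a a' : O}, Prim a → PowFree k c' → IsCoprime a a' → c * a ^ k = c' * a' ^ k →
      a = 1 := fun {c c' a a'} ha h1 hco e => by
    by_contra hne
    obtain ⟨p, hp, -, hpa⟩ := ha.exists_prime_dvd hne
    exact h1 p hp ((pow_dvd_pow_of_dvd hpa k).trans
      (hco.pow.dvd_of_dvd_mul_right (e ▸ dvd_mul_left _ _)))
  obtain rfl := key ha h₁' hco e
  obtain rfl := key ha' h₁ hco.symm e.symm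
  have := hk
  exact ⟨by simpa using e, rfl⟩

theorem prb_smooth {n : O} (hn : Prim n) (D : O) :
    ∃ (s m : O) (k : ℕ), Prim s ∧ s ∣ D ^ k ∧ Prim m ∧ IsCoprime m D ∧ n = s * m := by
  refine hn.induction (P := fun n => ∃ (s m : O) (k : ℕ), Prim s ∧ s ∣ D ^ k ∧ Prim m ∧
    IsCoprime m D ∧ n = s * m) ⟨1, 1, 0, prim_one, one_dvd _, prim_one, isCoprime_one_left,
      (mul_one _).symm⟩ ?_
  rintro p _ hp hpp - ⟨s, m, k, h1, h2, h3, h4, rfl⟩
  by_cases h : p ∣ D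
  · exact ⟨p * s, m, k + 1, hpp.mul h1, by rw [pow_succ']; exact mul_dvd_mul h h2, h3, h4, by ring⟩
  · exact ⟨s, p * m, k, h1, h2, hpp.mul h3, (hp.coprime_iff_not_dvd.2 h).mul_left h4, by ring⟩

/-- `q`-smooth part and the part prime to `q` (primary because `3 ∣ q`) -/
theorem exists_smooth_prim {q n : O} (h3 : (3 : O) ∣ q) (hn : n ≠ 0) :
    ∃ (s m : O) (k : ℕ), s ∣ q ^ k ∧ Prim m ∧ IsCoprime m q ∧ n = s * m := by
  obtain ⟨ζ, i, m, hζ, hm, rfl⟩ := exists_decomp hn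
  obtain ⟨s, m', k, -, h2, h4, h5, rfl⟩ := prb_smooth hm q
  refine ⟨ζ * lam ^ i * s, m', i + k, ?_, h4, h5, by ring⟩
  rw [mul_assoc, hζ.mul_left_dvd, pow_add]
  exact mul_dvd_mul (pow_dvd_pow_of_dvd (lam_dvd_three.trans h3) i) h2

theorem smooth_prim_unique {q s s' m m' : O} {k k' : ℕ} (hq : q ≠ 0) (hs : s ∣ q ^ k)
    (hs' : s' ∣ q ^ k') (hm : Prim m) (hm' : Prim m') (h₁ : IsCoprime m q) (h₁' : IsCoprime m' q)
    (h : s * m = s' * m') : s = s' ∧ m = m' := by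
  have e : m = m' := hm.dvd_antisymm hm'
    ((h₁.pow_right.of_isCoprime_of_dvd_right hs').dvd_of_dvd_mul_left (h ▸ dvd_mul_left m s))
    ((h₁'.pow_right.of_isCoprime_of_dvd_right hs).dvd_of_dvd_mul_left (h ▸ dvd_mul_left m' s'))
  subst e
  have := hq
  exact ⟨mul_right_cancel₀ hm.ne_zero h, rfl⟩

/-- primary version: `n = s m` with `s` primary `D`-smooth and `m` prime to `D` -/
theorem Prim.exists_smooth {n : O} (hn : Prim n) (D : O) :
    ∃ (s m : O) (k : ℕ), Prim s ∧ s ∣ D ^ k ∧ Prim m ∧ IsCoprime m D ∧ n = s * m := by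
  exact prb_smooth hn D

/-! ### The Möbius function -/

@[simp] theorem mu_one : mu 1 = 1 := by
  simp [mu]

theorem mu_unit {u : O} (h : IsUnit u) : mu u = 1 := by
  simp [mu, h.squarefree, UniqueFactorizationMonoid.factors_of_isUnit h]

theorem mu_prime {p : O} (hp : Prime p) : mu p = -1 := by
  simp [mu, hp.squarefree, UniqueFactorizationMonoid.card_factors_of_irreducible hp.irreducible]

theorem mu_assoc {a b : O} (h : Associated a b) : mu a = mu b := by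
  unfold mu
  rw [Multiset.card_eq_card_of_rel (UniqueFactorizationMonoid.factors_rel_of_associated h)]
  by_cases ha : Squarefree a
  · rw [if_pos ha, if_pos (h.squarefree_iff.1 ha)]
  · rw [if_neg ha, if_neg fun hb => ha (h.squarefree_iff.2 hb)]

theorem mu_mul {a b : O} (h : IsCoprime a b) : mu (a * b) = mu a * mu b := by
  by_cases ha : Squarefree a
  · by_cases hb : Squarefree b
    · have hab : Squarefree (a * b) := squarefree_mul_iff.2 ⟨h.isRelPrime, ha, hb⟩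
      simp only [mu, ha, hb, hab, if_true, Multiset.card_eq_card_of_rel
        (UniqueFactorizationMonoid.factors_mul ha.ne_zero hb.ne_zero), Multiset.card_add, pow_add]
    · have hab : ¬ Squarefree (a * b) := fun h => hb h.of_mul_right
      simp [mu, hb, hab]
  · have hab : ¬ Squarefree (a * b) := fun h => ha h.of_mul_left
    simp [mu, ha, hab]

open Classical in
theorem mu_mul' (a b : O) : mu (a * b) = if IsCoprime a b then mu a * mu b else 0 := by
  split_ifs with h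
  · exact mu_mul h
  · have hab : ¬ Squarefree (a * b) := fun h' => h (squarefree_mul_iff.1 h').1.isCoprime
    simp [mu, hab]

theorem mu_eq_zero {n : O} : mu n = 0 ↔ ¬ Squarefree n := by
  by_cases h : Squarefree n <;> simp [mu, h]

open Classical in
theorem mu_sq (n : O) : mu n ^ 2 = if Squarefree n then 1 else 0 := by
  by_cases h : Squarefree n
  · simp only [mu, h, if_true]
    rw [← pow_mul, mul_comm, pow_mul, neg_one_sq, one_pow]
  · simp [mu, h]

theorem norm_mu_le (n : O) : ‖mu n‖ ≤ 1 := by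
  by_cases h : Squarefree n <;> simp [mu, h]

theorem conj_mu (n : O) : conj (mu n) = mu n := by
  by_cases h : Squarefree n <;> simp [mu, h]

theorem prb_mu_prod {S : Finset O} (h : ∀ p ∈ S, Prime p ∧ Prim p) :
    mu (∏ p ∈ S, p) = (-1) ^ S.card := by
  classical
  induction S using Finset.induction_on with
  | empty => simp
  | insert p S hp ih =>
    have h1 := h p (Finset.mem_insert_self _ _)
    have h2 : ∀ r ∈ S, Prime r ∧ Prim r := fun r hr => h r (Finset.mem_insert_of_mem hr)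
    rw [Finset.prod_insert hp, Finset.card_insert_of_notMem hp, mu_mul (IsCoprime.prod_right
      fun r hr => h1.2.coprime_of_ne (h2 r hr).2 h1.1 (h2 r hr).1 fun e => hp (e ▸ hr)),
      mu_prime h1.1, ih h2]
    ring

theorem Prim.mu_eq {n : O} (hn : Prim n) (hs : Squarefree n) : mu n = (-1) ^ (pfs n).card := by
  conv_lhs => rw [← hn.rad_eq hs, rad]
  exact prb_mu_prod fun p hp => ⟨((mem_pfs hn.ne_zero).1 hp).1, ((mem_pfs hn.ne_zero).1 hp).2.1⟩

open Classical in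
theorem prb_sum {n : O} (hn : n ≠ 0) :
    ∑ d ∈ pdiv n, mu d = if ∀ p, Prime p → Prim p → ¬ p ∣ n then 1 else 0 := by
  have hr : rad n ≠ 0 := (prim_rad n).ne_zero
  have e1 : ∑ d ∈ pdiv n, mu d = ∑ d ∈ pdiv (rad n), mu d := by
    refine (Finset.sum_subset (fun d hd => ?_) fun d hd hd' => mu_eq_zero.2 fun hs => hd' ?_).symm
    · obtain ⟨h1, h2⟩ := (mem_pdiv hr).1 hd
      exact (mem_pdiv hn).2 ⟨h1, h2.trans (rad_dvd n)⟩
    · obtain ⟨h1, h2⟩ := (mem_pdiv hn).1 hd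
      refine (mem_pdiv hr).2 ⟨h1, ?_⟩
      rw [← h1.rad_eq hs, rad, rad]
      refine Finset.prod_dvd_prod_of_subset _ _ _ fun p hp => ?_
      obtain ⟨a1, a2, a3⟩ := (mem_pfs h1.ne_zero).1 hp
      exact (mem_pfs hn).2 ⟨a1, a2, a3.trans h2⟩
  rw [e1, sum_pdiv_sqfree (squarefree_rad n), pfs_rad, Finset.sum_congr rfl fun S hS => prb_mu_prod
    fun p hp => ⟨((mem_pfs hn).1 (Finset.mem_powerset.1 hS hp)).1,
      ((mem_pfs hn).1 (Finset.mem_powerset.1 hS hp)).2.1⟩]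
  have := congrArg (Int.cast : ℤ → ℂ) (Finset.sum_powerset_neg_one_pow_card (x := pfs n))
  push_cast at this
  rw [this]
  refine if_congr ?_ rfl rfl
  rw [Finset.eq_empty_iff_forall_notMem]
  exact forall_congr' fun p => by rw [mem_pfs hn]; tauto

open Classical in
theorem prb_sum_gcd {a : O} (ha : a ≠ 0) (b : O) :
    ∑ d ∈ pdiv a, (if d ∣ b then mu d else 0) =
      if ∀ p, Prime p → Prim p → p ∣ a → ¬ p ∣ b then 1 else 0 := by
  have hg : ∀ d, d ∣ IsBezout.gcd a b ↔ d ∣ a ∧ d ∣ b := fun d =>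
    ⟨fun h => ⟨h.trans (IsBezout.gcd_dvd_left a b), h.trans (IsBezout.gcd_dvd_right a b)⟩,
      fun h => IsBezout.dvd_gcd h.1 h.2⟩
  have g0 : IsBezout.gcd a b ≠ 0 := ne_zero_of_dvd_ne_zero ha (IsBezout.gcd_dvd_left a b)
  have e : (pdiv a).filter (· ∣ b) = pdiv (IsBezout.gcd a b) := by
    ext d
    rw [Finset.mem_filter, mem_pdiv ha, mem_pdiv g0, hg, and_assoc]
  rw [← Finset.sum_filter, e, prb_sum g0]
  refine if_congr (forall_congr' fun p => ?_) rfl rfl
  rw [hg]; tauto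

open Classical in
theorem sum_mu_pdiv {n : O} (hn : Prim n) : ∑ d ∈ pdiv n, mu d = if n = 1 then 1 else 0 := by
  rw [prb_sum hn.ne_zero]
  refine if_congr ⟨fun h => by_contra fun hne => ?_, fun h p hp _ hd => hp.not_dvd_one (h ▸ hd)⟩ rfl rfl
  obtain ⟨p, h1, h2, h3⟩ := hn.exists_prime_dvd hne
  exact h p h1 h2 h3

open Classical in
theorem sum_mu_coprime {a : O} (ha : Prim a) (b : O) :
    ∑ d ∈ pdiv a, (if d ∣ b then mu d else 0) = if IsCoprime a b then 1 else 0 := by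
  rw [prb_sum_gcd ha.ne_zero]
  exact if_congr (ha.coprime_iff b).symm rfl rfl

open Classical in
/-- mask by an arbitrary non-zero `D` on elements prime to `λ` -/
theorem sum_mu_coprime' {D n : O} (hD : D ≠ 0) (hn : ¬ lam ∣ n) :
    ∑ d ∈ pdiv D, (if d ∣ n then mu d else 0) = if IsCoprime n D then 1 else 0 := by
  rw [prb_sum_gcd hD]
  obtain ⟨u, m, hu, hm, rfl⟩ := exists_unit_prim hn
  refine if_congr ?_ rfl rfl
  rw [isCoprime_mul_unit_left_left hu, hm.coprime_iff]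
  refine forall_congr' fun p => ?_
  rw [hu.dvd_mul_left]; tauto

open Classical in
theorem sum_mu_sq {n : O} (hn : Prim n) :
    ∑ d ∈ pdiv n, (if d ^ 2 ∣ n then mu d else 0) = if Squarefree n then 1 else 0 := by
  obtain ⟨c, b, hc, hb, h1, rfl⟩ := hn.exists_powFree two_pos
  have hs := (powFree_two hc.ne_zero).1 h1
  have e : ∑ d ∈ pdiv (c * b ^ 2), (if d ^ 2 ∣ c * b ^ 2 then mu d else 0) =
      ∑ d ∈ pdiv (c * b ^ 2), (if d ∣ b then mu d else 0) := by
    refine Finset.sum_congr rfl fun d _ => ?_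
    by_cases hd : Squarefree d
    · refine if_congr ⟨fun h => (hd.dvd_pow_iff_dvd two_ne_zero).1
        (hs.dvd_of_squarefree_of_mul_dvd_mul_right (by rwa [← pow_two])),
        fun h => (pow_dvd_pow_of_dvd h 2).mul_left c⟩ rfl rfl
    · simp [mu_eq_zero.2 hd]
  rw [e, sum_mu_coprime hn]
  refine if_congr ⟨fun h => ?_, fun h => ?_⟩ rfl rfl
  · have hu : IsUnit b := h.isUnit_of_dvd' ((dvd_pow_self b two_ne_zero).mul_left c) dvd_rfl
    rw [hb.eq_one_of_isUnit hu, one_pow, mul_one]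
    exact hs
  · have hu : IsUnit b := h b (by rw [← pow_two]; exact dvd_mul_left _ _)
    rw [hb.eq_one_of_isUnit hu]
    exact isCoprime_one_right

/-! ### Reindexing of sums -/

theorem prc_gen {N A B : Type*} (P : A → B → Prop) [∀ a b, Decidable (P a b)] (e : A → B → N)
    {F : N → ℂ} (hF : Summable F)
    (inj : ∀ a b a' b', P a b → P a' b' → e a b = e a' b' → a = a' ∧ b = b')
    (surj : ∀ n, F n ≠ 0 → ∃ a b, P a b ∧ e a b = n) :
    ∑' n, F n = ∑' a, ∑' b, if P a b then F (e a b) else 0 := by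
  let S : Set (A × B) := {p | P p.1 p.2}
  have hi : Function.Injective fun p : S => e p.1.1 p.1.2 := fun p q h =>
    Subtype.ext (Prod.ext (inj _ _ _ _ p.2 q.2 h).1 (inj _ _ _ _ p.2 q.2 h).2)
  have h1 := hi.tsum_eq (f := F) fun n hn => by
    obtain ⟨a, b, h, rfl⟩ := surj n hn
    exact ⟨⟨(a, b), h⟩, rfl⟩
  have h2 : Summable (S.indicator fun p : A × B => F (e p.1 p.2)) :=
    summable_subtype_iff_indicator.1 (hF.comp_injective hi)
  rw [← h1, tsum_subtype S fun p : A × B => F (e p.1 p.2), h2.tsum_prod]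
  refine tsum_congr fun a => tsum_congr fun b => ?_
  by_cases h : P a b
  · rw [if_pos h, Set.indicator_of_mem (show (a, b) ∈ S from h)]
  · rw [if_neg h, Set.indicator_of_notMem (show (a, b) ∉ S from h)]

theorem prc_ite_tsum {B : Type*} (p : Prop) [Decidable p] (q : B → Prop) [DecidablePred q]
    [∀ b, Decidable (p ∧ q b)] (g : B → ℂ) :
    (∑' b, if p ∧ q b then g b else 0) = if p then ∑' b, (if q b then g b else 0) else 0 := by
  by_cases h : p <;> simp [h]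

open Classical in
theorem tsum_Pr_eq (f : O → ℂ) : ∑' n : Pr, f n = ∑' n : O, if Prim n then f n else 0 := by
  refine (tsum_subtype (Pr : Set O) f).trans (tsum_congr fun n => ?_)
  exact Set.indicator_apply _ _ _

theorem Summable.Pr {E : Type*} [NormedAddCommGroup E] [CompleteSpace E] {f : O → E}
    (h : Summable f) : Summable fun n : Pr => f n := h.subtype _

open Classical in
theorem tsum_dvd {d : O} (hd : d ≠ 0) (f : O → ℂ) :
    ∑' n : O, (if d ∣ n then f n else 0) = ∑' m : O, f (d * m) := by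
  rw [← (mul_right_injective₀ hd).tsum_eq (f := fun n => if d ∣ n then f n else 0)]
  · exact tsum_congr fun m => if_pos (dvd_mul_right _ _)
  · intro n hn
    by_cases h : d ∣ n
    · obtain ⟨m, rfl⟩ := h
      exact ⟨m, rfl⟩
    · exact absurd (if_neg h) hn

open Classical in
theorem tsum_Pr_dvd {d : O} (hd : Prim d) (f : O → ℂ) :
    ∑' n : Pr, (if d ∣ (n : O) then f n else 0) = ∑' m : Pr, f (d * m) := by
  have hi : Function.Injective fun m : Pr => (⟨d, hd⟩ * m : Pr) := fun m m' h =>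
    Subtype.ext (mul_left_cancel₀ hd.ne_zero (congrArg Subtype.val h))
  rw [← hi.tsum_eq (f := fun n : Pr => if d ∣ (n : O) then f n else 0)]
  · exact tsum_congr fun m => if_pos (dvd_mul_right _ _)
  · intro n hn
    by_cases h : d ∣ (n : O)
    · obtain ⟨m, hm, h1⟩ := hd.exists_mul n.2 h
      exact ⟨⟨m, hm⟩, Subtype.ext h1.symm⟩
    · exact absurd (if_neg h) hn

theorem prc_fiber {E : Type*} [NormedAddCommGroup E] [CompleteSpace E] {G : O × O → E} {a : E}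
    (h : HasSum (fun p : Pr × Pr => G (p.1, p.2)) a) :
    HasSum (fun n : Pr => ∑ p ∈ anti n, G p) a := by
  convert h.tsum_fiberwise fun p => p.1 * p.2 using 2 with n
  rw [← Finset.tsum_subtype]
  let e : ((fun p : Pr × Pr => p.1 * p.2) ⁻¹' {n} : Set (Pr × Pr)) ≃ {p // p ∈ anti n} :=
    { toFun := fun p => ⟨(p.1.1, p.1.2), mem_anti.2 ⟨p.1.1.2, p.1.2.2, congrArg Subtype.val p.2⟩⟩
      invFun := fun p => ⟨(⟨p.1.1, (mem_anti.1 p.2).1⟩, ⟨p.1.2, (mem_anti.1 p.2).2.1⟩),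
        Subtype.ext (mem_anti.1 p.2).2.2⟩
      left_inv := fun _ => rfl
      right_inv := fun _ => rfl }
  exact (e.tsum_eq fun p => G p).symm

theorem tsum_Pr_pairs {F : O → O → ℂ} (h : Summable fun p : Pr × Pr => F p.1 p.2) :
    ∑' p : Pr × Pr, F p.1 p.2 = ∑' n : Pr, ∑ p ∈ anti n, F p.1 p.2 := by
  exact (prc_fiber (G := fun p => F p.1 p.2) h.hasSum).tsum_eq.symm

theorem summable_Pr_anti {F : O → O → ℂ} (h : Summable fun p : Pr × Pr => F p.1 p.2) :
    Summable fun n : Pr => ∑ p ∈ anti n, ‖F p.1 p.2‖ := by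
  exact (prc_fiber (G := fun p => ‖F p.1 p.2‖) h.norm.hasSum).summable

/-- every non-zero element is `ζ λ^i n` -/
theorem tsum_decomp {f : O → ℂ} (h : Summable f) :
    ∑' n : O, f n = f 0 + ∑ j ∈ Finset.range 6, ∑' i : ℕ, ∑' n : Pr, f (zt ^ j * lam ^ i * n) := by
  classical
  have hi : Function.Injective fun p : Fin 6 × ℕ × Pr => zt ^ p.1.val * lam ^ p.2.1 * p.2.2 := by
    rintro ⟨j, i, n⟩ ⟨j', i', n'⟩ h1
    obtain ⟨h2, h3, h4⟩ := decomp_unique (isUnit_zt.pow _) (isUnit_zt.pow _) n.2 n'.2 h1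
    exact Prod.ext (Fin.ext (zt_pow_inj j.2 j'.2 h2)) (Prod.ext h3 (Subtype.ext h4))
  have h1 := hi.tsum_eq (f := fun n => if n = 0 then 0 else f n) fun n hn => by
    have h0 : n ≠ 0 := fun h0 => hn (if_pos h0)
    obtain ⟨ζ, i, m, h2, h3, rfl⟩ := exists_decomp h0
    obtain ⟨j, hj, rfl⟩ := isUnit_iff.1 h2
    exact ⟨(⟨j, hj⟩, i, ⟨m, h3⟩), rfl⟩
  have h2 : Summable fun p : Fin 6 × ℕ × Pr => f (zt ^ p.1.val * lam ^ p.2.1 * p.2.2) :=
    h.comp_injective hi
  rw [h.tsum_eq_add_tsum_ite 0, ← h1, Finset.sum_range]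
  congr 1
  rw [tsum_congr fun p : Fin 6 × ℕ × Pr => if_neg (mul_ne_zero (mul_ne_zero
    (isUnit_zt.pow _).ne_zero (pow_ne_zero _ lam_ne_zero)) (Pr_prim p.2.2).ne_zero),
    h2.tsum_prod, tsum_fintype]
  exact Finset.sum_congr rfl fun j _ => (h2.prod_factor j).tsum_prod

open Classical in
/-- elements prime to `λ` -/
theorem tsum_units {f : O → ℂ} (h : Summable f) :
    ∑' n : O, (if lam ∣ n then 0 else f n) = ∑ j ∈ Finset.range 6, ∑' n : Pr, f (zt ^ j * n) := by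
  have hi : Function.Injective fun p : Fin 6 × Pr => zt ^ p.1.val * p.2 := by
    rintro ⟨j, n⟩ ⟨j', n'⟩ h1
    obtain ⟨h2, -, h4⟩ := decomp_unique (i := 0) (i' := 0) (isUnit_zt.pow j.val)
      (isUnit_zt.pow j'.val) n.2 n'.2 (by simpa using h1)
    exact Prod.ext (Fin.ext (zt_pow_inj j.2 j'.2 h2)) (Subtype.ext h4)
  have h1 := hi.tsum_eq (f := fun n => if lam ∣ n then 0 else f n) fun n hn => by
    have h0 : ¬ lam ∣ n := fun h0 => hn (if_pos h0)
    obtain ⟨ζ, m, h2, h3, rfl⟩ := exists_unit_prim h0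
    obtain ⟨j, hj, rfl⟩ := isUnit_iff.1 h2
    exact ⟨(⟨j, hj⟩, ⟨m, h3⟩), rfl⟩
  have h2 : Summable fun p : Fin 6 × Pr => f (zt ^ p.1.val * p.2) := h.comp_injective hi
  rw [← h1, Finset.sum_range, tsum_congr fun p : Fin 6 × Pr => if_neg fun h3 =>
    (Pr_prim p.2).not_lam_dvd ((isUnit_zt.pow _).dvd_mul_left.1 h3), h2.tsum_prod, tsum_fintype]

open Classical in
theorem tsum_sqfull {F : O → ℂ} (h : Summable fun n : Pr => F n) :
    ∑' n : Pr, F n = ∑' f : Pr, if Sqfull f then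
      ∑' s : Pr, (if Squarefree (s : O) ∧ IsCoprime (f : O) s then F (f * s) else 0) else 0 := by
  rw [prc_gen (fun f s : Pr => Sqfull f ∧ Squarefree (s : O) ∧ IsCoprime (f : O) s)
    (fun f s => f * s) h]
  · exact tsum_congr fun f => prc_ite_tsum _ _ _
  · rintro f s f' s' ⟨h1, h2, h3⟩ ⟨h1', h2', h3'⟩ h4
    obtain ⟨h5, h6⟩ := sqfull_unique f.2 f'.2 s.2 h1 h1' h2 h2' h3 h3' (congrArg Subtype.val h4)
    exact ⟨Subtype.ext h5, Subtype.ext h6⟩
  · intro n _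
    obtain ⟨f, m, h1, h2, h3, h4, h5, h6⟩ := (Pr_prim n).exists_sqfull
    exact ⟨⟨f, h1⟩, ⟨m, h2⟩, ⟨h3, h4, h5⟩, Subtype.ext h6.symm⟩

open Classical in
theorem tsum_powFree {k : ℕ} (hk : 0 < k) {F : O → ℂ} (h : Summable fun n : Pr => F n) :
    ∑' n : Pr, F n = ∑' b : Pr, ∑' c : Pr, if PowFree k c then F (c * b ^ k) else 0 := by
  refine prc_gen (fun _ c : Pr => PowFree k c) (fun b c => c * b ^ k) h ?_ ?_
  · intro b c b' c' h1 h1' h4
    obtain ⟨h5, h6⟩ := powFree_unique hk b.2 b'.2 h1 h1' (congrArg Subtype.val h4)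
    exact ⟨Subtype.ext h6, Subtype.ext h5⟩
  · intro n _
    obtain ⟨c, b, h1, h2, h3, h4⟩ := (Pr_prim n).exists_powFree hk
    exact ⟨⟨b, h2⟩, ⟨c, h1⟩, h3, Subtype.ext h4.symm⟩

open Classical in
/-- `n = s m`, `s` smooth, `m` primary and prime to `q` -/
theorem tsum_smooth {q : O} (hq : q ≠ 0) (h3 : (3 : O) ∣ q) {F : O → ℂ} (h : Summable F) :
    ∑' n : O, F n = F 0 + ∑' s : O, if ∃ k, s ∣ q ^ k then
      ∑' m : Pr, (if IsCoprime (m : O) q then F (s * m) else 0) else 0 := by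
  have h' : Summable fun n => if n = 0 then 0 else F n := by
    refine h.norm.of_norm_bounded fun n => ?_
    split_ifs <;> simp
  rw [h.tsum_eq_add_tsum_ite 0, prc_gen (fun (s : O) (m : Pr) => (∃ k, s ∣ q ^ k) ∧
    IsCoprime (m : O) q) (fun s m => s * m) h']
  · congr 1
    refine tsum_congr fun s => ?_
    rw [← prc_ite_tsum]
    refine tsum_congr fun m => if_ctx_congr Iff.rfl (fun ⟨⟨k, hk⟩, _⟩ => if_neg ?_) fun _ => rfl
    exact mul_ne_zero (ne_zero_of_dvd_ne_zero (pow_ne_zero k hq) hk) (Pr_prim m).ne_zero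
  · rintro s m s' m' ⟨⟨k, h1⟩, h2⟩ ⟨⟨k', h1'⟩, h2'⟩ h4
    obtain ⟨h5, h6⟩ := smooth_prim_unique hq h1 h1' m.2 m'.2 h2 h2' h4
    exact ⟨h5, Subtype.ext h6⟩
  · intro n hn
    obtain ⟨s, m, k, h1, h2, h4, h5⟩ := exists_smooth_prim h3 fun h0 : n = 0 => hn (if_pos h0)
    exact ⟨s, ⟨m, h2⟩, ⟨⟨k, h1⟩, h4⟩, h5.symm⟩

open Classical in
theorem tsum_Pr_smooth {D : O} (hD : D ≠ 0) {F : O → ℂ} (h : Summable fun n : Pr => F n) :
    ∑' n : Pr, F n = ∑' s : Pr, if ∃ k, (s : O) ∣ D ^ k then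
      ∑' m : Pr, (if IsCoprime (m : O) D then F (s * m) else 0) else 0 := by
  rw [prc_gen (fun s m : Pr => (∃ k, (s : O) ∣ D ^ k) ∧ IsCoprime (m : O) D) (fun s m => s * m) h]
  · exact tsum_congr fun f => prc_ite_tsum _ _ _
  · rintro s m s' m' ⟨⟨k, h1⟩, h2⟩ ⟨⟨k', h1'⟩, h2'⟩ h4
    obtain ⟨h5, h6⟩ := smooth_prim_unique hD h1 h1' m.2 m'.2 h2 h2' (congrArg Subtype.val h4)
    exact ⟨Subtype.ext h5, Subtype.ext h6⟩
  · intro n _
    obtain ⟨s, m, k, h0, h1, h2, h4, h5⟩ := (Pr_prim n).exists_smooth D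
    exact ⟨⟨s, h0⟩, ⟨m, h2⟩, ⟨⟨k, h1⟩, h4⟩, Subtype.ext h5.symm⟩

open Classical in
/-- extracting the greatest common divisor -/
theorem tsum_gcd {F : O → O → ℂ} (h : Summable fun p : Pr × Pr => F p.1 p.2) :
    ∑' p : Pr × Pr, F p.1 p.2 = ∑' g : Pr, ∑' p : Pr × Pr,
      if IsCoprime (p.1 : O) p.2 then F (g * p.1) (g * p.2) else 0 := by
  refine prc_gen (fun (_ : Pr) (p : Pr × Pr) => IsCoprime (p.1 : O) p.2)
    (fun g p => (g * p.1, g * p.2)) h ?_ ?_
  · intro g p g' p' h1 h1' h4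
    obtain ⟨h5, h6, h7⟩ := gcd_unique g.2 g'.2 (congrArg Subtype.val (Prod.mk.inj h4).1)
      (congrArg Subtype.val (Prod.mk.inj h4).2) h1 h1'
    exact ⟨Subtype.ext h5, Prod.ext (Subtype.ext h6) (Subtype.ext h7)⟩
  · intro p _
    obtain ⟨g, a, b, h1, h2, h3, h4, h5⟩ := (Pr_prim p.1).exists_gcd p.2
    exact ⟨⟨g, h1⟩, (⟨a, h2⟩, ⟨b, h1.of_mul (h4 ▸ Pr_prim p.2)⟩), h5,
      Prod.ext (Subtype.ext h3.symm) (Subtype.ext h4.symm)⟩

end Crest.Agent.R17
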