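import Crest.Agent.R17.A.Count
import Crest.Agent.Lib.SW.Main

/-!
Row 17, block A0: many primary primes in dyadic intervals.
-/

set_option autoImplicit false

namespace Crest.Agent.R17

open scoped ComplexConjugate

theorem cta_exists_prim {r : ℕ} (hr : r.Prime) (h3 : r % 3 = 1) :
    ∃ p : O, Prime p ∧ Prim p ∧ nN p = r := by
  obtain ⟨p, hp⟩ := exists_nN_eq hr h3
  have h1 : ¬ lam ∣ p := fun h => by
    have := nN_dvd h
    rw [nN_lam, hp] at this
    omega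
  obtain ⟨u, m, hu, hm, rfl⟩ := exists_unit_prim h1
  rw [nN_mul, nN_eq_one.2 hu, one_mul] at hp
  exact ⟨m, prime_of_nN_prime (hp ▸ hr), hm, hp⟩

theorem exists_many_primes : ∃ c : ℝ, 0 < c ∧ ∃ P₀ : ℝ, ∀ P : ℝ, P₀ ≤ P → ∃ S : Finset O,
    (∀ p ∈ S, Prime p ∧ Prim p ∧ P ≤ nm p ∧ nm p ≤ 2 * P) ∧ c * P / Real.log P ≤ S.card := by
  classical
  obtain ⟨C, hC, hsw⟩ := SW.siegel_walfisz 1 1
  refine ⟨1 / 8, by norm_num, Real.exp (12 * C + 3), fun P hP => ?_⟩
  have hP3 : 12 * C + 3 + 1 ≤ P := (Real.add_one_le_exp _).trans hP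
  have hP0 : 0 < P := by linarith
  have hl : 12 * C + 3 ≤ Real.log P := (Real.le_log_iff_exp_le hP0).2 hP
  have hl2 : Real.log P ≤ Real.log (2 * P) := Real.log_le_log hP0 (by linarith)
  have hl3 : Real.log (2 * P) ≤ 2 * Real.log P := by
    rw [Real.log_mul two_ne_zero hP0.ne']
    have := Real.log_le_log two_pos (show 2 ≤ P by linarith)
    linarith
  have hl0 : 0 < Real.log P := by linarith
  have h1 := hsw P (by linarith) 3 (by norm_num) (by push_cast; linarith) 1 isCoprime_one_left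
  have h2 := hsw (2 * P) (by linarith) 3 (by norm_num) (by push_cast; linarith) 1
    isCoprime_one_left
  have ht : ((Nat.totient 3 : ℕ) : ℝ) = 2 := by
    rw [Nat.totient_prime Nat.prime_three]; norm_num
  rw [ht, pow_one, abs_le] at h1 h2
  have h3 : C * P / Real.log P ≤ P / 12 := by
    rw [div_le_iff₀ hl0]; nlinarith
  have h4 : C * (2 * P) / Real.log (2 * P) ≤ P / 6 := by
    rw [div_le_iff₀ (by linarith)]; nlinarith
  unfold SW.thetaAP at h1 h2
  set R₁ := (Finset.Icc 1 ⌊P⌋₊).filter (fun p : ℕ => p.Prime ∧ (p : ℤ) ≡ 1 [ZMOD (3 : ℕ)])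
  set R₂ := (Finset.Icc 1 ⌊2 * P⌋₊).filter (fun p : ℕ => p.Prime ∧ (p : ℤ) ≡ 1 [ZMOD (3 : ℕ)])
  have hsub : R₁ ⊆ R₂ := Finset.filter_subset_filter _
    (Finset.Icc_subset_Icc_right (Nat.floor_le_floor (by linarith)))
  have h5 := Finset.sum_sdiff (f := fun p : ℕ => Real.log p) hsub
  have hR : ∀ r ∈ R₂ \ R₁, r.Prime ∧ r % 3 = 1 ∧ P ≤ r ∧ (r : ℝ) ≤ 2 * P := fun r hr => by
    obtain ⟨h6, h7⟩ := Finset.mem_sdiff.1 hr
    obtain ⟨h8, h9⟩ := Finset.mem_filter.1 h6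
    have h10 : r ∉ Finset.Icc 1 ⌊P⌋₊ := fun h => h7 (Finset.mem_filter.2 ⟨h, h9⟩)
    rw [Finset.mem_Icc] at h8 h10
    refine ⟨h9.1, ?_, (Nat.lt_of_floor_lt (by omega)).le, (Nat.le_floor_iff (by linarith)).1 h8.2⟩
    have := h9.2
    unfold Int.ModEq at this
    omega
  have h6 : ∑ r ∈ R₂ \ R₁, Real.log r ≤ (R₂ \ R₁).card • (2 * Real.log P) :=
    Finset.sum_le_card_nsmul _ _ _ fun r hr =>
      (Real.log_le_log (by exact_mod_cast (hR r hr).1.pos) (hR r hr).2.2.2).trans hl3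
  rw [nsmul_eq_mul] at h6
  have h7 : ∀ r : ℕ, ∃ p : O, r ∈ R₂ \ R₁ → Prime p ∧ Prim p ∧ nN p = r := fun r => by
    by_cases hr : r ∈ R₂ \ R₁
    · exact (cta_exists_prim (hR r hr).1 (hR r hr).2.1).imp fun p hp _ => hp
    · exact ⟨0, fun h => absurd h hr⟩
  choose f hf using h7
  refine ⟨(R₂ \ R₁).image f, fun p hp => ?_, ?_⟩
  · obtain ⟨r, hr, rfl⟩ := Finset.mem_image.1 hp
    refine ⟨(hf r hr).1, (hf r hr).2.1, ?_⟩
    rw [nm, (hf r hr).2.2]
    exact (hR r hr).2.2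
  · rw [Finset.card_image_of_injOn fun r hr r' hr' h => by
      rw [← (hf r hr).2.2, h, (hf r' hr').2.2], div_le_iff₀ hl0]
    linarith [h1.2, h2.1]

/-- the same, avoiding the prime divisors of `D` with `N(D) ≤ P^A` -/
theorem exists_many_primes_coprime (A : ℝ) : ∃ c : ℝ, 0 < c ∧ ∃ P₀ : ℝ, ∀ (P : ℝ) (D : O), P₀ ≤ P →
    D ≠ 0 → nm D ≤ P ^ A → ∃ S : Finset O,
    (∀ p ∈ S, Prime p ∧ Prim p ∧ IsCoprime p D ∧ P ≤ nm p ∧ nm p ≤ 2 * P) ∧
      c * P / Real.log P ≤ S.card := by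
  classical
  obtain ⟨c, hc, P₀, h⟩ := exists_many_primes
  refine ⟨c / 2, by positivity, max P₀ (max 2 ((4 * |A| / c) ^ 2)), fun P D hP hD hA => ?_⟩
  obtain ⟨S, hS, hcard⟩ := h P ((le_max_left _ _).trans hP)
  have hP2 : 2 ≤ P := (le_max_left _ _).trans ((le_max_right _ _).trans hP)
  have hP3 : (4 * |A| / c) ^ 2 ≤ P := (le_max_right _ _).trans ((le_max_right _ _).trans hP)
  have hP0 : 0 < P := by linarith
  have hl0 : 0 < Real.log P := Real.log_pos (by linarith)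
  refine ⟨S.filter fun p => ¬ p ∣ D, fun p hp => ?_, ?_⟩
  · obtain ⟨h1, h2⟩ := Finset.mem_filter.1 hp
    exact ⟨(hS p h1).1, (hS p h1).2.1, (hS p h1).1.irreducible.coprime_iff_not_dvd.2 h2,
      (hS p h1).2.2⟩
  · have h1 := card_large_primes_le hD (P := P) (by linarith) (S := S.filter fun p => p ∣ D)
      fun p hp => by
        obtain ⟨h1, h2⟩ := Finset.mem_filter.1 hp
        exact ⟨(hS p h1).1, (hS p h1).2.1, h2, (hS p h1).2.2.1⟩
    have h2 : Real.log (nm D) / Real.log P ≤ |A| := by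
      rw [div_le_iff₀ hl0]
      refine (Real.log_le_log (nm_pos hD) hA).trans ?_
      rw [Real.log_rpow hP0]
      exact mul_le_mul_of_nonneg_right (le_abs_self A) hl0.le
    have h3 : |A| ≤ c / 2 * P / Real.log P := by
      have h4 : 4 * |A| / c ≤ Real.sqrt P := Real.le_sqrt_of_sq_le hP3
      have h5 : Real.log P ≤ 2 * Real.sqrt P := by
        have h6 := Real.log_le_sub_one_of_pos (Real.sqrt_pos.2 hP0)
        rw [Real.log_sqrt hP0.le] at h6
        linarith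
      rw [div_le_iff₀ hc] at h4
      rw [le_div_iff₀ hl0]
      have h6 := Real.mul_self_sqrt hP0.le
      have h7 := Real.sqrt_nonneg P
      have h8 := abs_nonneg A
      calc |A| * Real.log P ≤ |A| * (2 * Real.sqrt P) := by gcongr
        _ = 4 * |A| * Real.sqrt P / 2 := by ring
        _ ≤ Real.sqrt P * c * Real.sqrt P / 2 := by gcongr
        _ = c / 2 * P := by linear_combination c / 2 * h6
    have h4 : ((S.filter fun p => p ∣ D).card : ℝ) + (S.filter fun p => ¬ p ∣ D).card = S.card := by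
      exact_mod_cast Finset.card_filter_add_card_filter_not (s := S) fun p => p ∣ D
    have h5 : c * P / Real.log P = 2 * (c / 2 * P / Real.log P) := by ring
    linarith

theorem exists_prime_gt (X : ℝ) : ∃ p : O, Prime p ∧ Prim p ∧ X < nm p := by
  obtain ⟨c, hc, P₀, h⟩ := exists_many_primes
  obtain ⟨S, hS, hcard⟩ := h (max P₀ (max 2 (X + 1))) (le_max_left _ _)
  have h1 : 2 ≤ max P₀ (max 2 (X + 1)) := (le_max_left _ _).trans (le_max_right _ _)
  have h2 : X + 1 ≤ max P₀ (max 2 (X + 1)) := (le_max_right _ _).trans (le_max_right _ _)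
  have h3 : 0 < Real.log (max P₀ (max 2 (X + 1))) := Real.log_pos (by linarith)
  have h4 : (0 : ℝ) < S.card := lt_of_lt_of_le (by positivity) hcard
  obtain ⟨p, hp⟩ := Finset.card_pos.1 (Nat.cast_pos.1 h4)
  exact ⟨p, (hS p hp).1, (hS p hp).2.1, by linarith [(hS p hp).2.2.1]⟩

end Crest.Agent.R17
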