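import Crest.Agent.R17.A.Gam
import Crest.Agent.R17.A.Cubic

/-!
Row 17, block A3: sextic reciprocity, periodicity, characters modulo `q`.
-/

set_option autoImplicit false

namespace Crest.Agent.R17

open scoped ComplexConjugate

/-- sextic reciprocity -/
theorem sx_recip {a b : O} (ha : Prim a) (hb : Prim b) (ha2 : IsCoprime a 2) (hb2 : IsCoprime b 2) :
    sx a b = sx b a * eps a b := by
  rw [sx_eq_mul a hb2, sx_cube_recip (ha.coprime_six ha2) (hb.coprime_six hb2), cb_recip ha hb]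
  conv_rhs => rw [sx_eq_mul b ha2]
  ring

open Classical in
theorem sx_mul_conj_swap {a b : O} (ha : Prim a) (hb : Prim b) (ha2 : IsCoprime a 2)
    (hb2 : IsCoprime b 2) : sx a b * conj (sx b a) = if IsCoprime a b then eps a b else 0 := by
  rw [sx_recip ha hb ha2 hb2, mul_right_comm, sx_mul_conj]
  by_cases h : IsCoprime a b
  · rw [if_pos ⟨ha.coprime_six ha2, h.symm⟩, if_pos h, one_mul]
  · rw [if_neg fun h' => h h'.2.symm, if_neg h, zero_mul]

theorem gac_cube_per {n n' : O} (hn : IsCoprime n 6) (hn' : IsCoprime n' 6)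
    (h72 : (72 : O) ∣ n - n') (u : O) :
    u ≠ 0 → (∀ p, Prime p → p ∣ u → p ∣ n - n') → sx u n ^ 3 = sx u n' ^ 3 := by
  have h4 : (4 : O) ∣ n - n' := (Dvd.intro 18 (by norm_num)).trans h72
  have h8 : (8 : O) ∣ n - n' := (Dvd.intro 9 (by norm_num)).trans h72
  induction u using UniqueFactorizationMonoid.induction_on_prime with
  | h₁ => intro h; exact absurd rfl h
  | h₂ u hu =>
    intro _ _
    exact sx_cube_per hn hn' ((hu.mul_right_dvd).2 h4)
  | h₃ u p hu hp ih =>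
    intro _ h
    have h1 := ih hu fun r hr hru => h r hr (hru.mul_left p)
    have h2 : sx p n ^ 3 = sx p n' ^ 3 := by
      apply sx_cube_per hn hn'
      by_cases h2 : p ∣ 2
      · refine Dvd.dvd.trans ?_ h8
        have : (8 : O) = 4 * 2 := by norm_num
        rw [this]
        exact mul_dvd_mul_left 4 h2
      · have hc : IsCoprime p 2 := (Prime.coprime_iff_not_dvd hp).2 h2
        have hc4 : IsCoprime (4 : O) p := by
          have : (4 : O) = 2 * 2 := by norm_num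
          rw [this]
          exact hc.symm.mul_left hc.symm
        exact hc4.mul_dvd h4 (h p hp (dvd_mul_right p u))
    rw [sx_mul_left, sx_mul_left, mul_pow, mul_pow, h1, h2]

/-- A-per: periodicity in the lower argument modulo `lcm(72, rad u)` -/
theorem sx_per {u D n n' : O} {k : ℕ} (hu : u ∣ D ^ k) (h72 : (72 : O) ∣ n - n') (hD : D ∣ n - n') :
    sx u n = sx u n' := by
  have h6 : IsCoprime n 6 ↔ IsCoprime n' 6 := by
    obtain ⟨t, ht⟩ := h72
    have hnn : n = n' + 6 * (12 * t) := by linear_combination ht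
    rw [hnn]; exact IsCoprime.add_mul_left_left_iff
  by_cases hn : IsCoprime n 6
  · have hn' := h6.1 hn
    by_cases hu0 : u = 0
    · subst hu0
      have hD0 : D = 0 := eq_zero_of_pow_eq_zero (zero_dvd_iff.1 hu)
      rw [hD0, zero_dvd_iff, sub_eq_zero] at hD
      rw [hD]
    have h9 : (9 : O) ∣ n - n' := (Dvd.intro 8 (by norm_num)).trans h72
    rw [sx_eq_mul u (coprime_six_iff.1 hn).1, sx_eq_mul u (coprime_six_iff.1 hn').1,
      cb_per hu h9 hD, gac_cube_per hn hn' h72 u hu0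
        fun p hp hpu => (hp.dvd_of_dvd_pow (hpu.trans hu)).trans hD]
  · rw [sx_eq_zero_of_not_six hn, sx_eq_zero_of_not_six fun h' => hn (h6.2 h')]

/-! ### Levels -/

theorem Lev.mul {q u : O} (hq : Lev q) (hu : u ≠ 0) : Lev (q * u) := by
  exact ⟨mul_ne_zero hq.1 hu, hq.2.mul_right u⟩

theorem Lev.three_dvd {q : O} (hq : Lev q) : (3 : O) ∣ q := by
  exact (Dvd.intro 24 (by norm_num)).trans hq.2

theorem Lev.four_dvd {q : O} (hq : Lev q) : (4 : O) ∣ q := by
  exact (Dvd.intro 18 (by norm_num)).trans hq.2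

theorem Lev.coprime_six {q n : O} (hq : Lev q) (h : IsCoprime n q) : IsCoprime n 6 := by
  exact h.of_isCoprime_of_dvd_right ((Dvd.intro 12 (by norm_num)).trans hq.2)

theorem Lev.coprime_two {q n : O} (hq : Lev q) (h : IsCoprime n q) : IsCoprime n 2 := by
  exact h.of_isCoprime_of_dvd_right ((Dvd.intro 36 (by norm_num)).trans hq.2)

theorem lev_seventyTwo : Lev 72 := by
  exact ⟨by norm_num, dvd_rfl⟩

/-! ### Characters modulo `q` -/

theorem IsTw.isPer {q : O} {ψ : O → ℂ} (h : IsTw q ψ) : Per q ψ := h.per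

theorem twb_cop {q a b : O} (h : q ∣ a - b) (ha : IsCoprime a q) : IsCoprime b q := by
  obtain ⟨k, hk⟩ := h
  have : a = b + q * k := by rw [← hk]; ring
  rw [this] at ha
  exact ha.of_add_mul_left_left

theorem twb_symm {q a b : O} (h : q ∣ a - b) : q ∣ b - a := by
  rw [← neg_sub]; exact h.neg_right

theorem twb_inv {q a : O} (ha : IsCoprime a q) : ∃ b, IsCoprime b q ∧ q ∣ a * b - 1 := by
  obtain ⟨u, v, h⟩ := ha
  refine ⟨u, ⟨a, v, by rw [← h]; ring⟩, -v, ?_⟩
  rw [← h]; ring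

theorem twb_mk_eq {q a b : O} :
    Ideal.Quotient.mk (Ideal.span {q}) a = Ideal.Quotient.mk (Ideal.span {q}) b ↔ q ∣ a - b := by
  rw [Ideal.Quotient.eq, Ideal.mem_span_singleton]

theorem twb_unit {q a : O} : IsUnit (Ideal.Quotient.mk (Ideal.span {q}) a) ↔ IsCoprime a q := by
  constructor
  · intro h
    obtain ⟨y, hy⟩ := h.exists_right_inv
    obtain ⟨b, rfl⟩ := Ideal.Quotient.mk_surjective y
    rw [← map_mul, ← map_one (Ideal.Quotient.mk (Ideal.span {q})), twb_mk_eq] at hy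
    exact (twb_cop (twb_symm hy) isCoprime_one_left).of_mul_left_left
  · intro h
    obtain ⟨b, -, hb⟩ := twb_inv h
    refine IsUnit.of_mul_eq_one (Ideal.Quotient.mk _ b) ?_
    rw [← map_mul, ← map_one (Ideal.Quotient.mk (Ideal.span {q})), twb_mk_eq]
    exact hb

theorem twb_pow {q : O} {ψ : O → ℂ} (h : IsTw q ψ) (a : O) (k : ℕ) : ψ (a ^ k) = ψ a ^ k := by
  induction k with
  | zero => rw [pow_zero, pow_zero, h.one]
  | succ k ih => rw [pow_succ, h.mul, ih, pow_succ]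

theorem IsTw.norm_eq {q : O} {ψ : O → ℂ} (h : IsTw q ψ) (hq : q ≠ 0) {a : O} (ha : IsCoprime a q) :
    ‖ψ a‖ = 1 := by
  have := finite_quot hq
  obtain ⟨u, hu⟩ := twb_unit.2 ha
  obtain ⟨n, hn, hun⟩ := isOfFinOrder_iff_pow_eq_one.1 (isOfFinOrder_of_finite u)
  have h1 : q ∣ a ^ n - 1 := by
    rw [← twb_mk_eq, _root_.map_pow, ← hu, ← Units.val_pow_eq_pow_val, hun, map_one, Units.val_one]
  refine Complex.norm_eq_one_of_pow_eq_one (n := n) ?_ hn.ne'
  rw [← twb_pow h, h.per _ _ h1, h.one]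

theorem IsTw.norm_le {q : O} {ψ : O → ℂ} (h : IsTw q ψ) (hq : q ≠ 0) (a : O) : ‖ψ a‖ ≤ 1 := by
  by_cases ha : IsCoprime a q
  · exact (h.norm_eq hq ha).le
  · rw [h.zero a ha, norm_zero]; exact zero_le_one

theorem IsTw.ne_zero {q : O} {ψ : O → ℂ} (h : IsTw q ψ) {a : O} : ψ a ≠ 0 ↔ IsCoprime a q := by
  refine ⟨fun h0 => by_contra fun ha => h0 (h.zero a ha), fun ha h0 => ?_⟩
  obtain ⟨b, -, hb⟩ := twb_inv ha
  have := h.per _ _ hb
  rw [h.mul, h0, zero_mul, h.one] at this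
  exact zero_ne_one this

theorem IsTw.mul_conj {q : O} {ψ : O → ℂ} (h : IsTw q ψ) (hq : q ≠ 0) (a : O) :
    ψ a * conj (ψ a) = R17.one q a := by
  unfold R17.one
  split_ifs with ha
  · rw [Complex.mul_conj, Complex.normSq_eq_norm_sq, h.norm_eq hq ha]
    simp
  · rw [h.zero a ha, zero_mul]

theorem IsTw.map_pow {q : O} {ψ : O → ℂ} (h : IsTw q ψ) (a : O) (k : ℕ) : ψ (a ^ k) = ψ a ^ k := by
  exact twb_pow h a k

theorem IsTw.map_prod {ι : Type*} {q : O} {ψ : O → ℂ} (h : IsTw q ψ) (s : Finset ι) (f : ι → O) :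
    ψ (∏ i ∈ s, f i) = ∏ i ∈ s, ψ (f i) := by
  classical
  induction s using Finset.induction_on with
  | empty => simpa using h.one
  | insert i s hi ih => rw [Finset.prod_insert hi, Finset.prod_insert hi, h.mul, ih]

theorem isTw_one (q : O) : IsTw q (one q) := by
  refine ⟨by simp [one, isCoprime_one_left], fun a b => ?_, fun a b hab => ?_, fun a ha => ?_⟩
  · unfold one
    by_cases ha : IsCoprime a q <;> by_cases hb : IsCoprime b q <;>
      simp [ha, hb, IsCoprime.mul_left_iff]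
  · have : IsCoprime a q ↔ IsCoprime b q := ⟨twb_cop hab, twb_cop (twb_symm hab)⟩
    unfold one
    rw [propext this]
  · simp [one, ha]

theorem IsTw.mul' {q : O} {ψ φ : O → ℂ} (h : IsTw q ψ) (h' : IsTw q φ) :
    IsTw q fun n => ψ n * φ n := by
  refine ⟨by rw [h.one, h'.one, one_mul], fun a b => ?_, fun a b hab => ?_, fun a ha => ?_⟩
  · rw [h.mul, h'.mul]; ring
  · rw [h.per a b hab, h'.per a b hab]
  · rw [h.zero a ha, zero_mul]

theorem IsTw.conj {q : O} {ψ : O → ℂ} (h : IsTw q ψ) : IsTw q fun n => conj (ψ n) := by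
  refine ⟨by rw [h.one, map_one], fun a b => ?_, fun a b hab => ?_, fun a ha => ?_⟩
  · rw [h.mul, map_mul]
  · rw [h.per a b hab]
  · rw [h.zero a ha, map_zero]

theorem IsTw.pow {q : O} {ψ : O → ℂ} (h : IsTw q ψ) {k : ℕ} (hk : k ≠ 0) :
    IsTw q fun n => ψ n ^ k := by
  refine ⟨by rw [h.one, one_pow], fun a b => ?_, fun a b hab => ?_, fun a ha => ?_⟩
  · rw [h.mul, mul_pow]
  · rw [h.per a b hab]
  · rw [h.zero a ha, zero_pow hk]

/-- multiply by a function that is multiplicative and periodic on elements prime to `q` -/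
theorem IsTw.mul_of {q : O} {ψ φ : O → ℂ} (h : IsTw q ψ) (h1 : φ 1 = 1)
    (hm : ∀ a b, IsCoprime a q → IsCoprime b q → φ (a * b) = φ a * φ b)
    (hp : ∀ a b, IsCoprime a q → q ∣ a - b → φ a = φ b) : IsTw q fun n => ψ n * φ n := by
  refine ⟨by rw [h.one, h1, one_mul], fun a b => ?_, fun a b hab => ?_, fun a ha => ?_⟩
  · rw [h.mul]
    by_cases ha : IsCoprime a q
    · by_cases hb : IsCoprime b q
      · rw [hm a b ha hb]; ring
      · rw [h.zero b hb]; ring
    · rw [h.zero a ha]; ring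
  · by_cases ha : IsCoprime a q
    · rw [h.per a b hab, hp a b ha hab]
    · rw [← h.per a b hab, h.zero a ha, zero_mul, zero_mul]
  · rw [h.zero a ha, zero_mul]

/-- a character of a smaller modulus -/
theorem IsTw.mul_dvd {q q' : O} {ψ φ : O → ℂ} (h : IsTw q ψ) (h' : IsTw q' φ) (hd : q' ∣ q) :
    IsTw q fun n => ψ n * φ n := by
  exact h.mul_of h'.one (fun a b _ _ => h'.mul a b) fun a b _ hab => h'.per a b (hd.trans hab)

theorem IsTw.lift {q q' : O} {ψ : O → ℂ} (h : IsTw q ψ) (hd : q ∣ q') :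
    IsTw q' fun n => ψ n * R17.one q' n := by
  have := (isTw_one q').mul_dvd h hd
  simpa only [mul_comm] using this

theorem IsTw.rc {q u : O} {ψ : O → ℂ} (h : IsTw q ψ) (hq : Lev q) : IsTw (q * u) (rc ψ u) := by
  refine ⟨by simp [R17.rc, h.one], fun a b => ?_, fun a b hab => ?_, fun a ha => ?_⟩
  · simp only [R17.rc, h.mul, sx_mul_right]; ring
  · have hq' : q ∣ a - b := (dvd_mul_right q u).trans hab
    simp only [R17.rc]
    rw [h.per a b hq', sx_per (k := 1) (by rw [pow_one]) (hq.2.trans hq')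
      ((dvd_mul_left u q).trans hab)]
  · simp only [R17.rc]
    by_cases h1 : IsCoprime a q
    · rw [sx_eq_zero_of_not_coprime fun h2 => ha (h1.mul_right h2.symm), mul_zero]
    · rw [h.zero a h1, zero_mul]

/-- the same with any modulus `q D`, `u ∣ D ^ k`, `D ∣ u ^ k'` -/
theorem IsTw.rc_rad {q u D : O} {ψ : O → ℂ} {k k' : ℕ} (h : IsTw q ψ) (hq : Lev q)
    (hu : u ∣ (q * D) ^ k) (hD : D ∣ (q * u) ^ k') : IsTw (q * D) (R17.rc ψ u) := by
  refine ⟨by simp [R17.rc, h.one], fun a b => ?_, fun a b hab => ?_, fun a ha => ?_⟩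
  · simp only [R17.rc, h.mul, sx_mul_right]; ring
  · have hq' : q ∣ a - b := (dvd_mul_right q D).trans hab
    simp only [R17.rc]
    rw [h.per a b hq', sx_per hu (hq.2.trans hq') hab]
  · simp only [R17.rc]
    by_cases h1 : IsCoprime a q
    · rw [sx_eq_zero_of_not_coprime fun h2 => ha (h1.mul_right
        (((h1.mul_right h2.symm).pow_right (n := k')).of_isCoprime_of_dvd_right hD)), mul_zero]
    · rw [h.zero a h1, zero_mul]

theorem IsTw.rc_smooth {q s : O} {ψ : O → ℂ} {k : ℕ} (h : IsTw q ψ) (hq : Lev q) (hs : s ∣ q ^ k) :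
    IsTw q (R17.rc ψ s) := by
  refine ⟨by simp [R17.rc, h.one], fun a b => ?_, fun a b hab => ?_, fun a ha => ?_⟩
  · simp only [R17.rc, h.mul, sx_mul_right]; ring
  · simp only [R17.rc]
    rw [h.per a b hab, sx_per hs (hq.2.trans hab) hab]
  · simp only [R17.rc]
    rw [h.zero a ha, zero_mul]

theorem IsTw.mul_cb {q s : O} {ψ : O → ℂ} {k : ℕ} (h : IsTw q ψ) (hq : Lev q) (hs : s ∣ q ^ k) :
    IsTw q fun n => ψ n * cb s n := by
  refine ⟨by simp [h.one], fun a b => ?_, fun a b hab => ?_, fun a ha => ?_⟩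
  · simp only [h.mul, cb_mul_right]; ring
  · rw [h.per a b hab, cb_per hs (((Dvd.intro 8 (by norm_num)).trans hq.2).trans hab) hab]
  · rw [h.zero a ha, zero_mul]

theorem IsTw.mul_eps {q a : O} {ψ : O → ℂ} (h : IsTw q ψ) (hq : (4 : O) ∣ q) (ha : IsCoprime a 2) :
    IsTw q fun n => ψ n * eps a n := by
  have h2 : ∀ n : O, IsCoprime n q → IsCoprime n 2 := fun n hn =>
    hn.of_isCoprime_of_dvd_right ((Dvd.intro 2 (by norm_num)).trans hq)
  exact h.mul_of (eps_one_right ha) (fun b b' hb hb' => eps_mul_right ha (h2 b hb) (h2 b' hb'))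
    fun b b' hb hbb => eps_congr ha (h2 b hb) (by simp) (hq.trans hbb)

open Classical in
/-- the finite set of characters modulo `q` -/
noncomputable def Tw (q : O) : Finset (O → ℂ) :=
  if h : {ψ : O → ℂ | IsTw q ψ}.Finite then h.toFinset else ∅

/-- the function on `O` attached to a character of the residue ring -/
noncomputable def twbf (q : O) (χ : MulChar (O ⧸ Ideal.span {q}) ℂ) : O → ℂ :=
  fun a => χ (Ideal.Quotient.mk _ a)

theorem twbf_inj (q : O) : Function.Injective (twbf q) := by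
  intro χ χ' h
  refine MulChar.ext' fun y => ?_
  obtain ⟨a, rfl⟩ := Ideal.Quotient.mk_surjective y
  exact congrFun h a

theorem twbf_isTw (q : O) (χ : MulChar (O ⧸ Ideal.span {q}) ℂ) : IsTw q (twbf q χ) := by
  refine ⟨by simp [twbf], fun a b => by simp [twbf], fun a b hab => ?_, fun a ha => ?_⟩
  · simp only [twbf, twb_mk_eq.2 hab]
  · exact χ.map_nonunit fun hu => ha (twb_unit.1 hu)

theorem twbf_surj {q : O} {ψ : O → ℂ} (h : IsTw q ψ) : ∃ χ, twbf q χ = ψ := by
  have hout : ∀ a : O, ψ (Quotient.out (Ideal.Quotient.mk (Ideal.span {q}) a)) = ψ a := fun a =>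
    h.per _ _ (twb_mk_eq.1 (Ideal.Quotient.mk_out _))
  refine ⟨{ toFun := fun y => ψ (Quotient.out y)
            map_one' := by rw [← map_one (Ideal.Quotient.mk (Ideal.span {q})), hout, h.one]
            map_mul' := fun x y => ?_
            map_nonunit' := fun x hx => ?_ }, funext hout⟩
  · obtain ⟨a, rfl⟩ := Ideal.Quotient.mk_surjective x
    obtain ⟨b, rfl⟩ := Ideal.Quotient.mk_surjective y
    rw [← map_mul, hout, hout, hout, h.mul]
  · obtain ⟨a, rfl⟩ := Ideal.Quotient.mk_surjective x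
    change ψ _ = 0
    rw [hout]
    exact h.zero a fun ha => hx (twb_unit.2 ha)

theorem twb_finite {q : O} (hq : q ≠ 0) : {ψ : O → ℂ | IsTw q ψ}.Finite := by
  have := finite_quot hq
  exact (Set.finite_range (twbf q)).subset fun ψ hψ => twbf_surj hψ

theorem mem_Tw {q : O} (hq : q ≠ 0) {ψ : O → ℂ} : ψ ∈ Tw q ↔ IsTw q ψ := by
  rw [Tw, dif_pos (twb_finite hq), Set.Finite.mem_toFinset]
  rfl

theorem twb_sum {M : Type*} [AddCommMonoid M] {q : O} (hq : q ≠ 0)
    [Fintype (MulChar (O ⧸ Ideal.span {q}) ℂ)] (F : (O → ℂ) → M) :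
    ∑ ψ ∈ Tw q, F ψ = ∑ χ, F (twbf q χ) := by
  symm
  refine Finset.sum_bij (fun χ _ => twbf q χ) (fun χ _ => (mem_Tw hq).2 (twbf_isTw q χ))
    (fun χ _ χ' _ h => twbf_inj q h) (fun ψ hψ => ?_) fun _ _ => rfl
  obtain ⟨χ, hχ⟩ := twbf_surj ((mem_Tw hq).1 hψ)
  exact ⟨χ, Finset.mem_univ _, hχ⟩

theorem twb_card {q : O} (hq : q ≠ 0) : (Tw q).card = Nat.card (O ⧸ Ideal.span {q})ˣ := by
  have := finite_quot hq
  have := Fintype.ofFinite (MulChar (O ⧸ Ideal.span {q}) ℂ)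
  rw [← MulChar.card_eq_card_units_of_hasEnoughRootsOfUnity _ ℂ, Finset.card_eq_sum_ones,
    twb_sum hq, Nat.card_eq_fintype_card]
  simp

theorem card_Tw_pos {q : O} (hq : q ≠ 0) : 0 < (Tw q).card := by
  exact Finset.card_pos.2 ⟨one q, (mem_Tw hq).2 (isTw_one q)⟩

theorem card_Tw_le {q : O} (hq : q ≠ 0) : ((Tw q).card : ℝ) ≤ nm q := by
  have := finite_quot hq
  rw [twb_card hq, nm, ← card_quot]
  exact_mod_cast Nat.card_le_card_of_injective _ Units.val_injective

theorem rsum_one {q : O} (hq : q ≠ 0) : rsum q (one q) = (Tw q).card := by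
  classical
  have := finite_quot hq
  have := Fintype.ofFinite (O ⧸ Ideal.span {q})
  have h1 : one q = fun y =>
      (1 : MulChar (O ⧸ Ideal.span {q}) ℂ) (Ideal.Quotient.mk (Ideal.span {q}) y) := by
    funext y
    unfold one
    split_ifs with hy
    · exact (MulChar.one_apply (twb_unit.2 hy)).symm
    · exact (MulChar.map_nonunit _ fun hu => hy (twb_unit.1 hu)).symm
  rw [h1, rsum_eq_quot, MulChar.sum_one_eq_card_units, twb_card hq, Nat.card_eq_fintype_card]

theorem IsTw.rsum_eq_zero {q : O} {ψ : O → ℂ} (h : IsTw q ψ) (hq : q ≠ 0) (hne : ψ ≠ R17.one q) :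
    rsum q ψ = 0 := by
  obtain ⟨a, ha⟩ := Function.ne_iff.1 hne
  have hc : IsCoprime a q := by
    by_contra hc
    exact ha (by rw [h.zero a hc, (isTw_one q).zero a hc])
  have h1 : ψ a ≠ 1 := by
    intro h1
    exact ha (by rw [h1]; simp [R17.one, hc])
  refine eq_zero_of_mul_eq_self_left h1 ?_
  rw [← rsum_mul_left]
  simp only [← h.mul]
  exact rsum_mul_arg hq hc h.isPer

open Classical in
theorem IsTw.rsum_prim_eq_zero {q : O} {ψ : O → ℂ} (h : IsTw q ψ) (hq : q ≠ 0) (h3 : (3 : O) ∣ q)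
    (hne : ¬ Princ ψ) : rsum q (fun n => if Prim n then ψ n else 0) = 0 := by
  unfold Princ at hne
  push Not at hne
  obtain ⟨n, h0, h1⟩ := hne
  have hn : Prim (n : O) := n.2
  have hper : Per q fun n => if Prim n then ψ n else 0 := fun a b hab => by
    have : Prim a ↔ Prim b :=
      ⟨fun ha => ha.congr (h3.trans hab), fun hb => hb.congr (h3.trans (twb_symm hab))⟩
    simp only [this, h.per a b hab]
  refine eq_zero_of_mul_eq_self_left h1 ?_
  rw [← rsum_mul_left, ← rsum_mul_arg hq (h.ne_zero.1 h0) hper]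
  congr 1
  funext y
  have : Prim (n * y) ↔ Prim y := ⟨hn.of_mul, hn.mul⟩
  simp only [this, h.mul, mul_ite, mul_zero]

open Classical in
theorem sum_Tw {q : O} (hq : q ≠ 0) (a b : O) :
    ∑ ψ ∈ Tw q, ψ a * conj (ψ b) =
      if IsCoprime a q ∧ q ∣ a - b then ((Tw q).card : ℂ) else 0 := by
  split_ifs with hab
  · rw [Finset.card_eq_sum_ones, Nat.cast_sum]
    refine Finset.sum_congr rfl fun ψ hψ => ?_
    have h := (mem_Tw hq).1 hψ
    rw [← h.per a b hab.2, h.mul_conj hq]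
    simp [one, hab.1]
  by_cases ha : IsCoprime a q
  swap
  · exact Finset.sum_eq_zero fun ψ hψ => by rw [((mem_Tw hq).1 hψ).zero a ha, zero_mul]
  by_cases hb : IsCoprime b q
  swap
  · exact Finset.sum_eq_zero fun ψ hψ => by rw [((mem_Tw hq).1 hψ).zero b hb, map_zero, mul_zero]
  obtain ⟨b', hb', hbb⟩ := twb_inv hb
  have h1 : ∀ ψ ∈ Tw q, ψ a * conj (ψ b) = ψ (a * b') := fun ψ hψ => by
    have h := (mem_Tw hq).1 hψ
    have e1 : ψ b * ψ b' = 1 := by rw [← h.mul, h.per _ _ hbb, h.one]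
    have e2 : ψ b * conj (ψ b) = 1 := by rw [h.mul_conj hq]; simp [one, hb]
    rw [h.mul, mul_left_cancel₀ (h.ne_zero.2 hb) (e2.trans e1.symm)]
  rw [Finset.sum_congr rfl h1]
  have := finite_quot hq
  have := Fintype.ofFinite (MulChar (O ⧸ Ideal.span {q}) ℂ)
  have hne : Ideal.Quotient.mk (Ideal.span {q}) (a * b') ≠ 1 := by
    intro he
    rw [← map_one (Ideal.Quotient.mk (Ideal.span {q})), twb_mk_eq] at he
    refine hab ⟨ha, ?_⟩
    have : a - b = b * (a * b' - 1) - a * (b * b' - 1) := by ring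
    rw [this]
    exact (he.mul_left b).sub (hbb.mul_left a)
  rw [twb_sum hq]
  obtain ⟨χ, hχ⟩ := MulChar.exists_apply_ne_one_of_hasEnoughRootsOfUnity _ ℂ hne
  refine eq_zero_of_mul_eq_self_left hχ ?_
  simp only [twbf, Finset.mul_sum, ← MulChar.mul_apply]
  exact Fintype.sum_bijective _ (Group.mulLeft_bijective χ) _ _ fun χ' => rfl

/-- the coefficient of `ψ` in the expansion of `f` -/
noncomputable def twbc (q : O) (f ψ : O → ℂ) : ℂ :=
  ((Tw q).card : ℂ)⁻¹ * rsum q fun b => f b * conj (ψ b)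

theorem twbc_le {q : O} (hq : q ≠ 0) {f ψ : O → ℂ} {B : ℝ} (h : IsTw q ψ)
    (hB : ∀ a, IsCoprime a q → ‖f a‖ ≤ B) : ‖twbc q f ψ‖ ≤ B := by
  have hpos : (0 : ℝ) < (Tw q).card := by exact_mod_cast card_Tw_pos hq
  have h1 : ∑ b ∈ res q, (one q b).re = (Tw q).card := by
    rw [← Complex.re_sum, ← rsum_eq_sum hq, rsum_one hq, Complex.natCast_re]
  have h2 : ‖rsum q fun b => f b * conj (ψ b)‖ ≤ (Tw q).card * B := by
    rw [rsum_eq_sum hq, ← h1, Finset.sum_mul]
    refine norm_sum_le_of_le _ fun b _ => ?_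
    by_cases hb : IsCoprime b q
    · rw [norm_mul, Complex.norm_conj, h.norm_eq hq hb]
      simpa [one, hb] using hB b hb
    · simp [one, hb, h.zero b hb]
  rw [twbc, norm_mul, norm_inv, Complex.norm_natCast, inv_mul_le_iff₀ hpos]
  exact h2

theorem twbc_sum {q : O} (hq : q ≠ 0) {f : O → ℂ}
    (hp : ∀ a b, IsCoprime a q → q ∣ a - b → f a = f b) {a : O} (ha : IsCoprime a q) :
    f a = ∑ ψ ∈ Tw q, twbc q f ψ * ψ a := by
  classical
  have hne : ((Tw q).card : ℂ) ≠ 0 := by exact_mod_cast (card_Tw_pos hq).ne'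
  have h1 : ∑ ψ ∈ Tw q, twbc q f ψ * ψ a =
      ((Tw q).card : ℂ)⁻¹ * ∑ b ∈ res q, f b * ∑ ψ ∈ Tw q, ψ a * conj (ψ b) := by
    simp only [twbc, rsum_eq_sum hq, Finset.mul_sum, Finset.sum_mul]
    rw [Finset.sum_comm]
    refine Finset.sum_congr rfl fun _ _ => Finset.sum_congr rfl fun _ _ => by ring
  obtain ⟨b, hb, hab⟩ := exists_res hq a
  rw [h1, Finset.sum_eq_single_of_mem b hb, sum_Tw hq, if_pos ⟨ha, hab⟩, hp a b ha hab]
  · field_simp
  · intro b' hb' hne'
    rw [sum_Tw hq, if_neg, mul_zero]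
    rintro ⟨-, h2⟩
    refine hne' (res_inj hb' hb ?_)
    have : b' - b = (a - b) - (a - b') := by ring
    rw [this]
    exact hab.sub h2

/-- expansion of a function of the unit classes modulo `q` -/
theorem exists_Tw_expand {q : O} (hq : q ≠ 0) {f : O → ℂ} {B : ℝ}
    (hp : ∀ a b, IsCoprime a q → q ∣ a - b → f a = f b) (hB : ∀ a, IsCoprime a q → ‖f a‖ ≤ B) :
    ∃ c : (O → ℂ) → ℂ, (∀ ψ, ‖c ψ‖ ≤ B) ∧
      ∀ a, IsCoprime a q → f a = ∑ ψ ∈ Tw q, c ψ * ψ a := by
  classical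
  have hB0 : 0 ≤ B := (norm_nonneg _).trans (hB 1 isCoprime_one_left)
  refine ⟨fun ψ => if ψ ∈ Tw q then twbc q f ψ else 0, fun ψ => ?_, fun a ha => ?_⟩
  · dsimp only
    split_ifs with hψ
    · exact twbc_le hq ((mem_Tw hq).1 hψ) hB
    · rwa [norm_zero]
  · rw [twbc_sum hq hp ha]
    exact Finset.sum_congr rfl fun ψ hψ => by simp only [if_pos hψ]

theorem exists_Tw_expand₂ {q : O} (hq : q ≠ 0) {F : O → O → ℂ} {B : ℝ}
    (hp : ∀ a a' b b', IsCoprime a q → IsCoprime b q → q ∣ a - a' → q ∣ b - b' → F a b = F a' b')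
    (hB : ∀ a b, IsCoprime a q → IsCoprime b q → ‖F a b‖ ≤ B) :
    ∃ c : (O → ℂ) → (O → ℂ) → ℂ, (∀ ψ φ, ‖c ψ φ‖ ≤ B) ∧ ∀ a b, IsCoprime a q → IsCoprime b q →
      F a b = ∑ ψ ∈ Tw q, ∑ φ ∈ Tw q, c ψ φ * ψ a * φ b := by
  have hB0 : 0 ≤ B := (norm_nonneg _).trans (hB 1 1 isCoprime_one_left isCoprime_one_left)
  have key : ∀ ψ : O → ℂ, ∃ c : (O → ℂ) → ℂ, (∀ φ, ‖c φ‖ ≤ B) ∧ (IsTw q ψ →
      ∀ b, IsCoprime b q → twbc q (fun a => F a b) ψ = ∑ φ ∈ Tw q, c φ * φ b) := by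
    intro ψ
    by_cases hψ : IsTw q ψ
    · obtain ⟨c, hc, hc'⟩ := exists_Tw_expand hq (f := fun b => twbc q (fun a => F a b) ψ) (B := B)
        (fun b b' hb hbb => by
          unfold twbc
          congr 2
          funext a
          by_cases ha : IsCoprime a q
          · simp only [hp a a b b' ha hb (by simp) hbb]
          · rw [hψ.zero a ha, map_zero, mul_zero, mul_zero])
        fun b hb => twbc_le hq hψ fun a ha => hB a b ha hb
      exact ⟨c, hc, fun _ => hc'⟩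
    · exact ⟨fun _ => 0, fun _ => by rwa [norm_zero], fun h => absurd h hψ⟩
  choose c hc hc' using key
  refine ⟨c, hc, fun a b ha hb => ?_⟩
  rw [twbc_sum hq (f := fun a => F a b) (fun a a' ha haa => hp a a' b b ha hb haa (by simp)) ha]
  refine Finset.sum_congr rfl fun ψ hψ => ?_
  rw [hc' ψ ((mem_Tw hq).1 hψ) b hb, Finset.sum_mul]
  exact Finset.sum_congr rfl fun φ _ => by ring

theorem twb_four {a : O} : IsCoprime a 4 ↔ IsCoprime a 2 := by
  rw [show (4 : O) = 2 ^ 2 by norm_num, IsCoprime.pow_right_iff (by norm_num)]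

/-- `eps` in terms of characters modulo `4` -/
theorem exists_eps_expand : ∃ c : (O → ℂ) → (O → ℂ) → ℂ, (∀ ψ φ, ‖c ψ φ‖ ≤ 1) ∧
    ∀ a b, IsCoprime a 2 → IsCoprime b 2 →
      eps a b = ∑ ψ ∈ Tw 4, ∑ φ ∈ Tw 4, c ψ φ * ψ a * φ b := by
  obtain ⟨c, hc, hc'⟩ := exists_Tw_expand₂ (q := 4) (by norm_num) (F := eps) (B := 1)
    (fun a a' b b' ha hb h1 h2 => eps_congr (twb_four.1 ha) (twb_four.1 hb) h1 h2)
    fun a b ha hb => (norm_eps (twb_four.1 ha) (twb_four.1 hb)).le
  exact ⟨c, hc, fun a b ha hb => hc' a b (twb_four.2 ha) (twb_four.2 hb)⟩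

theorem exists_gam_expand : ∃ c : (O → ℂ) → ℂ, (∀ ψ, ‖c ψ‖ ≤ 1) ∧
    ∀ a, IsCoprime a 2 → gam a = ∑ ψ ∈ Tw 4, c ψ * ψ a := by
  obtain ⟨c, hc, hc'⟩ := exists_Tw_expand (q := 4) (by norm_num) (f := gam) (B := 1)
    (fun a b ha h => gam_congr (twb_four.1 ha) h) fun a ha => (norm_gam (twb_four.1 ha)).le
  exact ⟨c, hc, fun a ha => hc' a (twb_four.2 ha)⟩

end Crest.Agent.R17
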